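import Vale.Agent.P361.B.Dct

set_option linter.unusedSectionVars false

/-!
Part B: finite-volume upper bound for the partition function on cubes.
-/

namespace Vale.Agent.P361.B

open Finset
open Vale.Agent.P361.H (bJ bJ_nonneg bJ_antitone)

variable {n L : ℕ}

lemma Zt_pos_eig (n : ℕ) (Λ : Finset Site) (β t : ℝ) : 0 < Zt n Λ β t := by
  obtain ⟨E, Nn, ψ, _, _, _, hZ⟩ := exists_eigs n Λ
  rw [hZ]
  exact Finset.sum_pos (fun i _ => Real.exp_pos _) Finset.univ_nonempty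

lemma Zt_split (hn : 1 ≤ n) (hL : 0 < L) {β t E1 : ℝ} (hβ : 0 ≤ β) (ht : 0 < t) (hE1 : 0 < E1)
    (N1 : ℕ) :
    Zt n (cube L) β t ≤ Real.exp (-(β * E1 / 2)) * Zt n (cube L) (β / 2) 0 +
      Real.exp (-(t * N1)) * Zt n (cube L) β 0 +
      Real.exp (β * (12 * Real.exp 2 * ((N1 : ℝ) ^ 2 * (1 / L + 2 * bJ (2 * n / E1)) ^ 3))) *
        ∏ k : cube L, (1 - Real.exp (-(t + β * ((n : ℝ) / 2 * lam3 L k))))⁻¹ := by
  classical
  obtain ⟨E, Nn, ψ, hψ, hE0, horth, hZ⟩ := exists_eigs n (cube L)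
  rw [hZ, hZ, hZ]
  set I1 := Finset.univ.filter (fun i => E1 < E i) with hI1
  set I2 := Finset.univ.filter (fun i => E i ≤ E1 ∧ N1 < Nn i) with hI2
  set I3 := Finset.univ.filter (fun i => E i ≤ E1 ∧ Nn i ≤ N1) with hI3
  have hsplit : ∑ i, Real.exp (-(β * E i + t * Nn i)) =
      ∑ i ∈ I1, Real.exp (-(β * E i + t * Nn i)) + ∑ i ∈ I2, Real.exp (-(β * E i + t * Nn i)) +
      ∑ i ∈ I3, Real.exp (-(β * E i + t * Nn i)) := by
    rw [hI1, hI2, hI3, Finset.sum_filter, Finset.sum_filter, Finset.sum_filter,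
      ← Finset.sum_add_distrib, ← Finset.sum_add_distrib]
    refine Finset.sum_congr rfl fun i _ => ?_
    by_cases h1 : E1 < E i
    · rw [if_pos h1, if_neg (fun h => absurd h.1 (not_le.2 h1)),
        if_neg (fun h => absurd h.1 (not_le.2 h1))]
      ring
    · rw [not_lt] at h1
      by_cases h2 : N1 < Nn i
      · rw [if_neg (not_lt.2 h1), if_pos ⟨h1, h2⟩, if_neg (fun h => absurd h.2 (not_le.2 h2))]
        ring
      · rw [not_lt] at h2
        rw [if_neg (not_lt.2 h1), if_neg (fun h => absurd h.2 (not_lt.2 h2)), if_pos ⟨h1, h2⟩]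
        ring
  rw [hsplit]
  refine add_le_add (add_le_add ?_ ?_) ?_
  · rw [Finset.mul_sum]
    refine (Finset.sum_le_sum (fun i hi => ?_)).trans
      (Finset.sum_le_sum_of_subset_of_nonneg (Finset.subset_univ _)
        (fun i _ _ => mul_nonneg (Real.exp_pos _).le (Real.exp_pos _).le))
    rw [← Real.exp_add]
    apply Real.exp_le_exp.2
    have h1 : E1 < E i := (Finset.mem_filter.1 hi).2
    have h2 : 0 ≤ t * Nn i := by positivity
    have h3 : β * E1 ≤ β * E i := mul_le_mul_of_nonneg_left h1.le hβ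
    nlinarith
  · rw [Finset.mul_sum]
    refine (Finset.sum_le_sum (fun i hi => ?_)).trans
      (Finset.sum_le_sum_of_subset_of_nonneg (Finset.subset_univ _)
        (fun i _ _ => mul_nonneg (Real.exp_pos _).le (Real.exp_pos _).le))
    rw [← Real.exp_add]
    apply Real.exp_le_exp.2
    have h1 : N1 < Nn i := (Finset.mem_filter.1 hi).2.2
    have h2 : t * N1 ≤ t * Nn i := mul_le_mul_of_nonneg_left (by exact_mod_cast h1.le) ht.le
    linarith
  · have h := low_part (ι := cube L → Fin (n + 1)) hn (spec3 hL)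
      (fun x y hxy => H.isNN_symm hxy) (fun x hx => H.isNN_ne hx rfl)
      (D := 6) degree_le (by norm_num) dct3_sq_le bd3_nonneg hE1 (N1 := N1) hβ ht lam3_nonneg
      I3 E Nn ψ (fun i _ => hψ i) (fun i _ => hE0 i) (fun i hi => (Finset.mem_filter.1 hi).2.1)
      (fun i hi => (Finset.mem_filter.1 hi).2.2) (fun i _ j _ hij => horth i j hij)
    refine h.trans ?_
    have h1 : ∑ k : cube L, Real.exp (-(n * lam3 L k / E1)) * bd3 L k ≤
        (1 / L + 2 * bJ (2 * n / E1)) ^ 3 := by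
      have h2 := three_dim_sum_bd (L := L) hL (t := 2 * n / E1) (by positivity)
      refine le_trans (le_of_eq ?_) h2
      refine Finset.sum_congr rfl fun k _ => ?_
      congr 3
      field_simp
    have hprod : 0 ≤ ∏ k : cube L, (1 - Real.exp (-(t + β * ((n : ℝ) / 2 * lam3 L k))))⁻¹ := by
      refine Finset.prod_nonneg fun k _ => inv_nonneg.2 (sub_nonneg.2 ?_)
      rw [Real.exp_le_one_iff]
      have : 0 ≤ β * ((n : ℝ) / 2 * lam3 L k) :=
        mul_nonneg hβ (mul_nonneg (by positivity) (lam3_nonneg k))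
      linarith
    refine mul_le_mul_of_nonneg_right ?_ hprod
    apply Real.exp_le_exp.2
    refine mul_le_mul_of_nonneg_left ?_ hβ
    have h3 : (2 : ℝ) * 6 * Real.exp 2 = 12 * Real.exp 2 := by ring
    rw [h3]
    refine mul_le_mul_of_nonneg_left ?_ (by positivity)
    exact mul_le_mul_of_nonneg_left h1 (by positivity)

/-- Free boson pressure series. -/
noncomputable def bosSer (n L : ℕ) (β t : ℝ) : ℝ :=
  ∑' j : ℕ, Real.exp (-(((j : ℝ) + 1) * t)) / ((j : ℝ) + 1) *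
    (1 + L * bJ (((j : ℝ) + 1) * (n * β))) ^ 3

lemma bJ_le_one {t : ℝ} (ht : 0 ≤ t) : bJ t ≤ 1 := by
  have h1 := bJ_antitone ht
  have h2 : bJ 0 = 1 := by
    unfold bJ
    simp
  rw [h2] at h1
  exact h1

lemma bosSer_summable (n L : ℕ) {β t : ℝ} (hβ : 0 ≤ β) (ht : 0 < t) :
    Summable fun j : ℕ => Real.exp (-(((j : ℝ) + 1) * t)) / ((j : ℝ) + 1) *
    (1 + L * bJ (((j : ℝ) + 1) * (n * β))) ^ 3 := by
  have hgeo : Summable fun j : ℕ => (1 + (L : ℝ)) ^ 3 * Real.exp (-t) ^ (j + 1) := by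
    refine Summable.mul_left _ ?_
    exact (summable_nat_add_iff 1).2 (summable_geometric_of_lt_one (Real.exp_pos _).le
      (by rw [Real.exp_lt_one_iff]; linarith))
  refine Summable.of_nonneg_of_le (fun j => ?_) (fun j => ?_) hgeo
  · have := bJ_nonneg (((j : ℝ) + 1) * (n * β))
    positivity
  · have h1 : Real.exp (-(((j : ℝ) + 1) * t)) / ((j : ℝ) + 1) ≤ Real.exp (-t) ^ (j + 1) := by
      rw [← Real.exp_nat_mul, div_le_iff₀ (by positivity)]
      have : Real.exp (-(((j : ℝ) + 1) * t)) = Real.exp (((j + 1 : ℕ) : ℝ) * -t) := by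
        congr 1; push_cast; ring
      rw [this]
      have h2 := Real.exp_pos (((j + 1 : ℕ) : ℝ) * -t)
      have h3 : (1 : ℝ) ≤ (j : ℝ) + 1 := by
        have : (0 : ℝ) ≤ j := by positivity
        linarith
      nlinarith
    have h2 : (1 + L * bJ (((j : ℝ) + 1) * (n * β))) ^ 3 ≤ (1 + (L : ℝ)) ^ 3 := by
      have hb := bJ_nonneg (((j : ℝ) + 1) * (n * β))
      refine pow_le_pow_left₀ (by positivity) ?_ 3
      have h3 := bJ_le_one (t := ((j : ℝ) + 1) * (n * β)) (by positivity)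
      have : (L : ℝ) * bJ (((j : ℝ) + 1) * (n * β)) ≤ L * 1 :=
        mul_le_mul_of_nonneg_left h3 (by positivity)
      linarith
    calc _ ≤ Real.exp (-t) ^ (j + 1) * (1 + (L : ℝ)) ^ 3 := by
          have hb := bJ_nonneg (((j : ℝ) + 1) * (n * β))
          exact mul_le_mul h1 h2 (by positivity) (by positivity)
      _ = _ := mul_comm _ _

lemma log_prod_le (hL : 0 < L) {β t : ℝ} (hβ : 0 ≤ β) (ht : 0 < t) :
    Real.log (∏ k : cube L, (1 - Real.exp (-(t + β * ((n : ℝ) / 2 * lam3 L k))))⁻¹) ≤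
      bosSer n L β t := by
  set q : cube L → ℝ := fun k => Real.exp (-(t + β * ((n : ℝ) / 2 * lam3 L k))) with hq
  have hq0 : ∀ k, 0 < q k := fun k => Real.exp_pos _
  have hq1 : ∀ k, q k < 1 := by
    intro k
    simp only [hq]
    rw [Real.exp_lt_one_iff]
    have : 0 ≤ β * ((n : ℝ) / 2 * lam3 L k) :=
      mul_nonneg hβ (mul_nonneg (by positivity) (lam3_nonneg k))
    linarith
  have h1 : Real.log (∏ k : cube L, (1 - q k)⁻¹) = ∑ k, - Real.log (1 - q k) := by
    rw [Real.log_prod (fun k _ => inv_ne_zero (sub_pos.2 (hq1 k)).ne')]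
    exact Finset.sum_congr rfl fun k _ => Real.log_inv _
  have h2 : HasSum (fun j : ℕ => ∑ k, q k ^ (j + 1) / ((j : ℝ) + 1))
      (∑ k, - Real.log (1 - q k)) := by
    refine hasSum_sum fun k _ => ?_
    exact Real.hasSum_pow_div_log_of_abs_lt_one (by rw [abs_of_pos (hq0 k)]; exact hq1 k)
  rw [h1, ← h2.tsum_eq, bosSer]
  refine h2.summable.tsum_le_tsum (fun j => ?_) (bosSer_summable n L hβ ht)
  have h3 : ∑ k, q k ^ (j + 1) / ((j : ℝ) + 1) = Real.exp (-(((j : ℝ) + 1) * t)) / ((j : ℝ) + 1) *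
      ∑ k : cube L, Real.exp (-((((j : ℝ) + 1) * (n * β)) / 2 * lam3 L k)) := by
    rw [Finset.mul_sum]
    refine Finset.sum_congr rfl fun k _ => ?_
    simp only [hq]
    have e7 : Real.exp (-(t + β * ((n : ℝ) / 2 * lam3 L k))) ^ (j + 1) =
        Real.exp (-(((j : ℝ) + 1) * t)) *
          Real.exp (-((((j : ℝ) + 1) * (n * β)) / 2 * lam3 L k)) := by
      rw [← Real.exp_nat_mul, ← Real.exp_add]
      congr 1
      push_cast
      ring
    rw [e7]
    ring
  rw [h3]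
  exact mul_le_mul_of_nonneg_left (three_dim_sum hL (by positivity)) (by positivity)

lemma one_le_prod (L : ℕ) {β t : ℝ} (hβ : 0 ≤ β) (ht : 0 < t) :
    1 ≤ ∏ k : cube L, (1 - Real.exp (-(t + β * ((n : ℝ) / 2 * lam3 L k))))⁻¹ := by
  have : ∏ _k : cube L, (1 : ℝ) ≤
      ∏ k : cube L, (1 - Real.exp (-(t + β * ((n : ℝ) / 2 * lam3 L k))))⁻¹ := by
    refine Finset.prod_le_prod (fun _ _ => zero_le_one) fun k _ => ?_
    have h1 : 0 < Real.exp (-(t + β * ((n : ℝ) / 2 * lam3 L k))) := Real.exp_pos _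
    have h2 : Real.exp (-(t + β * ((n : ℝ) / 2 * lam3 L k))) < 1 := by
      rw [Real.exp_lt_one_iff]
      have : 0 ≤ β * ((n : ℝ) / 2 * lam3 L k) :=
        mul_nonneg hβ (mul_nonneg (by positivity) (lam3_nonneg k))
      linarith
    exact (one_le_inv₀ (by linarith)).2 (by linarith)
  simpa using this

/-- Finite-volume upper bound. -/
theorem logZt_upper (hn : 1 ≤ n) (hL : 0 < L) {β t E1 : ℝ} (hβ : 0 ≤ β) (ht : 0 < t)
    (hE1 : 0 < E1) (N1 : ℕ) (h1 : Real.log (Zt n (cube L) (β / 2) 0) ≤ β * E1 / 2)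
    (h2 : Real.log (Zt n (cube L) β 0) ≤ t * N1) :
    Real.log (Zt n (cube L) β t) ≤ Real.log 3 +
      β * (12 * Real.exp 2 * ((N1 : ℝ) ^ 2 * (1 / L + 2 * bJ (2 * n / E1)) ^ 3)) +
      bosSer n L β t := by
  have hb := bJ_nonneg (2 * n / E1)
  set d := 12 * Real.exp 2 * ((N1 : ℝ) ^ 2 * (1 / L + 2 * bJ (2 * n / E1)) ^ 3) with hd
  have hd0 : 0 ≤ d := by rw [hd]; positivity
  set P := ∏ k : cube L, (1 - Real.exp (-(t + β * ((n : ℝ) / 2 * lam3 L k))))⁻¹ with hP
  have hP1 : 1 ≤ P := one_le_prod L hβ ht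
  have hX1 : 1 ≤ Real.exp (β * d) := Real.one_le_exp (mul_nonneg hβ hd0)
  have hmain := Zt_split hn hL hβ ht hE1 N1
  have e1 : Real.exp (-(β * E1 / 2)) * Zt n (cube L) (β / 2) 0 ≤ 1 := by
    have h3 : Zt n (cube L) (β / 2) 0 ≤ Real.exp (β * E1 / 2) := by
      rw [← Real.log_le_iff_le_exp (Zt_pos_eig _ _ _ _)]; exact h1
    calc _ ≤ Real.exp (-(β * E1 / 2)) * Real.exp (β * E1 / 2) :=
          mul_le_mul_of_nonneg_left h3 (Real.exp_pos _).le
      _ = 1 := by rw [← Real.exp_add]; simp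
  have e2 : Real.exp (-(t * N1)) * Zt n (cube L) β 0 ≤ 1 := by
    have h3 : Zt n (cube L) β 0 ≤ Real.exp (t * N1) := by
      rw [← Real.log_le_iff_le_exp (Zt_pos_eig _ _ _ _)]; exact h2
    calc _ ≤ Real.exp (-(t * N1)) * Real.exp (t * N1) :=
          mul_le_mul_of_nonneg_left h3 (Real.exp_pos _).le
      _ = 1 := by rw [← Real.exp_add]; simp
  have e3 : 1 ≤ Real.exp (β * d) * P := one_le_mul_of_one_le_of_one_le hX1 hP1
  have e4 : Zt n (cube L) β t ≤ 3 * (Real.exp (β * d) * P) := by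
    have : Zt n (cube L) β t ≤ 1 + 1 + Real.exp (β * d) * P := by
      refine hmain.trans ?_
      exact add_le_add (add_le_add e1 e2) le_rfl
    linarith
  have e5 := Real.log_le_log (Zt_pos_eig n (cube L) β t) e4
  have hP0 : 0 < P := by linarith
  rw [Real.log_mul (by norm_num) (by positivity), Real.log_mul (Real.exp_pos _).ne' hP0.ne',
    Real.log_exp] at e5
  have e6 := log_prod_le (n := n) hL hβ ht
  rw [← hP] at e6
  linarith

end Vale.Agent.P361.B
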