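import Vale.Agent.P361.B.Uniform
import Vale.Agent.P361.B.FinUpper

/-!
Part B: asymptotics of the free boson pressure of the cube.
-/

namespace Vale.Agent.P361.B

open MeasureTheory Filter Topology Finset

theorem sq_exp_le {y : ℝ} (hy : 0 ≤ y) : y ^ 2 * Real.exp (-(y / 10)) ≤ 200 := by
  have h := Real.quadratic_le_exp_of_nonneg (x := y / 10) (by positivity)
  rw [Real.exp_neg, ← div_eq_mul_inv, div_le_iff₀ (Real.exp_pos _)]
  nlinarith

theorem exp_cos_le {a θ : ℝ} (ha : 1 ≤ a) (h0 : 0 ≤ θ) (h1 : θ ≤ Real.pi) :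
    Real.exp (-a * (1 - Real.cos θ)) ≤ Real.exp (-(a / 2) * θ ^ 2) +
      200 / a * Real.exp (-(a / 10) * θ ^ 2) := by
  have ha0 : 0 < a := by linarith
  have key : Real.exp (-a * (1 - Real.cos θ)) ≤ Real.exp (-(a / 2) * θ ^ 2) +
      a * θ ^ 4 * Real.exp (-(a / 5) * θ ^ 2) := by
    rcases le_or_gt θ 1 with h | h
    · have hb := (abs_le.1 (Real.cos_bound (x := θ) (by rw [abs_of_nonneg h0]; exact h))).2
      rw [abs_of_nonneg h0] at hb
      set w : ℝ := a * (θ ^ 4 * (5 / 96)) with hw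
      have hw0 : 0 ≤ w := by positivity
      have hθ2 : θ ^ 2 ≤ 1 := by nlinarith
      have hw1 : w ≤ a / 4 * θ ^ 2 := by
        have : θ ^ 4 = θ ^ 2 * θ ^ 2 := by ring
        rw [hw, this]
        nlinarith [mul_nonneg ha0.le (sq_nonneg θ), mul_le_mul_of_nonneg_left hθ2
          (mul_nonneg ha0.le (sq_nonneg θ))]
      have e1 : Real.exp (-a * (1 - Real.cos θ)) ≤ Real.exp (-(a / 2) * θ ^ 2 + w) := by
        apply Real.exp_le_exp.2
        rw [hw]
        nlinarith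
      have e2 : Real.exp w ≤ 1 + w * Real.exp w := by
        have := Real.add_one_le_exp (-w)
        have h3 : Real.exp w * Real.exp (-w) = 1 := by rw [← Real.exp_add]; simp
        nlinarith [Real.exp_pos w]
      have e3 : w * Real.exp w * Real.exp (-(a / 2) * θ ^ 2) ≤
          a * θ ^ 4 * Real.exp (-(a / 5) * θ ^ 2) := by
        rw [mul_assoc, ← Real.exp_add]
        refine mul_le_mul ?_ (Real.exp_le_exp.2 ?_) (Real.exp_pos _).le (by positivity)
        · rw [hw]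
          have : 0 ≤ a * θ ^ 4 := by positivity
          nlinarith
        · nlinarith [mul_nonneg ha0.le (sq_nonneg θ)]
      calc Real.exp (-a * (1 - Real.cos θ)) ≤ Real.exp (-(a / 2) * θ ^ 2 + w) := e1
        _ = Real.exp w * Real.exp (-(a / 2) * θ ^ 2) := by rw [← Real.exp_add, add_comm]
        _ ≤ (1 + w * Real.exp w) * Real.exp (-(a / 2) * θ ^ 2) :=
            mul_le_mul_of_nonneg_right e2 (Real.exp_pos _).le
        _ = Real.exp (-(a / 2) * θ ^ 2) + w * Real.exp w * Real.exp (-(a / 2) * θ ^ 2) := by ring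
        _ ≤ _ := by linarith
    · have hc := Real.cos_le_one_sub_mul_cos_sq (x := θ) (by rw [abs_of_nonneg h0]; exact h1)
      have hpi2 : Real.pi ^ 2 ≤ 10 := by nlinarith [Real.pi_lt_d2, Real.pi_pos]
      have h5 : θ ^ 2 / 5 ≤ 1 - Real.cos θ := by
        have h6 : 1 / 5 ≤ 2 / Real.pi ^ 2 := by
          rw [div_le_div_iff₀ (by norm_num) (by positivity)]
          linarith
        nlinarith [mul_le_mul_of_nonneg_right h6 (sq_nonneg θ)]
      have e1 : Real.exp (-a * (1 - Real.cos θ)) ≤ Real.exp (-(a / 5) * θ ^ 2) := by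
        apply Real.exp_le_exp.2
        nlinarith
      have e2 : 1 ≤ a * θ ^ 4 := by
        have h7 : 1 ≤ θ ^ 2 := by nlinarith
        have h8 : 1 ≤ θ ^ 4 := by nlinarith
        nlinarith
      have e3 : Real.exp (-(a / 5) * θ ^ 2) ≤ a * θ ^ 4 * Real.exp (-(a / 5) * θ ^ 2) :=
        le_mul_of_one_le_left (Real.exp_pos _).le e2
      linarith [Real.exp_pos (-(a / 2) * θ ^ 2)]
  refine key.trans (add_le_add le_rfl ?_)
  have h2 := sq_exp_le (y := a * θ ^ 2) (by positivity)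
  have e1 : a * θ ^ 4 * Real.exp (-(a / 5) * θ ^ 2) = (1 / a) *
      (((a * θ ^ 2) ^ 2 * Real.exp (-((a * θ ^ 2) / 10))) * Real.exp (-(a / 10) * θ ^ 2)) := by
    have : Real.exp (-(a / 5) * θ ^ 2) =
        Real.exp (-((a * θ ^ 2) / 10)) * Real.exp (-(a / 10) * θ ^ 2) := by
      rw [← Real.exp_add]; congr 1; ring
    rw [this]
    field_simp
  rw [e1]
  have h3 : (1 / a) * (((a * θ ^ 2) ^ 2 * Real.exp (-((a * θ ^ 2) / 10))) *
      Real.exp (-(a / 10) * θ ^ 2)) ≤ (1 / a) * (200 * Real.exp (-(a / 10) * θ ^ 2)) :=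
    mul_le_mul_of_nonneg_left (mul_le_mul_of_nonneg_right h2 (Real.exp_pos _).le) (by positivity)
  refine h3.trans (le_of_eq ?_)
  ring

/-- Upper bound of the Bessel factor. -/
theorem bJ_upper {a : ℝ} (ha : 1 ≤ a) :
    Real.sqrt (2 * Real.pi * a) * H.bJ a ≤ 1 + 448 / a := by
  have ha0 : 0 < a := by linarith
  have hpi := Real.pi_pos
  have hint : ∀ b : ℝ, 0 < b → IntegrableOn (fun u : ℝ => Real.exp (-b * u ^ 2)) (Set.Ioi 0) :=
    fun b hb => (integrable_exp_neg_mul_sq hb).integrableOn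
  have h1 : ∫ θ in (0 : ℝ)..Real.pi, Real.exp (-a * (1 - Real.cos θ)) ≤
      ∫ θ in Set.Ioi (0 : ℝ), (Real.exp (-(a / 2) * θ ^ 2) +
      200 / a * Real.exp (-(a / 10) * θ ^ 2)) := by
    rw [intervalIntegral.integral_of_le hpi.le]
    have hi := (hint (a / 2) (by positivity)).add ((hint (a / 10) (by positivity)).const_mul
      (200 / a))
    calc ∫ θ in Set.Ioc 0 Real.pi, Real.exp (-a * (1 - Real.cos θ)) ≤
        ∫ θ in Set.Ioc 0 Real.pi, (Real.exp (-(a / 2) * θ ^ 2) +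
          200 / a * Real.exp (-(a / 10) * θ ^ 2)) := by
          refine setIntegral_mono_on ?_ (hi.mono_set Set.Ioc_subset_Ioi_self) measurableSet_Ioc
            fun θ hθ => exp_cos_le ha hθ.1.le hθ.2
          exact (Continuous.integrableOn_Icc (by fun_prop)).mono_set Set.Ioc_subset_Icc_self
      _ ≤ _ := by
          refine setIntegral_mono_set hi ?_ Set.Ioc_subset_Ioi_self.eventuallyLE
          exact Filter.Eventually.of_forall fun θ => by
            simp only [Pi.zero_apply]; positivity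
  rw [integral_add (hint (a / 2) (by positivity)) ((hint (a / 10) (by positivity)).const_mul
      (200 / a)), integral_const_mul, integral_gaussian_Ioi, integral_gaussian_Ioi] at h1
  rw [H.bJ]
  have h2 := mul_le_mul_of_nonneg_left h1 (a := Real.sqrt (2 * Real.pi * a) * Real.pi⁻¹)
    (by positivity)
  rw [mul_assoc] at h2
  refine h2.trans ?_
  have e1 : Real.sqrt (2 * Real.pi * a) * Real.sqrt (Real.pi / (a / 2)) = 2 * Real.pi := by
    rw [← Real.sqrt_mul (by positivity),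
      show 2 * Real.pi * a * (Real.pi / (a / 2)) = (2 * Real.pi) ^ 2 by field_simp,
      Real.sqrt_sq (by positivity)]
  have e2 : Real.sqrt (2 * Real.pi * a) * Real.sqrt (Real.pi / (a / 10)) ≤ 4.48 * Real.pi := by
    rw [← Real.sqrt_mul (by positivity),
      show 2 * Real.pi * a * (Real.pi / (a / 10)) = 20 * Real.pi ^ 2 by field_simp; ring]
    rw [show 4.48 * Real.pi = Real.sqrt ((4.48 * Real.pi) ^ 2) by rw [Real.sqrt_sq (by positivity)]]
    refine Real.sqrt_le_sqrt ?_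
    nlinarith [sq_nonneg Real.pi]
  have e3 : Real.sqrt (2 * Real.pi * a) * (Real.pi⁻¹ * (Real.sqrt (Real.pi / (a / 2)) / 2 +
      200 / a * (Real.sqrt (Real.pi / (a / 10)) / 2))) =
      Real.pi⁻¹ * ((Real.sqrt (2 * Real.pi * a) * Real.sqrt (Real.pi / (a / 2))) / 2 +
        100 / a * (Real.sqrt (2 * Real.pi * a) * Real.sqrt (Real.pi / (a / 10)))) := by ring
  rw [mul_assoc, e3, e1]
  have h3 : Real.pi⁻¹ * (2 * Real.pi / 2 + 100 / a * (Real.sqrt (2 * Real.pi * a) *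
      Real.sqrt (Real.pi / (a / 10)))) ≤ Real.pi⁻¹ * (2 * Real.pi / 2 + 100 / a *
        (4.48 * Real.pi)) := by
    refine mul_le_mul_of_nonneg_left (add_le_add le_rfl ?_) (by positivity)
    exact mul_le_mul_of_nonneg_left e2 (by positivity)
  refine h3.trans (le_of_eq ?_)
  field_simp
  ring

theorem cube_add_pow {L y w : ℝ} (hL : 0 ≤ L) (hy : 0 ≤ y) (hw : 0 ≤ w) (hw1 : w ≤ 1) :
    (1 + L * (y * (1 + w))) ^ 3 ≤
      L ^ 3 * y ^ 3 * (1 + 7 * w) + 12 * (L ^ 2 * y ^ 2) + 6 * (L * y) + 1 := by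
  have h1 : (1 + w) ^ 3 ≤ 1 + 7 * w := by nlinarith [mul_nonneg hw hw, mul_nonneg (mul_nonneg hw hw) hw]
  have h2 : (1 + w) ^ 2 ≤ 4 := by nlinarith
  have e : (1 + L * (y * (1 + w))) ^ 3 = L ^ 3 * y ^ 3 * (1 + w) ^ 3 +
      3 * (L ^ 2 * y ^ 2) * (1 + w) ^ 2 + 3 * (L * y) * (1 + w) + 1 := by ring
  rw [e]
  have h3 : L ^ 3 * y ^ 3 * (1 + w) ^ 3 ≤ L ^ 3 * y ^ 3 * (1 + 7 * w) :=
    mul_le_mul_of_nonneg_left h1 (by positivity)
  have h4 : 3 * (L ^ 2 * y ^ 2) * (1 + w) ^ 2 ≤ 3 * (L ^ 2 * y ^ 2) * 4 :=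
    mul_le_mul_of_nonneg_left h2 (by positivity)
  have h5 : 3 * (L * y) * (1 + w) ≤ 3 * (L * y) * 2 :=
    mul_le_mul_of_nonneg_left (by linarith) (by positivity)
  linarith

/-- One order of the fugacity expansion. -/
theorem order_bound {n : ℕ} (hn : 1 ≤ n) {β : ℝ} (hβ : 448 ≤ β) {L : ℕ} (hL : 0 < L) (r : ℕ) :
    Real.sqrt β ^ 3 / (L : ℝ) ^ 3 * (1 + L * H.bJ (((r : ℝ) + 1) * (n * β))) ^ 3 ≤
    (Real.sqrt (4 * Real.pi * ((n : ℝ) / 2)) ^ 3)⁻¹ * (1 / Real.sqrt ((r : ℝ) + 1) ^ 3) *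
      (1 + 7 * (448 / β)) +
    12 * (Real.sqrt (4 * Real.pi * ((n : ℝ) / 2)) ^ 2)⁻¹ * (Real.sqrt β / L) *
      (1 / Real.sqrt ((r : ℝ) + 1) ^ 2) +
    6 * (Real.sqrt (4 * Real.pi * ((n : ℝ) / 2)))⁻¹ * (β / (L : ℝ) ^ 2) *
      (1 / Real.sqrt ((r : ℝ) + 1)) + Real.sqrt β ^ 3 / (L : ℝ) ^ 3 := by
  have hnR : (1 : ℝ) ≤ n := by exact_mod_cast hn
  have hn0 : (0 : ℝ) < n := by linarith
  have hβ0 : 0 < β := by linarith
  have hLR : (0 : ℝ) < L := by exact_mod_cast hL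
  have hpi := Real.pi_pos
  have hr : (1 : ℝ) ≤ (r : ℝ) + 1 := by linarith [Nat.cast_nonneg (α := ℝ) r]
  set c : ℝ := ((r : ℝ) + 1) * (n * β) with hc
  have hβc : β ≤ c := by
    rw [hc]
    nlinarith [mul_le_mul hr hnR (by norm_num) (by linarith)]
  have hc0 : 0 < c := by linarith
  have h2 := bJ_upper (a := c) (by linarith)
  set w : ℝ := 448 / β with hw
  have hw0 : 0 ≤ w := by positivity
  have hw1 : w ≤ 1 := by rw [hw, div_le_one hβ0]; exact hβ
  have h3 : 448 / c ≤ w := div_le_div_of_nonneg_left (by norm_num) hβ0 hβc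
  have hsr : 0 < Real.sqrt ((r : ℝ) + 1) := Real.sqrt_pos.2 (by positivity)
  have hsb : 0 < Real.sqrt β := Real.sqrt_pos.2 hβ0
  have hs4 : 0 < Real.sqrt (4 * Real.pi * ((n : ℝ) / 2)) := Real.sqrt_pos.2 (by positivity)
  have e1 : Real.sqrt (2 * Real.pi * c) =
      Real.sqrt (4 * Real.pi * ((n : ℝ) / 2)) * (Real.sqrt β * Real.sqrt ((r : ℝ) + 1)) := by
    rw [← Real.sqrt_mul hβ0.le, ← Real.sqrt_mul (by positivity)]
    congr 1
    rw [hc]; ring
  set A := Real.sqrt (4 * Real.pi * ((n : ℝ) / 2)) with hA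
  set y : ℝ := (A * (Real.sqrt β * Real.sqrt ((r : ℝ) + 1)))⁻¹ with hy
  have hy0 : 0 < y := by positivity
  have h4 : H.bJ c ≤ y * (1 + w) := by
    rw [hy, inv_mul_eq_div, le_div_iff₀ (by positivity), ← e1, mul_comm]
    linarith
  have h5 : (1 + (L : ℝ) * H.bJ c) ^ 3 ≤ (1 + L * (y * (1 + w))) ^ 3 := by
    refine pow_le_pow_left₀ ?_ ?_ 3
    · have := H.bJ_nonneg c
      positivity
    · have := mul_le_mul_of_nonneg_left h4 hLR.le
      linarith
  have h6 := cube_add_pow hLR.le hy0.le hw0 hw1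
  have h7 := mul_le_mul_of_nonneg_left (h5.trans h6)
    (a := Real.sqrt β ^ 3 / (L : ℝ) ^ 3) (by positivity)
  refine h7.trans (le_of_eq ?_)
  have e2 : β = Real.sqrt β ^ 2 := (Real.sq_sqrt hβ0.le).symm
  have e3 : β / (L : ℝ) ^ 2 = Real.sqrt β ^ 2 / (L : ℝ) ^ 2 := by rw [← e2]
  rw [e3, hy]
  field_simp

/-- Asymptotics of the free boson pressure. -/
theorem bosSer_le {n : ℕ} (hn : 1 ≤ n) : ∃ C : ℝ, 0 ≤ C ∧ ∀ β : ℝ, 448 ≤ β → ∀ L : ℕ, 0 < L →
    ∀ t : ℝ, 0 < t →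
    Real.sqrt β ^ 3 / (L : ℝ) ^ 3 * bosSer n L β t ≤
    FS ((n : ℝ) / 2) t + C * (1 / β + Real.sqrt β / L + β / (L : ℝ) ^ 2) +
      Real.sqrt β ^ 3 / (L : ℝ) ^ 3 / t := by
  set A := Real.sqrt (4 * Real.pi * ((n : ℝ) / 2)) with hA
  have hnR : (1 : ℝ) ≤ n := by exact_mod_cast hn
  have hpi := Real.pi_pos
  have hA0 : 0 < A := Real.sqrt_pos.2 (by positivity)
  set z : ℝ := ∑' r : ℕ, 1 / Real.sqrt ((r : ℝ) + 1) ^ 3 with hz
  have hz0 : 0 ≤ z := tsum_nonneg fun r => by positivity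
  have haS : aS ((n : ℝ) / 2) = (A ^ 3)⁻¹ * z := by rw [aS, ← H.zeta_hasSum.tsum_eq]
  refine ⟨7 * 448 * ((A ^ 3)⁻¹ * z) + 12 * (A ^ 2)⁻¹ * z + 6 * A⁻¹ * z, by positivity, ?_⟩
  intro β hβ L hL t ht
  have hβ0 : 0 < β := by linarith
  have hLR : (0 : ℝ) < L := by exact_mod_cast hL
  have hsb : 0 < Real.sqrt β := Real.sqrt_pos.2 hβ0
  have h1 := ((bosSer_summable n L hβ0.le ht).hasSum).mul_left (Real.sqrt β ^ 3 / (L : ℝ) ^ 3)
  -- majorant
  have hgeo : HasSum (fun r : ℕ => Real.exp (-(((r : ℝ) + 1) * t))) (1 / (Real.exp t - 1)) := by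
    have hlt : Real.exp (-t) < 1 := by rw [Real.exp_lt_one_iff]; linarith
    have h2 := (hasSum_geometric_of_lt_one (Real.exp_pos (-t)).le hlt).mul_left (Real.exp (-t))
    have e1 : Real.exp (-t) * (1 - Real.exp (-t))⁻¹ = 1 / (Real.exp t - 1) := by
      have h3 : Real.exp t * Real.exp (-t) = 1 := by rw [← Real.exp_add]; simp
      have h4 : 1 < Real.exp t := by rw [Real.one_lt_exp_iff]; exact ht
      have h5 : 0 < 1 - Real.exp (-t) := by linarith
      rw [eq_div_iff (by linarith), ← div_eq_mul_inv, div_mul_eq_mul_div, div_eq_iff h5.ne']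
      linear_combination h3
    rw [e1] at h2
    have e2 : (fun r : ℕ => Real.exp (-(((r : ℝ) + 1) * t))) =
        fun r : ℕ => Real.exp (-t) * Real.exp (-t) ^ r := by
      ext1 r
      rw [← Real.exp_nat_mul, ← Real.exp_add]
      congr 1; ring
    rw [e2]
    exact h2
  have hF := (summable_F ht.le).hasSum
  have hz' : HasSum (fun r : ℕ => 1 / Real.sqrt ((r : ℝ) + 1) ^ 3) z := zsum.hasSum
  have h2 := (((hF.mul_left ((A ^ 3)⁻¹ * (1 + 7 * (448 / β)))).add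
    (hz'.mul_left (12 * (A ^ 2)⁻¹ * (Real.sqrt β / L)))).add
    (hz'.mul_left (6 * A⁻¹ * (β / (L : ℝ) ^ 2)))).add
    (hgeo.mul_left (Real.sqrt β ^ 3 / (L : ℝ) ^ 3))
  have h3 := hasSum_le (fun r => ?_) h1 h2
  · refine h3.trans ?_
    have e1 : (A ^ 3)⁻¹ * ∑' r : ℕ, Real.exp (-(((r : ℝ) + 1) * t)) /
        (((r : ℝ) + 1) * Real.sqrt ((r : ℝ) + 1) ^ 3) = FS ((n : ℝ) / 2) t := rfl
    have e2 : (A ^ 3)⁻¹ * (1 + 7 * (448 / β)) * ∑' r : ℕ, Real.exp (-(((r : ℝ) + 1) * t)) /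
        (((r : ℝ) + 1) * Real.sqrt ((r : ℝ) + 1) ^ 3) = FS ((n : ℝ) / 2) t +
        7 * 448 * FS ((n : ℝ) / 2) t * (1 / β) := by
      rw [← e1]; ring
    have e3 := FS_le ((n : ℝ) / 2) ht.le
    rw [haS] at e3
    have e4 : 7 * 448 * FS ((n : ℝ) / 2) t * (1 / β) ≤ 7 * 448 * ((A ^ 3)⁻¹ * z) * (1 / β) := by
      refine mul_le_mul_of_nonneg_right ?_ (by positivity)
      linarith
    have e5 : Real.sqrt β ^ 3 / (L : ℝ) ^ 3 * (1 / (Real.exp t - 1)) ≤
        Real.sqrt β ^ 3 / (L : ℝ) ^ 3 / t := by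
      rw [div_eq_mul_one_div _ t]
      refine mul_le_mul_of_nonneg_left ?_ (by positivity)
      refine one_div_le_one_div_of_le ht ?_
      linarith [Real.add_one_le_exp t]
    have p1 : 0 ≤ 12 * (A ^ 2)⁻¹ * z := by positivity
    have p2 : 0 ≤ 6 * A⁻¹ * z := by positivity
    have p3 : 0 ≤ 7 * 448 * ((A ^ 3)⁻¹ * z) := by positivity
    have q1 : 0 ≤ 1 / β := by positivity
    have q2 : 0 ≤ Real.sqrt β / L := by positivity
    have q3 : 0 ≤ β / (L : ℝ) ^ 2 := by positivity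
    rw [e2]
    nlinarith [mul_nonneg p1 q1, mul_nonneg p1 q3, mul_nonneg p2 q1, mul_nonneg p2 q2,
      mul_nonneg p3 q2, mul_nonneg p3 q3]
  · -- termwise
    have hr1 : (1 : ℝ) ≤ (r : ℝ) + 1 := by linarith [Nat.cast_nonneg (α := ℝ) r]
    have hsr : 0 < Real.sqrt ((r : ℝ) + 1) := Real.sqrt_pos.2 (by positivity)
    have hsr1 : 1 ≤ Real.sqrt ((r : ℝ) + 1) := by rw [Real.one_le_sqrt]; exact hr1
    have hsr2 : Real.sqrt ((r : ℝ) + 1) ^ 2 = (r : ℝ) + 1 := Real.sq_sqrt (by positivity)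
    have hsr3 : Real.sqrt ((r : ℝ) + 1) ^ 3 = ((r : ℝ) + 1) * Real.sqrt ((r : ℝ) + 1) := by
      calc Real.sqrt ((r : ℝ) + 1) ^ 3 = Real.sqrt ((r : ℝ) + 1) ^ 2 * Real.sqrt ((r : ℝ) + 1) := by
            ring
        _ = _ := by rw [hsr2]
    rw [mul_left_comm]
    have h4 := mul_le_mul_of_nonneg_left (order_bound hn hβ hL r)
      (a := Real.exp (-(((r : ℝ) + 1) * t)) / ((r : ℝ) + 1)) (by positivity)
    refine h4.trans ?_
    rw [← hA]
    have hE0 := Real.exp_pos (-(((r : ℝ) + 1) * t))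
    have hE1 := exp_le_one ht.le r
    set e := Real.exp (-(((r : ℝ) + 1) * t)) with he
    rw [mul_add, mul_add, mul_add]
    refine add_le_add (add_le_add (add_le_add ?_ ?_) ?_) ?_
    · apply le_of_eq
      field_simp
    · have : e / ((r : ℝ) + 1) * (12 * (A ^ 2)⁻¹ * (Real.sqrt β / L) *
          (1 / Real.sqrt ((r : ℝ) + 1) ^ 2)) = 12 * (A ^ 2)⁻¹ * (Real.sqrt β / L) *
          (e / (((r : ℝ) + 1) * Real.sqrt ((r : ℝ) + 1) ^ 2)) := by
        rw [← div_div]; ring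
      rw [this]
      refine mul_le_mul_of_nonneg_left ?_ (by positivity)
      refine div_le_div₀ (by norm_num) hE1 (by positivity) ?_
      rw [hsr2]
      rw [hsr3]
      refine mul_le_mul_of_nonneg_left ?_ (by positivity)
      nlinarith
    · have : e / ((r : ℝ) + 1) * (6 * A⁻¹ * (β / (L : ℝ) ^ 2) *
          (1 / Real.sqrt ((r : ℝ) + 1))) = 6 * A⁻¹ * (β / (L : ℝ) ^ 2) *
          (e / (((r : ℝ) + 1) * Real.sqrt ((r : ℝ) + 1))) := by
        rw [← div_div]; ring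
      rw [this]
      refine mul_le_mul_of_nonneg_left ?_ (by positivity)
      refine div_le_div₀ (by norm_num) hE1 (by positivity) ?_
      exact hsr3.le
    · rw [mul_comm]
      refine mul_le_mul_of_nonneg_left ?_ (by positivity)
      exact div_le_self hE0.le hr1

end Vale.Agent.P361.B
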