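import Vale.Agent.P361.B.PairBound

set_option linter.unusedSectionVars false

/-!
Part B: comparison with free bosons, occupation numbers.
-/

namespace Vale.Agent.P361.B

open Finset Filter Topology

variable {V : Type*} [Fintype V] [DecidableEq V]
variable {n N : ℕ} {adj : V → V → Prop} [DecidableRel adj] {e : V → V → ℝ} {lam : V → ℝ}
variable {E : ℝ} {ψ : (V → ℕ) → ℝ}

/-- Boson hopping form. -/
noncomputable def kform (n : ℕ) (adj : V → V → Prop) [DecidableRel adj] (ψ : (V → ℕ) → ℝ) : ℝ :=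
  (n : ℝ) / 4 * ∑ x, ∑ y, if adj x y then ∑ σ ∈ occBox V n,
    (Real.sqrt ((σ x : ℝ) + 1) * ψ (σ + Pi.single x 1) -
      Real.sqrt ((σ y : ℝ) + 1) * ψ (σ + Pi.single y 1)) ^ 2 else 0

lemma hop_pointwise {m a b A B : ℝ} (ha : 0 ≤ a) (hb : 0 ≤ b) (ham : a ≤ m) (hbm : b ≤ m) :
    m * (B - A) ^ 2 ≤ (Real.sqrt (m - a) * A - Real.sqrt (m - b) * B) ^ 2 +
      2 * (a + b) * (A ^ 2 + B ^ 2) := by
  have h1 : 0 ≤ m - a := by linarith
  have h2 : 0 ≤ m - b := by linarith
  have s1 := Real.sq_sqrt h1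
  have s2 := Real.sq_sqrt h2
  have p1 := Real.sqrt_nonneg (m - a)
  have p2 := Real.sqrt_nonneg (m - b)
  set p := Real.sqrt (m - a)
  set q := Real.sqrt (m - b)
  have hm : 0 ≤ m := ha.trans ham
  have hpq : p * q ≤ m := by nlinarith [sq_nonneg (p - q)]
  have hpq2 : m - a - b ≤ p * q := by
    rcases le_or_gt (m - a - b) 0 with h | h
    · exact h.trans (mul_nonneg p1 p2)
    · refine le_of_sq_le_sq ?_ (mul_nonneg p1 p2)
      rw [mul_pow, s1, s2]
      nlinarith [mul_nonneg ha hb, mul_nonneg ha h.le, mul_nonneg hb h.le]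
  have e1 : m * (B - A) ^ 2 = (p * A - q * B) ^ 2 + (a * A ^ 2 + b * B ^ 2 -
      2 * (m - p * q) * (A * B)) := by
    have : (p * A - q * B) ^ 2 = (m - a) * A ^ 2 + (m - b) * B ^ 2 - 2 * (p * q) * (A * B) := by
      rw [← s1, ← s2]; ring
    rw [this]; ring
  rw [e1]
  have h3 : -(2 * (m - p * q) * (A * B)) ≤ (m - p * q) * (A ^ 2 + B ^ 2) := by
    nlinarith [mul_nonneg (sub_nonneg.2 hpq) (sq_nonneg (A + B))]
  have h4 : (m - p * q) * (A ^ 2 + B ^ 2) ≤ (a + b) * (A ^ 2 + B ^ 2) :=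
    mul_le_mul_of_nonneg_right (by linarith) (by positivity)
  nlinarith [mul_nonneg ha (sq_nonneg B), mul_nonneg hb (sq_nonneg A)]

theorem IsEig.kform_le (h : IsEig n adj N E ψ)
    (hadj : ∀ x y, adj x y → adj y x) (hirr : ∀ x, ¬ adj x x) :
    kform n adj ψ ≤ E +
      ∑ x, ∑ y, (if adj x y then pairFn n ψ x y + pairFn n ψ y y else 0) := by
  have hE : E = 1 / 4 * ∑ x, ∑ y, if adj x y then
      ∑ σ ∈ occBox V n, edgeT n x y ψ σ ^ 2 else 0 := by
    have := h.weak (fun _ => 1)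
    simp only [one_mul, h.norm, mul_one] at this
    rw [this]
    congr 1
    refine Finset.sum_congr rfl fun x _ => Finset.sum_congr rfl fun y _ => ?_
    split_ifs
    · exact Finset.sum_congr rfl fun σ _ => by ring
    · rfl
  set t : V → V → ℝ := fun x y => ∑ σ ∈ occBox V n,
    ((σ x : ℝ) + σ y) * (((σ y : ℝ) + 1) * ψ (σ + Pi.single y 1) ^ 2) with ht
  have hmain : kform n adj ψ ≤ 1 / 4 * ∑ x, ∑ y, (if adj x y then
      ∑ σ ∈ occBox V n, edgeT n x y ψ σ ^ 2 + 2 * (t x y + t y x) else 0) := by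
    unfold kform
    rw [div_eq_mul_one_div, mul_comm (n : ℝ), mul_assoc]
    refine mul_le_mul_of_nonneg_left ?_ (by norm_num)
    rw [Finset.mul_sum]
    refine Finset.sum_le_sum fun x _ => ?_
    rw [Finset.mul_sum]
    refine Finset.sum_le_sum fun y _ => ?_
    by_cases hxy : adj x y
    · rw [if_pos hxy, if_pos hxy, Finset.mul_sum, ht, ← Finset.sum_add_distrib, Finset.mul_sum,
        ← Finset.sum_add_distrib]
      refine Finset.sum_le_sum fun σ hσ => ?_
      rw [mem_occBox] at hσ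
      have := @hop_pointwise (n : ℝ) (σ x) (σ y) (Real.sqrt ((σ y : ℝ) + 1) * ψ (σ + Pi.single y 1))
        (Real.sqrt ((σ x : ℝ) + 1) * ψ (σ + Pi.single x 1)) (by positivity) (by positivity)
        (by exact_mod_cast hσ x) (by exact_mod_cast hσ y)
      have e1 : (Real.sqrt ((σ y : ℝ) + 1) * ψ (σ + Pi.single y 1)) ^ 2 =
          ((σ y : ℝ) + 1) * ψ (σ + Pi.single y 1) ^ 2 := by
        rw [mul_pow, Real.sq_sqrt (by positivity)]
      have e2 : (Real.sqrt ((σ x : ℝ) + 1) * ψ (σ + Pi.single x 1)) ^ 2 =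
          ((σ x : ℝ) + 1) * ψ (σ + Pi.single x 1) ^ 2 := by
        rw [mul_pow, Real.sq_sqrt (by positivity)]
      rw [e1, e2] at this
      refine this.trans (le_of_eq ?_)
      unfold edgeT
      ring
    · rw [if_neg hxy, if_neg hxy, mul_zero]
  have hsplit : 1 / 4 * ∑ x, ∑ y, (if adj x y then
      ∑ σ ∈ occBox V n, edgeT n x y ψ σ ^ 2 + 2 * (t x y + t y x) else 0) =
      E + 1 / 2 * (∑ x, ∑ y, (if adj x y then t x y else 0) +
        ∑ x, ∑ y, (if adj x y then t y x else 0)) := by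
    rw [hE, ← Finset.sum_add_distrib, Finset.mul_sum, Finset.mul_sum, Finset.mul_sum,
      ← Finset.sum_add_distrib]
    refine Finset.sum_congr rfl fun x _ => ?_
    rw [← Finset.sum_add_distrib, Finset.mul_sum, Finset.mul_sum, Finset.mul_sum,
      ← Finset.sum_add_distrib]
    refine Finset.sum_congr rfl fun y _ => ?_
    split_ifs <;> ring
  have hsymm : ∑ x, ∑ y, (if adj x y then t y x else 0) =
      ∑ x, ∑ y, (if adj x y then t x y else 0) := by
    rw [Finset.sum_comm]
    refine Finset.sum_congr rfl fun y _ => Finset.sum_congr rfl fun x _ => ?_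
    by_cases hxy : adj x y
    · rw [if_pos hxy, if_pos (hadj _ _ hxy)]
    · rw [if_neg hxy, if_neg fun h' => hxy (hadj _ _ h')]
  have hterm : ∀ x y, adj x y → t x y = pairFn n ψ x y + pairFn n ψ y y := by
    intro x y hxy
    have hne : x ≠ y := fun h' => hirr x (by rw [← h'] at hxy; exact hxy)
    have hF : ∀ ζ, ζ ∉ occBox V n → (fun ζ => ψ ζ ^ 2) ζ = 0 := by
      intro ζ hζ
      simp only [h.supp ζ hζ]; norm_num
    have key := sum_shift n y (fun ζ => ψ ζ ^ 2) (fun σ => (σ x : ℝ) + σ y) hF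
    have e1 : t x y = ∑ σ ∈ occBox V n, ((σ y : ℝ) + 1) * ψ (σ + Pi.single y 1) ^ 2 *
        ((σ x : ℝ) + σ y) := Finset.sum_congr rfl fun σ _ => by ring
    rw [e1, key, pairFn, pairFn, ← Finset.sum_add_distrib]
    refine Finset.sum_congr rfl fun η _ => ?_
    rcases Nat.eq_zero_or_pos (η y) with h0 | h0
    · rw [h0, if_neg hne]; simp
    · rw [sub_single_apply η x y h0, sub_single_apply η y y h0, if_neg hne, if_pos rfl]
      ring
  have hfin : ∑ x, ∑ y, (if adj x y then t x y else 0) =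
      ∑ x, ∑ y, (if adj x y then pairFn n ψ x y + pairFn n ψ y y else 0) := by
    refine Finset.sum_congr rfl fun x _ => Finset.sum_congr rfl fun y _ => ?_
    split_ifs with hxy
    · exact hterm x y hxy
    · rfl
  rw [hsplit, hsymm, hfin] at hmain
  linarith

/-! Occupation numbers of `N` labelled particles. -/

/-- Occupation numbers. -/
def occ {N : ℕ} (x : Fin N → V) (v : V) : ℕ := ∑ i, if x i = v then 1 else 0

lemma occ_cons {N : ℕ} (v : V) (x : Fin N → V) :
    occ (Fin.cons v x : Fin (N + 1) → V) = occ x + Pi.single v 1 := by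
  ext w
  rw [Pi.add_apply, occ, occ, Fin.sum_univ_succ, add_comm]
  simp only [Fin.cons_zero, Fin.cons_succ]
  congr 1
  by_cases h : v = w
  · subst h; simp
  · rw [if_neg h, Pi.single_apply, if_neg (Ne.symm h)]

lemma sum_occ {N : ℕ} (x : Fin N → V) : ∑ v, occ x v = N := by
  unfold occ
  rw [Finset.sum_comm]
  simp

lemma occ_perm {N : ℕ} (x : Fin N → V) (p : Equiv.Perm (Fin N)) : occ (x ∘ p) = occ x := by
  ext v
  exact Equiv.sum_comp p (fun i => if x i = v then 1 else 0)

lemma occ_eq_card {N : ℕ} (x : Fin N → V) (v : V) : occ x v = Fintype.card {i // x i = v} := by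
  rw [occ, Fintype.card_subtype, Finset.card_filter]

lemma exists_perm {N : ℕ} {x y : Fin N → V} (h : occ x = occ y) :
    ∃ p : Equiv.Perm (Fin N), y ∘ p = x := by
  have e : ∀ v, Nonempty ({i // x i = v} ≃ {i // y i = v}) := by
    intro v
    rw [← Fintype.card_eq, ← occ_eq_card, ← occ_eq_card, h]
  let f := fun v => Classical.choice (e v)
  refine ⟨Equiv.ofFiberEquiv f, ?_⟩
  ext i
  exact Equiv.ofFiberEquiv_map f i

/-- Number of labelled configurations with given occupation numbers. -/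
def cnt (N : ℕ) (ζ : V → ℕ) : ℕ := (Finset.univ.filter fun x : Fin N → V => occ x = ζ).card

lemma cnt_eq_sum (N : ℕ) (ζ : V → ℕ) :
    cnt N ζ = ∑ x : Fin N → V, if occ x = ζ then 1 else 0 := by
  rw [cnt, Finset.card_filter]

lemma cnt_succ (N : ℕ) (ζ : V → ℕ) (v : V) :
    cnt (N + 1) (ζ + Pi.single v 1) * (ζ v + 1) = (N + 1) * cnt N ζ := by
  have h1 : ∑ x : Fin (N + 1) → V, ∑ i, (if occ x = ζ + Pi.single v 1 then
      (if x i = v then 1 else 0) else 0) = cnt (N + 1) (ζ + Pi.single v 1) * (ζ v + 1) := by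
    rw [cnt_eq_sum, Finset.sum_mul]
    refine Finset.sum_congr rfl fun x _ => ?_
    by_cases h : occ x = ζ + Pi.single v 1
    · simp only [if_pos h, one_mul]
      have : occ x v = ζ v + 1 := by rw [h]; simp
      rw [← this]; rfl
    · simp only [if_neg h, zero_mul, Finset.sum_const_zero]
  have h0 : ∑ x : Fin (N + 1) → V, (if occ x = ζ + Pi.single v 1 then
      (if x 0 = v then 1 else 0) else 0) = cnt N ζ := by
    rw [← (Fin.consEquiv fun _ => V).sum_comp, Fintype.sum_prod_type, cnt_eq_sum]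
    rw [Finset.sum_eq_single v]
    · refine Finset.sum_congr rfl fun x _ => ?_
      change (if occ (Fin.cons v x : Fin (N + 1) → V) = ζ + Pi.single v 1 then
        (if v = v then 1 else 0) else 0) = _
      rw [occ_cons, if_pos rfl]
      simp only [add_left_inj]
    · intro w _ hw
      refine Finset.sum_eq_zero fun x _ => ?_
      change (if occ (Fin.cons w x : Fin (N + 1) → V) = ζ + Pi.single v 1 then
        (if w = v then 1 else 0) else 0) = _
      rw [if_neg hw, ite_self]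
    · simp
  rw [← h1, Finset.sum_comm]
  have h2 : ∀ i : Fin (N + 1), ∑ x : Fin (N + 1) → V, (if occ x = ζ + Pi.single v 1 then
      (if x i = v then 1 else 0) else 0) = cnt N ζ := by
    intro i
    rw [← h0, ← (Equiv.arrowCongr (Equiv.swap 0 i) (Equiv.refl V)).sum_comp]
    refine Finset.sum_congr rfl fun x _ => ?_
    have e1 : (Equiv.arrowCongr (Equiv.swap 0 i) (Equiv.refl V)) x = x ∘ Equiv.swap 0 i := by
      ext j; simp [Equiv.arrowCongr]
    rw [e1, occ_perm]
    simp
  simp only [h2]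
  simp

lemma cnt_pos (N : ℕ) : ∀ ζ : V → ℕ, ∑ v, ζ v = N → 0 < cnt N ζ := by
  induction N with
  | zero =>
    intro ζ hζ
    rw [cnt, Finset.card_pos]
    refine ⟨Fin.elim0, ?_⟩
    rw [Finset.mem_filter]
    refine ⟨Finset.mem_univ _, ?_⟩
    ext v
    have : ζ v = 0 := (Finset.sum_eq_zero_iff.1 hζ) v (Finset.mem_univ _)
    rw [this, occ]; simp
  | succ N ih =>
    intro ζ hζ
    obtain ⟨v, hv⟩ : ∃ v, 0 < ζ v := by
      by_contra hcon
      push Not at hcon
      have : ∑ v, ζ v = 0 := Finset.sum_eq_zero fun v _ => Nat.le_zero.1 (hcon v)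
      omega
    set ζ' : V → ℕ := ζ - Pi.single v 1 with hζ'
    have e1 : ζ' + Pi.single v 1 = ζ := sub_add_single ζ v hv
    have e2 : ∑ w, ζ' w = N := by
      have : ∑ w, (ζ' + Pi.single v 1 : V → ℕ) w = N + 1 := by rw [e1, hζ]
      simp only [Pi.add_apply, Finset.sum_add_distrib] at this
      rw [Finset.sum_pi_single'] at this
      simp at this
      exact this
    have h := cnt_succ N ζ' v
    rw [e1] at h
    have h3 := ih ζ' e2
    by_contra hcon
    have h4 : cnt (N + 1) ζ = 0 := by omega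
    rw [h4, zero_mul] at h
    have : 0 < (N + 1) * cnt N ζ' := by positivity
    omega

lemma cnt_eq_zero {N : ℕ} {ζ : V → ℕ} (h : ∑ v, ζ v ≠ N) : cnt N ζ = 0 := by
  rw [cnt, Finset.card_eq_zero, Finset.filter_eq_empty_iff]
  intro x _ hx
  apply h
  rw [← hx, sum_occ]

lemma fiber_sum (n N : ℕ) (g : (V → ℕ) → ℝ) (h1 : ∀ ζ, ζ ∉ occBox V n → g ζ = 0)
    (h2 : ∀ ζ, ∑ v, ζ v ≠ N → g ζ = 0) :
    ∑ x : Fin N → V, g (occ x) / cnt N (occ x) = ∑ ζ ∈ occBox V n, g ζ := by
  have e1 : ∀ ζ ∈ occBox V n, g ζ = ∑ x : Fin N → V, if occ x = ζ then g ζ / cnt N ζ else 0 := by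
    intro ζ _
    by_cases h : ∑ v, ζ v = N
    · rw [← Finset.sum_filter, Finset.sum_const, nsmul_eq_mul]
      have h3 : (0 : ℝ) < cnt N ζ := by exact_mod_cast cnt_pos N ζ h
      change g ζ = (cnt N ζ : ℝ) * (g ζ / cnt N ζ)
      field_simp
    · rw [h2 ζ h]; simp
  rw [Finset.sum_congr rfl e1, Finset.sum_comm]
  refine Finset.sum_congr rfl fun x _ => ?_
  by_cases h : occ x ∈ occBox V n
  · rw [Finset.sum_ite_eq, if_pos h]
  · rw [Finset.sum_ite_eq, if_neg h, h1 _ h]; simp

end Vale.Agent.P361.B
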