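import Vale.Agent.P361.B.Defs
import Vale.Agent.P361.H.Fourier

/-!
Path comparison in the cube: for a pseudo-metric on the sites of the cube, the sum of squared
distances over all pairs is at most `3 L⁵` times the sum over edges.
-/

namespace Vale.Agent.P361.B

open Finset

/-- The site with coordinates `a, b, c`. -/
def st (a b c : ℕ) : Site := ![(a : ℤ), (b : ℤ), (c : ℤ)]

theorem mem_cube' {L : ℕ} {x : Site} : x ∈ cube L ↔ ∀ i, 0 ≤ x i ∧ x i < L := by
  simp [cube, Fintype.mem_piFinset]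

theorem st_mem {L a b c : ℕ} : st a b c ∈ cube L ↔ a < L ∧ b < L ∧ c < L := by
  rw [mem_cube']
  constructor
  · intro h
    have h0 := h 0
    have h1 := h 1
    have h2 := h 2
    simp only [st, Matrix.cons_val_zero, Matrix.cons_val_one, Matrix.cons_val] at h0 h1 h2
    omega
  · rintro ⟨h0, h1, h2⟩ i
    fin_cases i <;> simp [st] <;> omega

theorem sum_cube (L : ℕ) (f : Site → ℝ) : ∑ x ∈ cube L, f x =
    ∑ a ∈ range L, ∑ b ∈ range L, ∑ c ∈ range L, f (st a b c) := by
  have h1 : ∑ a ∈ range L, ∑ b ∈ range L, ∑ c ∈ range L, f (st a b c) =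
      ∑ p ∈ range L ×ˢ range L ×ˢ range L, f (st p.1 p.2.1 p.2.2) := by
    rw [Finset.sum_product]
    refine Finset.sum_congr rfl fun a _ => ?_
    rw [Finset.sum_product]
  rw [h1]
  refine Finset.sum_bij' (fun x _ => ((x 0).toNat, (x 1).toNat, (x 2).toNat))
    (fun p _ => st p.1 p.2.1 p.2.2) ?_ ?_ ?_ ?_ ?_
  · intro x hx
    rw [mem_cube'] at hx
    have h0 := hx 0
    have h1 := hx 1
    have h2 := hx 2
    simp only [Finset.mem_product, Finset.mem_range]
    omega
  · intro p hp
    simp only [Finset.mem_product, Finset.mem_range] at hp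
    rw [st_mem]
    exact hp
  · intro x hx
    rw [mem_cube'] at hx
    have h0 := hx 0
    have h1 := hx 1
    have h2 := hx 2
    ext i
    fin_cases i <;> simp [st] <;> omega
  · intro p hp
    simp [st]
  · intro x hx
    rw [mem_cube'] at hx
    have h0 := hx 0
    have h1 := hx 1
    have h2 := hx 2
    congr 1
    ext i
    fin_cases i <;> simp [st] <;> omega

theorem line_bound {L : ℕ} {ρ : ℕ → ℕ → ℝ} (h0 : ∀ a, a < L → ρ a a = 0)
    (hs : ∀ a b, a < L → b < L → ρ a b = ρ b a) (hn : ∀ a b, 0 ≤ ρ a b)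
    (ht : ∀ a b c, a < L → b < L → c < L → ρ a c ≤ ρ a b + ρ b c)
    {a b : ℕ} (ha : a < L) (hb : b < L) :
    ρ a b ^ 2 ≤ L * ∑ k ∈ range (L - 1), ρ k (k + 1) ^ 2 := by
  have key : ∀ m a : ℕ, a + m < L → ρ a (a + m) ≤ ∑ k ∈ range (a + m), ρ k (k + 1) := by
    intro m
    induction m with
    | zero =>
      intro a ha
      rw [add_zero, h0 a (by omega)]
      exact Finset.sum_nonneg fun _ _ => hn _ _
    | succ m ih =>
      intro a ha
      have h1 := ht a (a + m) (a + (m + 1)) (by omega) (by omega) ha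
      have h2 := ih a (by omega)
      rw [← add_assoc, Finset.sum_range_succ]
      rw [← add_assoc] at h1
      linarith
  have key2 : ∀ a b : ℕ, a ≤ b → b < L → ρ a b ≤ ∑ k ∈ range (L - 1), ρ k (k + 1) := by
    intro a b hab hb
    obtain ⟨m, rfl⟩ := Nat.exists_eq_add_of_le hab
    refine (key m a hb).trans ?_
    refine Finset.sum_le_sum_of_subset_of_nonneg ?_ fun _ _ _ => hn _ _
    intro k hk
    rw [Finset.mem_range] at hk ⊢
    omega
  have key3 : ρ a b ≤ ∑ k ∈ range (L - 1), ρ k (k + 1) := by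
    rcases le_total a b with h | h
    · exact key2 a b h hb
    · rw [hs a b ha hb]
      exact key2 b a h ha
  have h1 : ρ a b ^ 2 ≤ (∑ k ∈ range (L - 1), ρ k (k + 1)) ^ 2 :=
    pow_le_pow_left₀ (hn _ _) key3 2
  have h2 := sq_sum_le_card_mul_sum_sq (s := range (L - 1)) (f := fun k => ρ k (k + 1))
  rw [Finset.card_range] at h2
  refine h1.trans (h2.trans ?_)
  refine mul_le_mul_of_nonneg_right ?_ (Finset.sum_nonneg fun _ _ => sq_nonneg _)
  exact_mod_cast Nat.sub_le L 1

theorem nn_sum_split (L : ℕ) (F : Site → Site → ℝ) (hF : ∀ x y, F x y = F y x) :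
    ∑ x ∈ cube L, ∑ y ∈ cube L, (if IsNN x y then F x y else 0) =
      2 * ∑ j : Fin 3, ∑ x ∈ cube L,
        (if x + H.dir (j, true) ∈ cube L then F x (x + H.dir (j, true)) else 0) := by
  have h1 : ∀ x y : Site, (if IsNN x y then F x y else 0) =
      ∑ p : Fin 3 × Bool, if y = x + H.dir p then F x y else 0 := by
    intro x y
    by_cases h : IsNN x y
    · obtain ⟨p, hp⟩ := (H.isNN_iff x y).1 h
      rw [if_pos h, Finset.sum_eq_single p]
      · rw [if_pos hp]
      · intro q _ hq
        rw [if_neg]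
        intro h2
        exact hq (H.dir_injective (by rw [hp] at h2; simpa using h2.symm))
      · simp
    · rw [if_neg h]
      symm
      refine Finset.sum_eq_zero fun p _ => ?_
      rw [if_neg]
      intro h2
      exact h ((H.isNN_iff x y).2 ⟨p, h2⟩)
  have h2 : ∀ p : Fin 3 × Bool, ∑ x ∈ cube L, ∑ y ∈ cube L,
      (if y = x + H.dir p then F x y else 0) = ∑ x ∈ cube L,
        (if x + H.dir p ∈ cube L then F x (x + H.dir p) else 0) := by
    intro p
    refine Finset.sum_congr rfl fun x _ => ?_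
    rw [Finset.sum_ite_eq']
  have hneg : ∀ j : Fin 3, H.dir (j, false) = -H.dir (j, true) := by
    intro j
    simp [H.dir, ← Pi.single_neg]
  have h3 : ∀ j : Fin 3, ∑ x ∈ cube L, ∑ y ∈ cube L,
      (if y = x + H.dir (j, false) then F x y else 0) = ∑ x ∈ cube L, ∑ y ∈ cube L,
      (if y = x + H.dir (j, true) then F x y else 0) := by
    intro j
    rw [Finset.sum_comm]
    refine Finset.sum_congr rfl fun x _ => Finset.sum_congr rfl fun y _ => ?_
    rw [hneg, hF x y]
    have : x = y + -H.dir (j, true) ↔ y = x + H.dir (j, true) := by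
      constructor
      · intro h; rw [h]; simp
      · intro h; rw [h]; simp
    simp only [this]
  calc ∑ x ∈ cube L, ∑ y ∈ cube L, (if IsNN x y then F x y else 0)
      = ∑ p : Fin 3 × Bool, ∑ x ∈ cube L, ∑ y ∈ cube L,
        (if y = x + H.dir p then F x y else 0) := by
        simp only [h1]
        rw [Finset.sum_comm]
        rw [← Finset.sum_comm]
        have : ∀ x ∈ cube L, ∑ y ∈ cube L, ∑ p : Fin 3 × Bool,
            (if y = x + H.dir p then F x y else 0) = ∑ p : Fin 3 × Bool, ∑ y ∈ cube L,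
            (if y = x + H.dir p then F x y else 0) := fun x _ => Finset.sum_comm
        rw [Finset.sum_congr rfl this, Finset.sum_comm]
    _ = ∑ j : Fin 3, (∑ x ∈ cube L, ∑ y ∈ cube L,
        (if y = x + H.dir (j, true) then F x y else 0) + ∑ x ∈ cube L, ∑ y ∈ cube L,
        (if y = x + H.dir (j, false) then F x y else 0)) := by
        rw [Fintype.sum_prod_type]
        refine Finset.sum_congr rfl fun j _ => ?_
        rw [Fintype.sum_bool]
    _ = _ := by
        simp only [h3, h2]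
        rw [Finset.mul_sum]
        refine Finset.sum_congr rfl fun j _ => ?_
        ring

theorem sum_shift1 (L : ℕ) (g : ℕ → ℝ) :
    ∑ a ∈ range L, (if a + 1 < L then g a else 0) = ∑ a ∈ range (L - 1), g a := by
  rw [← Finset.sum_filter]
  refine Finset.sum_congr ?_ fun _ _ => rfl
  ext a
  simp only [Finset.mem_filter, Finset.mem_range]
  omega

theorem st_add0 (a b c : ℕ) : st a b c + H.dir (0, true) = st (a + 1) b c := by
  ext i
  fin_cases i <;> simp [st, H.dir]

theorem st_add1 (a b c : ℕ) : st a b c + H.dir (1, true) = st a (b + 1) c := by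
  ext i
  fin_cases i <;> simp [st, H.dir]

theorem st_add2 (a b c : ℕ) : st a b c + H.dir (2, true) = st a b (c + 1) := by
  ext i
  fin_cases i <;> simp [st, H.dir]

theorem dir_sum (L : ℕ) (F : Site → Site → ℝ) : ∑ j : Fin 3, ∑ x ∈ cube L,
    (if x + H.dir (j, true) ∈ cube L then F x (x + H.dir (j, true)) else 0) =
    (∑ b ∈ range L, ∑ c ∈ range L, ∑ k ∈ range (L - 1), F (st k b c) (st (k + 1) b c)) +
    (∑ a ∈ range L, ∑ c ∈ range L, ∑ k ∈ range (L - 1), F (st a k c) (st a (k + 1) c)) +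
    (∑ a ∈ range L, ∑ b ∈ range L, ∑ k ∈ range (L - 1), F (st a b k) (st a b (k + 1))) := by
  rw [Fin.sum_univ_three]
  simp only [sum_cube, st_add0, st_add1, st_add2, st_mem]
  congr 1
  · congr 1
    · rw [Finset.sum_comm]
      refine Finset.sum_congr rfl fun b hb => ?_
      rw [Finset.sum_comm]
      refine Finset.sum_congr rfl fun c hc => ?_
      rw [Finset.mem_range] at hb hc
      simp only [hb, hc, and_true]
      exact sum_shift1 L _
    · refine Finset.sum_congr rfl fun a ha => ?_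
      rw [Finset.sum_comm]
      refine Finset.sum_congr rfl fun c hc => ?_
      rw [Finset.mem_range] at ha hc
      simp only [ha, hc, and_true, true_and]
      exact sum_shift1 L _
  · refine Finset.sum_congr rfl fun a ha => ?_
    refine Finset.sum_congr rfl fun b hb => ?_
    rw [Finset.mem_range] at ha hb
    simp only [ha, hb, true_and]
    exact sum_shift1 L _

/-- The path comparison. -/
theorem path_sum (L : ℕ) {D : Site → Site → ℝ} (h0 : ∀ x, D x x = 0)
    (hs : ∀ x y, D x y = D y x) (hn : ∀ x y, 0 ≤ D x y)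
    (ht : ∀ x y z, x ∈ cube L → y ∈ cube L → z ∈ cube L → D x z ≤ D x y + D y z) :
    ∑ x ∈ cube L, ∑ y ∈ cube L, D x y ^ 2 ≤
      3 / 2 * (L : ℝ) ^ 5 * ∑ x ∈ cube L, ∑ y ∈ cube L, (if IsNN x y then D x y ^ 2 else 0) := by
  rw [nn_sum_split L (fun x y => D x y ^ 2) (fun x y => by rw [hs x y]),
    dir_sum L (fun x y => D x y ^ 2)]
  set E0 : ℕ → ℕ → ℝ := fun b c => ∑ k ∈ range (L - 1), D (st k b c) (st (k + 1) b c) ^ 2 with hE0
  set E1 : ℕ → ℕ → ℝ := fun a c => ∑ k ∈ range (L - 1), D (st a k c) (st a (k + 1) c) ^ 2 with hE1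
  set E2 : ℕ → ℕ → ℝ := fun a b => ∑ k ∈ range (L - 1), D (st a b k) (st a b (k + 1)) ^ 2 with hE2
  have key : ∀ a b c a' b' c' : ℕ, a < L → b < L → c < L → a' < L → b' < L → c' < L →
      D (st a b c) (st a' b' c') ^ 2 ≤
        3 * ((L : ℝ) * E0 b c + (L : ℝ) * E1 a' c + (L : ℝ) * E2 a' b') := by
    intro a b c a' b' c' ha hb hc ha' hb' hc'
    have m1 := (st_mem (L := L)).2 ⟨ha, hb, hc⟩
    have m2 := (st_mem (L := L)).2 ⟨ha', hb, hc⟩
    have m3 := (st_mem (L := L)).2 ⟨ha', hb', hc⟩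
    have m4 := (st_mem (L := L)).2 ⟨ha', hb', hc'⟩
    have t1 := ht _ _ _ m1 m2 m4
    have t2 := ht _ _ _ m2 m3 m4
    have l1 : D (st a b c) (st a' b c) ^ 2 ≤ (L : ℝ) * E0 b c :=
      line_bound (L := L) (ρ := fun u v => D (st u b c) (st v b c)) (fun u _ => h0 _)
        (fun u v _ _ => hs _ _) (fun u v => hn _ _)
        (fun u v w hu hv hw => ht _ _ _ ((st_mem (L := L)).2 ⟨hu, hb, hc⟩)
          ((st_mem (L := L)).2 ⟨hv, hb, hc⟩) ((st_mem (L := L)).2 ⟨hw, hb, hc⟩)) ha ha'
    have l2 : D (st a' b c) (st a' b' c) ^ 2 ≤ (L : ℝ) * E1 a' c :=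
      line_bound (L := L) (ρ := fun u v => D (st a' u c) (st a' v c)) (fun u _ => h0 _)
        (fun u v _ _ => hs _ _) (fun u v => hn _ _)
        (fun u v w hu hv hw => ht _ _ _ ((st_mem (L := L)).2 ⟨ha', hu, hc⟩)
          ((st_mem (L := L)).2 ⟨ha', hv, hc⟩) ((st_mem (L := L)).2 ⟨ha', hw, hc⟩)) hb hb'
    have l3 : D (st a' b' c) (st a' b' c') ^ 2 ≤ (L : ℝ) * E2 a' b' :=
      line_bound (L := L) (ρ := fun u v => D (st a' b' u) (st a' b' v)) (fun u _ => h0 _)
        (fun u v _ _ => hs _ _) (fun u v => hn _ _)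
        (fun u v w hu hv hw => ht _ _ _ ((st_mem (L := L)).2 ⟨ha', hb', hu⟩)
          ((st_mem (L := L)).2 ⟨ha', hb', hv⟩) ((st_mem (L := L)).2 ⟨ha', hb', hw⟩)) hc hc'
    have n1 := hn (st a b c) (st a' b c)
    have n2 := hn (st a' b c) (st a' b' c)
    have n3 := hn (st a' b' c) (st a' b' c')
    have n4 := hn (st a b c) (st a' b' c')
    have s1 : D (st a b c) (st a' b' c') ^ 2 ≤
        (D (st a b c) (st a' b c) + D (st a' b c) (st a' b' c) +
          D (st a' b' c) (st a' b' c')) ^ 2 := pow_le_pow_left₀ n4 (by linarith) 2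
    nlinarith [sq_nonneg (D (st a b c) (st a' b c) - D (st a' b c) (st a' b' c)),
      sq_nonneg (D (st a' b c) (st a' b' c) - D (st a' b' c) (st a' b' c')),
      sq_nonneg (D (st a b c) (st a' b c) - D (st a' b' c) (st a' b' c'))]
  simp only [sum_cube]
  calc ∑ a ∈ range L, ∑ b ∈ range L, ∑ c ∈ range L, ∑ a' ∈ range L, ∑ b' ∈ range L,
        ∑ c' ∈ range L, D (st a b c) (st a' b' c') ^ 2 ≤
      ∑ a ∈ range L, ∑ b ∈ range L, ∑ c ∈ range L, ∑ a' ∈ range L, ∑ b' ∈ range L,
        ∑ c' ∈ range L, 3 * ((L : ℝ) * E0 b c + (L : ℝ) * E1 a' c + (L : ℝ) * E2 a' b') := by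
        refine Finset.sum_le_sum fun a ha => Finset.sum_le_sum fun b hb =>
          Finset.sum_le_sum fun c hc => Finset.sum_le_sum fun a' ha' =>
          Finset.sum_le_sum fun b' hb' => Finset.sum_le_sum fun c' hc' => ?_
        rw [Finset.mem_range] at ha hb hc ha' hb' hc'
        exact key a b c a' b' c' ha hb hc ha' hb' hc'
    _ = _ := by
        simp only [← Finset.mul_sum, Finset.sum_add_distrib, Finset.sum_const,
          Finset.card_range, nsmul_eq_mul]
        rw [Finset.sum_comm (s := range L) (t := range L) (f := fun c a' => E1 a' c)]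
        ring

end Vale.Agent.P361.B
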