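import Vale.Agent.P361.B.Prelim
import Vale.Agent.P361.B.Paths

/-!
Part B, step D2: `∑_{x≠y} (S² - S_x·S_y) ≤ 3 L⁵ H̃` on the cube, and the crude bound on the
partition function.
-/

namespace Vale.Agent.P361.B

open Matrix Finset Filter Topology
open scoped ComplexOrder Kronecker

set_option linter.unusedSectionVars false

section Norm

variable {ι : Type*} [Fintype ι] [DecidableEq ι]

/-- Euclidean norm of a vector. -/
noncomputable def nrm (v : ι → ℂ) : ℝ := ‖(WithLp.toLp 2 v : EuclideanSpace ℂ ι)‖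

theorem nrm_nonneg (v : ι → ℂ) : 0 ≤ nrm v := norm_nonneg _

theorem nrm_add_le (u v : ι → ℂ) : nrm (u + v) ≤ nrm u + nrm v := by
  unfold nrm
  rw [WithLp.toLp_add]
  exact norm_add_le _ _

theorem nrm_neg (v : ι → ℂ) : nrm (-v) = nrm v := by
  unfold nrm
  rw [WithLp.toLp_neg, norm_neg]

theorem nrm_sq (v : ι → ℂ) : nrm v ^ 2 = ∑ i, ‖v i‖ ^ 2 := by
  unfold nrm
  rw [EuclideanSpace.norm_eq, Real.sq_sqrt (Finset.sum_nonneg fun _ _ => by positivity)]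

theorem star_dot (M : Matrix ι ι ℂ) (ψ : ι → ℂ) :
    star ψ ⬝ᵥ ((Mᴴ * M) *ᵥ ψ) = ((nrm (M *ᵥ ψ) ^ 2 : ℝ) : ℂ) := by
  rw [← Matrix.mulVec_mulVec, Matrix.dotProduct_mulVec, Matrix.vecMul_conjTranspose, star_star,
    nrm_sq, dotProduct]
  push_cast
  refine Finset.sum_congr rfl fun i _ => ?_
  rw [Pi.star_apply, RCLike.star_def, Complex.conj_mul']

theorem minkowski_aux {p₁ p₂ q₁ q₂ P Q : ℝ} (hP : 0 ≤ P) (hQ : 0 ≤ Q) (h1 : p₁ ^ 2 + p₂ ^ 2 = P ^ 2)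
    (h2 : q₁ ^ 2 + q₂ ^ 2 = Q ^ 2) : (p₁ + q₁) ^ 2 + (p₂ + q₂) ^ 2 ≤ (P + Q) ^ 2 := by
  have h3 : p₁ * q₁ + p₂ * q₂ ≤ P * Q := by
    refine abs_le_of_sq_le_sq' ?_ (by positivity) |>.2
    have : (P * Q) ^ 2 = (p₁ ^ 2 + p₂ ^ 2) * (q₁ ^ 2 + q₂ ^ 2) := by rw [mul_pow, h1, h2]
    rw [this]
    nlinarith [sq_nonneg (p₁ * q₂ - p₂ * q₁)]
  nlinarith

end Norm

section Metric

variable {n : ℕ} {Λ : Finset Site}

/-- `T_{xy} = a_x b_y - b_x a_y`. -/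
noncomputable def tOp (n : ℕ) {Λ : Finset Site} (x y : Λ) :
    Matrix (Λ → Fin (n + 1)) (Λ → Fin (n + 1)) ℂ :=
  H.oA n x * H.oB n y - H.oB n x * H.oA n y

theorem tOp_sq {x y : Λ} (hxy : x ≠ y) : (((n : ℂ) / 2) ^ 2) •
    (1 : Matrix (Λ → Fin (n + 1)) (Λ → Fin (n + 1)) ℂ) - H.dotOp n x y =
      (1 / 2 : ℂ) • ((tOp n x y)ᴴ * tOp n x y) := by
  unfold tOp
  rw [H.dot_sos hxy]
  module

theorem tOp_symm {x y : Λ} (hxy : x ≠ y) : tOp n y x = -tOp n x y := by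
  unfold tOp
  rw [H.siteOp_comm hxy.symm, H.siteOp_comm hxy.symm]
  abel

theorem pluecker_a {x y z : Λ} (hxy : x ≠ y) (hyz : y ≠ z) (hxz : x ≠ z) :
    H.oA n y * tOp n x z = H.oA n x * tOp n y z + H.oA n z * tOp n x y := by
  unfold tOp
  have c1 : H.oA n y * (H.oA n x * H.oB n z) = H.oA n x * (H.oA n y * H.oB n z) := by
    rw [← mul_assoc, H.siteOp_comm hxy.symm, mul_assoc]
  have c2 : H.oA n y * (H.oB n x * H.oA n z) = H.oA n z * (H.oB n x * H.oA n y) := by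
    rw [H.siteOp_comm hxz (H.schwB n) (H.schwA n), ← mul_assoc,
      H.siteOp_comm hyz (H.schwA n) (H.schwA n), mul_assoc,
      H.siteOp_comm hxy.symm (H.schwA n) (H.schwB n)]
  have c3 : H.oA n x * (H.oB n y * H.oA n z) = H.oA n z * (H.oA n x * H.oB n y) := by
    rw [H.siteOp_comm hyz (H.schwB n) (H.schwA n), ← mul_assoc,
      H.siteOp_comm hxz (H.schwA n) (H.schwA n), mul_assoc]
  rw [mul_sub, mul_sub, mul_sub, c1, c2, c3]
  abel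

theorem pluecker_b {x y z : Λ} (hxy : x ≠ y) (hyz : y ≠ z) (hxz : x ≠ z) :
    H.oB n y * tOp n x z = H.oB n x * tOp n y z + H.oB n z * tOp n x y := by
  unfold tOp
  have c1 : H.oB n y * (H.oA n x * H.oB n z) = H.oB n z * (H.oA n x * H.oB n y) := by
    rw [H.siteOp_comm hxz (H.schwA n) (H.schwB n), ← mul_assoc,
      H.siteOp_comm hyz (H.schwB n) (H.schwB n), mul_assoc,
      H.siteOp_comm hxy.symm (H.schwB n) (H.schwA n)]
  have c2 : H.oB n y * (H.oB n x * H.oA n z) = H.oB n x * (H.oB n y * H.oA n z) := by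
    rw [← mul_assoc, H.siteOp_comm hxy.symm, mul_assoc]
  have c3 : H.oB n x * (H.oA n y * H.oB n z) = H.oB n z * (H.oB n x * H.oA n y) := by
    rw [H.siteOp_comm hyz (H.schwA n) (H.schwB n), ← mul_assoc,
      H.siteOp_comm hxz (H.schwB n) (H.schwB n), mul_assoc]
  rw [mul_sub, mul_sub, mul_sub, c1, c2, c3]
  abel

theorem ab_norm (y : Λ) (v : (Λ → Fin (n + 1)) → ℂ) :
    nrm (H.oA n y *ᵥ v) ^ 2 + nrm (H.oB n y *ᵥ v) ^ 2 = n * nrm v ^ 2 := by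
  have h1 := star_dot (H.oA n y) v
  have h2 := star_dot (H.oB n y) v
  have h3 := star_dot (1 : Matrix (Λ → Fin (n + 1)) (Λ → Fin (n + 1)) ℂ) v
  have h4 : (H.oA n y)ᴴ * H.oA n y + (H.oB n y)ᴴ * H.oB n y =
      (n : ℂ) • (1 : Matrix (Λ → Fin (n + 1)) (Λ → Fin (n + 1)) ℂ) := by
    rw [siteOp_conjTranspose, H.siteOp_mul, H.schwA_schwA, siteOp_conjTranspose, H.siteOp_mul,
      H.schwB_schwB, H.siteOp_add, H.siteOp_sub, H.siteOp_smul, H.siteOp_one]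
    module
  rw [Matrix.conjTranspose_one, Matrix.one_mul, Matrix.one_mulVec] at h3
  have h5 : (((nrm (H.oA n y *ᵥ v) ^ 2 + nrm (H.oB n y *ᵥ v) ^ 2 : ℝ)) : ℂ) =
      ((n * nrm v ^ 2 : ℝ) : ℂ) := by
    rw [Complex.ofReal_add, ← h1, ← h2, ← dotProduct_add, ← Matrix.add_mulVec, h4,
      Matrix.smul_mulVec, dotProduct_smul, Matrix.one_mulVec, h3]
    push_cast
    rfl
  exact_mod_cast h5

theorem t_triangle (hn : 0 < n) {x y z : Λ} (hxy : x ≠ y) (hyz : y ≠ z) (hxz : x ≠ z)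
    (ψ : (Λ → Fin (n + 1)) → ℂ) :
    nrm (tOp n x z *ᵥ ψ) ≤ nrm (tOp n x y *ᵥ ψ) + nrm (tOp n y z *ᵥ ψ) := by
  have hnR : (0 : ℝ) < n := by exact_mod_cast hn
  have h1 := ab_norm y (tOp n x z *ᵥ ψ)
  have h2 := ab_norm x (tOp n y z *ᵥ ψ)
  have h3 := ab_norm z (tOp n x y *ᵥ ψ)
  have e1 : H.oA n y *ᵥ (tOp n x z *ᵥ ψ) =
      H.oA n x *ᵥ (tOp n y z *ᵥ ψ) + H.oA n z *ᵥ (tOp n x y *ᵥ ψ) := by
    simp only [Matrix.mulVec_mulVec]
    rw [← Matrix.add_mulVec, pluecker_a hxy hyz hxz]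
  have e2 : H.oB n y *ᵥ (tOp n x z *ᵥ ψ) =
      H.oB n x *ᵥ (tOp n y z *ᵥ ψ) + H.oB n z *ᵥ (tOp n x y *ᵥ ψ) := by
    simp only [Matrix.mulVec_mulVec]
    rw [← Matrix.add_mulVec, pluecker_b hxy hyz hxz]
  rw [e1, e2] at h1
  have i1 := nrm_add_le (H.oA n x *ᵥ (tOp n y z *ᵥ ψ)) (H.oA n z *ᵥ (tOp n x y *ᵥ ψ))
  have i2 := nrm_add_le (H.oB n x *ᵥ (tOp n y z *ᵥ ψ)) (H.oB n z *ᵥ (tOp n x y *ᵥ ψ))
  set P := Real.sqrt n * nrm (tOp n y z *ᵥ ψ) with hP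
  set Q := Real.sqrt n * nrm (tOp n x y *ᵥ ψ) with hQ
  have hs : Real.sqrt n ^ 2 = n := Real.sq_sqrt hnR.le
  have hP2 : P ^ 2 = n * nrm (tOp n y z *ᵥ ψ) ^ 2 := by rw [hP, mul_pow, hs]
  have hQ2 : Q ^ 2 = n * nrm (tOp n x y *ᵥ ψ) ^ 2 := by rw [hQ, mul_pow, hs]
  have hspos : 0 < Real.sqrt n := Real.sqrt_pos.2 hnR
  have m := minkowski_aux (P := P) (Q := Q)
    (mul_nonneg hspos.le (nrm_nonneg _)) (mul_nonneg hspos.le (nrm_nonneg _))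
    (by rw [h2, hP2]) (by rw [h3, hQ2])
  have m2 : (n : ℝ) * nrm (tOp n x z *ᵥ ψ) ^ 2 ≤ (P + Q) ^ 2 := by
    rw [← h1]
    refine le_trans (add_le_add (pow_le_pow_left₀ (nrm_nonneg _) i1 2)
      (pow_le_pow_left₀ (nrm_nonneg _) i2 2)) m
  have m3 : (Real.sqrt n * nrm (tOp n x z *ᵥ ψ)) ^ 2 ≤ (P + Q) ^ 2 := by
    rw [mul_pow, hs]; exact m2
  have m4 := abs_le_of_sq_le_sq' m3 (add_nonneg (mul_nonneg hspos.le (nrm_nonneg _))
    (mul_nonneg hspos.le (nrm_nonneg _)))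
  have m5 : Real.sqrt n * nrm (tOp n x z *ᵥ ψ) ≤
      Real.sqrt n * (nrm (tOp n x y *ᵥ ψ) + nrm (tOp n y z *ᵥ ψ)) := by
    calc _ ≤ P + Q := m4.2
      _ = _ := by rw [hP, hQ]; ring
  exact le_of_mul_le_mul_left m5 hspos

open Classical in
/-- The pseudo-metric attached to a vector. -/
noncomputable def dst (n : ℕ) (Λ : Finset Site) (ψ : (Λ → Fin (n + 1)) → ℂ) (x y : Site) : ℝ :=
  if h : x ∈ Λ ∧ y ∈ Λ ∧ x ≠ y then nrm (tOp n ⟨x, h.1⟩ ⟨y, h.2.1⟩ *ᵥ ψ) else 0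

theorem dst_coe (ψ : (Λ → Fin (n + 1)) → ℂ) {x y : Λ} (hxy : x ≠ y) :
    dst n Λ ψ x.1 y.1 = nrm (tOp n x y *ᵥ ψ) := by
  unfold dst
  rw [dif_pos ⟨x.2, y.2, fun h => hxy (Subtype.ext h)⟩]

theorem dst_self (ψ : (Λ → Fin (n + 1)) → ℂ) (x : Site) : dst n Λ ψ x x = 0 := by
  unfold dst
  rw [dif_neg]
  intro h
  exact h.2.2 rfl

theorem dst_nonneg (ψ : (Λ → Fin (n + 1)) → ℂ) (x y : Site) : 0 ≤ dst n Λ ψ x y := by
  unfold dst
  split_ifs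
  · exact nrm_nonneg _
  · exact le_rfl

theorem dst_symm (ψ : (Λ → Fin (n + 1)) → ℂ) (x y : Site) : dst n Λ ψ x y = dst n Λ ψ y x := by
  by_cases h : x ∈ Λ ∧ y ∈ Λ ∧ x ≠ y
  · have h1 := dst_coe (n := n) ψ (x := ⟨x, h.1⟩) (y := ⟨y, h.2.1⟩)
      (fun h3 => h.2.2 (congrArg Subtype.val h3))
    have h2 := dst_coe (n := n) ψ (x := ⟨y, h.2.1⟩) (y := ⟨x, h.1⟩)
      (fun h3 => h.2.2 (congrArg Subtype.val h3).symm)
    simp only at h1 h2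
    rw [h1, h2, tOp_symm (x := ⟨y, h.2.1⟩) (y := ⟨x, h.1⟩)
      (fun h3 => h.2.2 (congrArg Subtype.val h3).symm), Matrix.neg_mulVec, nrm_neg]
  · unfold dst
    rw [dif_neg h, dif_neg]
    rintro ⟨h1, h2, h3⟩
    exact h ⟨h2, h1, h3.symm⟩

theorem dst_triangle (hn : 0 < n) (ψ : (Λ → Fin (n + 1)) → ℂ) {x y z : Site} (hx : x ∈ Λ)
    (hy : y ∈ Λ) (hz : z ∈ Λ) : dst n Λ ψ x z ≤ dst n Λ ψ x y + dst n Λ ψ y z := by
  by_cases hxz : x = z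
  · subst hxz
    rw [dst_self]
    exact add_nonneg (dst_nonneg _ _ _) (dst_nonneg _ _ _)
  by_cases hxy : x = y
  · subst hxy
    rw [dst_self, zero_add]
  by_cases hyz : y = z
  · subst hyz
    rw [dst_self, add_zero]
  have e : ∀ {u v : Site} (hu : u ∈ Λ) (hv : v ∈ Λ), u ≠ v →
      (⟨u, hu⟩ : Λ) ≠ ⟨v, hv⟩ := fun hu hv h h2 => h (congrArg Subtype.val h2)
  have h := t_triangle hn (e hx hy hxy) (e hy hz hyz) (e hx hz hxz) ψ
  have h1 := dst_coe (n := n) ψ (e hx hy hxy)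
  have h2 := dst_coe (n := n) ψ (e hy hz hyz)
  have h3 := dst_coe (n := n) ψ (e hx hz hxz)
  simp only at h1 h2 h3
  rw [h1, h2, h3]
  exact h

end Metric

section Compare

variable {n : ℕ} {Λ : Finset Site}

theorem pair_quad {x y : Λ} (hxy : x ≠ y) (ψ : (Λ → Fin (n + 1)) → ℂ) :
    star ψ ⬝ᵥ (((((n : ℂ) / 2) ^ 2) •
      (1 : Matrix (Λ → Fin (n + 1)) (Λ → Fin (n + 1)) ℂ) - H.dotOp n x y) *ᵥ ψ) =
      ((1 / 2 * dst n Λ ψ x.1 y.1 ^ 2 : ℝ) : ℂ) := by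
  rw [tOp_sq hxy, Matrix.smul_mulVec, dotProduct_smul, star_dot, dst_coe ψ hxy]
  push_cast
  rfl

theorem casX_quad (ψ : (Λ → Fin (n + 1)) → ℂ) :
    star ψ ⬝ᵥ (casX n Λ *ᵥ ψ) =
      ((1 / 2 * ∑ x ∈ Λ, ∑ y ∈ Λ, dst n Λ ψ x y ^ 2 : ℝ) : ℂ) := by
  unfold casX
  rw [Matrix.sum_mulVec, dotProduct_sum]
  have h1 : ∀ x y : Λ, star ψ ⬝ᵥ ((if x = y then 0 else
      ((((n : ℂ) / 2) ^ 2) • (1 : Matrix (Λ → Fin (n + 1)) (Λ → Fin (n + 1)) ℂ) -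
        H.dotOp n x y)) *ᵥ ψ) = ((1 / 2 * dst n Λ ψ x.1 y.1 ^ 2 : ℝ) : ℂ) := by
    intro x y
    split_ifs with h
    · subst h
      rw [dst_self, Matrix.zero_mulVec, dotProduct_zero]
      simp
    · exact pair_quad h ψ
  have h2 : ∀ x : Λ, star ψ ⬝ᵥ ((∑ y : Λ, if x = y then 0 else
      ((((n : ℂ) / 2) ^ 2) • (1 : Matrix (Λ → Fin (n + 1)) (Λ → Fin (n + 1)) ℂ) -
        H.dotOp n x y)) *ᵥ ψ) = ((1 / 2 * ∑ y ∈ Λ, dst n Λ ψ x.1 y ^ 2 : ℝ) : ℂ) := by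
    intro x
    rw [Matrix.sum_mulVec, dotProduct_sum, Finset.sum_congr rfl fun y _ => h1 x y,
      ← Complex.ofReal_sum, ← Finset.mul_sum,
      Finset.sum_coe_sort Λ (fun y => dst n Λ ψ x.1 y ^ 2)]
  rw [Finset.sum_congr rfl fun x _ => h2 x, ← Complex.ofReal_sum, ← Finset.mul_sum,
    Finset.sum_coe_sort Λ (fun x => ∑ y ∈ Λ, dst n Λ ψ x y ^ 2)]

theorem hT_quad (ψ : (Λ → Fin (n + 1)) → ℂ) :
    star ψ ⬝ᵥ (hT n Λ *ᵥ ψ) =
      ((1 / 4 * ∑ x ∈ Λ, ∑ y ∈ Λ, (if IsNN x y then dst n Λ ψ x y ^ 2 else 0) : ℝ) : ℂ) := by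
  unfold hT
  rw [Matrix.smul_mulVec, dotProduct_smul, Matrix.sum_mulVec, dotProduct_sum]
  have h1 : ∀ x y : Λ, star ψ ⬝ᵥ ((if IsNN x.1 y.1 then
      ((((n : ℂ) / 2) ^ 2) • (1 : Matrix (Λ → Fin (n + 1)) (Λ → Fin (n + 1)) ℂ) -
        H.dotOp n x y) else 0) *ᵥ ψ) =
      ((1 / 2 * (if IsNN x.1 y.1 then dst n Λ ψ x.1 y.1 ^ 2 else 0) : ℝ) : ℂ) := by
    intro x y
    split_ifs with h
    · exact pair_quad (by rintro rfl; exact isNN_irrefl _ h) ψ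
    · rw [Matrix.zero_mulVec, dotProduct_zero]
      simp
  have h2 : ∀ x : Λ, star ψ ⬝ᵥ ((∑ y : Λ, if IsNN x.1 y.1 then
      ((((n : ℂ) / 2) ^ 2) • (1 : Matrix (Λ → Fin (n + 1)) (Λ → Fin (n + 1)) ℂ) -
        H.dotOp n x y) else 0) *ᵥ ψ) =
      ((1 / 2 * ∑ y ∈ Λ, (if IsNN x.1 y then dst n Λ ψ x.1 y ^ 2 else 0) : ℝ) : ℂ) := by
    intro x
    rw [Matrix.sum_mulVec, dotProduct_sum, Finset.sum_congr rfl fun y _ => h1 x y,
      ← Complex.ofReal_sum, ← Finset.mul_sum,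
      Finset.sum_coe_sort Λ (fun y => if IsNN x.1 y then dst n Λ ψ x.1 y ^ 2 else 0)]
  rw [Finset.sum_congr rfl fun x _ => h2 x, ← Complex.ofReal_sum, ← Finset.mul_sum,
    Finset.sum_coe_sort Λ (fun x => ∑ y ∈ Λ, if IsNN x y then dst n Λ ψ x y ^ 2 else 0)]
  rw [smul_eq_mul]
  push_cast
  ring

theorem casX_isHermitian : (casX n Λ).IsHermitian := by
  rw [Matrix.IsHermitian, casX, Matrix.conjTranspose_sum]
  refine Finset.sum_congr rfl fun x _ => ?_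
  rw [Matrix.conjTranspose_sum]
  refine Finset.sum_congr rfl fun y _ => ?_
  split_ifs with h
  · simp
  · rw [tOp_sq h, Matrix.conjTranspose_smul, Matrix.conjTranspose_mul,
      Matrix.conjTranspose_conjTranspose]
    simp

/-- `∑_{x≠y} (S² - S_x·S_y) ≤ 3 L⁵ H̃` on the cube. -/
theorem casX_le_hT (hn : 0 < n) (L : ℕ) :
    (((3 * (L : ℝ) ^ 5 : ℝ) : ℂ) • hT n (cube L) - casX n (cube L)).PosSemidef := by
  rw [Matrix.posSemidef_iff_dotProduct_mulVec]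
  refine ⟨?_, fun ψ => ?_⟩
  · rw [Matrix.IsHermitian, Matrix.conjTranspose_sub, Matrix.conjTranspose_smul,
      hT_isHermitian, casX_isHermitian]
    simp
  · rw [Matrix.sub_mulVec, dotProduct_sub, Matrix.smul_mulVec, dotProduct_smul, hT_quad,
      casX_quad, smul_eq_mul, ← Complex.ofReal_mul, ← Complex.ofReal_sub, Complex.zero_le_real]
    have h := path_sum L (D := dst n (cube L) ψ) (dst_self ψ) (dst_symm ψ) (dst_nonneg ψ)
      (fun x y z hx hy hz => dst_triangle hn ψ hx hy hz)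
    nlinarith

/-- (D2), comparison with a product over sites. -/
theorem Zt_le_prod (hn : 0 < n) {L : ℕ} (hL : 0 < L) {β : ℝ} (hβ : 0 ≤ β) :
    Zt n (cube L) β 0 ≤ 2 * ((n : ℝ) * (L : ℝ) ^ 3 + 1) *
      (∑ j ∈ Finset.range (n + 1), Real.exp (-(n * β / (6 * (L : ℝ) ^ 2))) ^ j) ^ (L ^ 3) := by
  have hLR : (0 : ℝ) < L := by exact_mod_cast hL
  set s : ℝ := β / (3 * (L : ℝ) ^ 5) with hs
  have hs0 : 0 ≤ s := by positivity
  have hcard : ((cube L).card : ℝ) = (L : ℝ) ^ 3 := by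
    rw [cube_eq, card_cube]; push_cast; rfl
  have h1 : Zt n (cube L) β 0 ≤ (trace (NormedSpace.exp (((-s : ℝ) : ℂ) • casX n (cube L)))).re := by
    refine trace_exp_mono (expo_isHermitian' (n := n) (Λ := cube L) β 0) ?_ ?_
    · rw [Matrix.IsHermitian, Matrix.conjTranspose_smul, casX_isHermitian]
      simp
    · have e : ((-s : ℝ) : ℂ) • casX n (cube L) -
          -((β : ℂ) • hT n (cube L) + ((0 : ℝ) : ℂ) • numOp n (cube L)) =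
          (s : ℂ) • (((3 * (L : ℝ) ^ 5 : ℝ) : ℂ) • hT n (cube L) - casX n (cube L)) := by
        have e2 : (β : ℂ) = (s : ℂ) * ((3 * (L : ℝ) ^ 5 : ℝ) : ℂ) := by
          rw [← Complex.ofReal_mul]
          congr 1
          rw [hs]
          field_simp
        rw [e2]
        push_cast
        module
      rw [e]
      exact (casX_le_hT hn L).smul (by simpa using hs0)
  have h2 := trace_exp_casX_le (n := n) (Λ := cube L) s
  have h3 := sum_exp_cj_le (n := n) (Λ := cube L) hs0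
    (z := Real.exp (-s * ((n : ℝ) * (cube L).card / 2))) rfl
  rw [hcard] at h2 h3
  have h4 : Real.exp (-s * ((n : ℝ) * (L : ℝ) ^ 3 / 2)) =
      Real.exp (-(n * β / (6 * (L : ℝ) ^ 2))) := by
    congr 1
    rw [hs]
    field_simp
    ring
  have h5 : (cube L).card = L ^ 3 := by rw [cube_eq, card_cube]
  rw [h4, h5] at h3
  refine h1.trans (h2.trans ?_)
  calc ((n : ℝ) * (L : ℝ) ^ 3 + 1) * ∑ σ : cube L → Fin (n + 1),
        Real.exp (-s * cj n (cube L) (cntS σ)) ≤ ((n : ℝ) * (L : ℝ) ^ 3 + 1) *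
        (2 * (∑ j ∈ Finset.range (n + 1), Real.exp (-(n * β / (6 * (L : ℝ) ^ 2))) ^ j) ^ (L ^ 3)) :=
        mul_le_mul_of_nonneg_left h3 (by positivity)
    _ = _ := by ring

/-- (D2) -/
theorem Zt_le_crude (hn : 0 < n) {L : ℕ} (hL : 0 < L) {β : ℝ} (hβ : 0 < β) :
    Zt n (cube L) β 0 ≤ 2 * ((n : ℝ) * (L : ℝ) ^ 3 + 1) *
      ((1 - Real.exp (-(n * β / (6 * (L : ℝ) ^ 2))))⁻¹) ^ (L ^ 3) := by
  have hLR : (0 : ℝ) < L := by exact_mod_cast hL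
  have hnR : (0 : ℝ) < n := by exact_mod_cast hn
  refine (Zt_le_prod hn hL hβ.le).trans ?_
  set z := Real.exp (-(n * β / (6 * (L : ℝ) ^ 2))) with hz
  have hz0 : 0 < z := Real.exp_pos _
  have hz1 : z < 1 := by
    rw [hz, Real.exp_lt_one_iff]
    have : 0 < n * β / (6 * (L : ℝ) ^ 2) := by positivity
    linarith
  have h1 : ∑ j ∈ Finset.range (n + 1), z ^ j ≤ (1 - z)⁻¹ := by
    rw [← tsum_geometric_of_lt_one hz0.le hz1]
    exact (summable_geometric_of_lt_one hz0.le hz1).sum_le_tsum _ (fun _ _ => by positivity)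
  have h2 : (∑ j ∈ Finset.range (n + 1), z ^ j) ^ (L ^ 3) ≤ ((1 - z)⁻¹) ^ (L ^ 3) :=
    pow_le_pow_left₀ (Finset.sum_nonneg fun _ _ => by positivity) h1 _
  exact mul_le_mul_of_nonneg_left h2 (by positivity)

/-- (D2), logarithmic form. -/
theorem log_Zt_le_crude (hn : 0 < n) {L : ℕ} (hL : 0 < L) {β : ℝ} (hβ : 0 < β)
    (hz : Real.exp (-(n * β / (6 * (L : ℝ) ^ 2))) ≤ 1 / 2) :
    Real.log (Zt n (cube L) β 0) ≤ Real.log (2 * ((n : ℝ) * (L : ℝ) ^ 3 + 1)) +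
      2 * (L : ℝ) ^ 3 * Real.exp (-(n * β / (6 * (L : ℝ) ^ 2))) := by
  have h := Real.log_le_log (Zt_pos β 0) (Zt_le_crude hn hL hβ)
  have hLR : (0 : ℝ) < L := by exact_mod_cast hL
  have hnR : (0 : ℝ) < n := by exact_mod_cast hn
  set z := Real.exp (-(n * β / (6 * (L : ℝ) ^ 2))) with hzdef
  have hz0 : 0 < z := Real.exp_pos _
  have h1 : (0 : ℝ) < 1 - z := by linarith
  rw [Real.log_mul (by positivity) (by positivity), Real.log_pow] at h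
  have h2 : Real.log (1 - z)⁻¹ ≤ (1 - z)⁻¹ - 1 := Real.log_le_sub_one_of_pos (by positivity)
  have h3 : (1 - z)⁻¹ - 1 ≤ 2 * z := by
    have : (1 - z)⁻¹ - 1 = z / (1 - z) := by field_simp; ring
    rw [this, div_le_iff₀ h1]
    nlinarith
  have h4 : ((L ^ 3 : ℕ) : ℝ) * Real.log (1 - z)⁻¹ ≤ ((L ^ 3 : ℕ) : ℝ) * (2 * z) :=
    mul_le_mul_of_nonneg_left (h2.trans h3) (by positivity)
  have h5 : ((L ^ 3 : ℕ) : ℝ) * (2 * z) = 2 * (L : ℝ) ^ 3 * z := by push_cast; ring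
  linarith

end Compare

end Vale.Agent.P361.B
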