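import Vale.Agent.P361.B.Sector
import Vale.Agent.P361.H.Fourier
import Vale.Agent.P361.H.Bessel

set_option linter.unusedSectionVars false

/-!
Part B: cosine basis on the cube.
-/

namespace Vale.Agent.P361.B

open Finset
open Vale.Agent.P361.H (dir dir_injective isNN_iff bJ)

lemma sum_Ico_int (L : ℕ) (g : ℤ → ℝ) :
    ∑ p ∈ Finset.Ico (0 : ℤ) L, g p = ∑ i ∈ Finset.range L, g i := by
  symm
  refine Finset.sum_bij' (fun (i : ℕ) _ => (i : ℤ)) (fun (p : ℤ) _ => p.toNat) ?_ ?_ ?_ ?_ ?_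
  · intro i hi
    rw [Finset.mem_range] at hi
    rw [Finset.mem_Ico]; omega
  · intro p hp
    rw [Finset.mem_Ico] at hp
    rw [Finset.mem_range]; omega
  · intro i _; simp
  · intro p hp
    rw [Finset.mem_Ico] at hp
    simp; omega
  · intro i _; rfl

/-- One-dimensional cosine basis. -/
noncomputable def dct (L : ℕ) (p x : ℤ) : ℝ :=
  if p = 0 then Real.sqrt (1 / L)
  else Real.sqrt (2 / L) * Real.cos (Real.pi * p * (x + 1 / 2) / L)

lemma dct_zero (L : ℕ) (x : ℤ) : dct L 0 x = Real.sqrt (1 / L) := if_pos rfl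

lemma dct_ne (L : ℕ) {p : ℤ} (hp : p ≠ 0) (x : ℤ) :
    dct L p x = Real.sqrt (2 / L) * Real.cos (Real.pi * p * (x + 1 / 2) / L) := if_neg hp

/-- One-dimensional eigenvalue. -/
noncomputable def lam1 (L : ℕ) (p : ℤ) : ℝ := 2 * (1 - Real.cos (Real.pi * p / L))

lemma dct_lap (L : ℕ) (p x : ℤ) :
    dct L p (x + 1) + dct L p (x - 1) - 2 * dct L p x = - lam1 L p * dct L p x := by
  unfold dct lam1
  split_ifs with h
  · rw [h]; simp; ring
  · have h1 : Real.pi * p * (((x + 1 : ℤ) : ℝ) + 1 / 2) / L =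
        Real.pi * p * ((x : ℝ) + 1 / 2) / L + Real.pi * p / L := by push_cast; ring
    have h2 : Real.pi * p * (((x - 1 : ℤ) : ℝ) + 1 / 2) / L =
        Real.pi * p * ((x : ℝ) + 1 / 2) / L - Real.pi * p / L := by push_cast; ring
    rw [h1, h2, Real.cos_add, Real.cos_sub]
    ring

lemma dct_refl_left (L : ℕ) (p : ℤ) : dct L p (-1) = dct L p 0 := by
  unfold dct
  split_ifs with h
  · rfl
  · congr 1
    rw [← Real.cos_neg]
    congr 1
    push_cast
    ring

lemma dct_refl_right {L : ℕ} (hL : 0 < L) (p : ℤ) : dct L p L = dct L p (L - 1) := by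
  unfold dct
  split_ifs with h
  · rfl
  · congr 1
    have hL' : (L : ℝ) ≠ 0 := by positivity
    have h1 : Real.pi * p * (((L : ℤ) : ℝ) + 1 / 2) / L = (p : ℝ) * Real.pi + Real.pi * p / (2 * L) := by
      push_cast; field_simp
    have h2 : Real.pi * p * (((L - 1 : ℤ) : ℝ) + 1 / 2) / L =
        (p : ℝ) * Real.pi - Real.pi * p / (2 * L) := by
      push_cast; field_simp; ring
    rw [h1, h2, Real.cos_add, Real.cos_sub, Real.sin_int_mul_pi]
    ring

lemma cos_sum (θ : ℝ) (M : ℕ) : 2 * Real.sin (θ / 2) *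
    ∑ i ∈ Finset.range M, Real.cos (((i : ℝ) + 1) * θ) =
      Real.sin (((M : ℝ) + 1 / 2) * θ) - Real.sin (θ / 2) := by
  induction M with
  | zero =>
    have : ((0 : ℕ) + 1 / 2 : ℝ) * θ = θ / 2 := by push_cast; ring
    rw [this]; simp
  | succ M ih =>
    rw [Finset.sum_range_succ, mul_add, ih]
    have h1 : Real.sin (((M + 1 : ℕ) + 1 / 2 : ℝ) * θ) - Real.sin (((M : ℝ) + 1 / 2) * θ) =
        2 * Real.sin (θ / 2) * Real.cos (((M : ℝ) + 1) * θ) := by
      have e1 : ((M + 1 : ℕ) + 1 / 2 : ℝ) * θ = ((M : ℝ) + 1) * θ + θ / 2 := by push_cast; ring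
      have e2 : ((M : ℝ) + 1 / 2) * θ = ((M : ℝ) + 1) * θ - θ / 2 := by ring
      rw [e1, e2, Real.sin_add, Real.sin_sub]; ring
    linarith

lemma dirichlet_sum {L : ℕ} (hL : 0 < L) (m : ℤ) (hm : m ≠ 0) (hm2 : |m| < 2 * L) :
    ∑ i ∈ Finset.range (L - 1), Real.cos (((i : ℝ) + 1) * (Real.pi * m / L)) =
      - (Real.cos (Real.pi * m) + 1) / 2 := by
  have hL' : (0 : ℝ) < L := by positivity
  have h := cos_sum (Real.pi * m / L) (L - 1)
  have hs : Real.sin (Real.pi * m / L / 2) ≠ 0 := by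
    intro h0
    have hm' : (m : ℝ) ≠ 0 := by exact_mod_cast hm
    have h1 : |(m : ℝ)| < 2 * L := by exact_mod_cast hm2
    rw [abs_lt] at h1
    have h3 : -Real.pi < Real.pi * m / L / 2 := by
      rw [lt_div_iff₀ (by norm_num), lt_div_iff₀ hL']
      nlinarith [Real.pi_pos]
    have h4 : Real.pi * m / L / 2 < Real.pi := by
      rw [div_lt_iff₀ (by norm_num), div_lt_iff₀ hL']
      nlinarith [Real.pi_pos]
    have h5 := (Real.sin_eq_zero_iff_of_lt_of_lt h3 h4).1 h0
    have h6 : Real.pi * m / L / 2 ≠ 0 := by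
      have := Real.pi_pos.ne'
      positivity
    exact h6 h5
  have e1 : (((L - 1 : ℕ) : ℝ) + 1 / 2) * (Real.pi * m / L) =
      (m : ℝ) * Real.pi - Real.pi * m / L / 2 := by
    rw [Nat.cast_sub hL]; push_cast; field_simp; ring
  rw [e1, Real.sin_sub, Real.sin_int_mul_pi] at h
  have h2 : 2 * Real.sin (Real.pi * m / L / 2) *
      (∑ i ∈ Finset.range (L - 1), Real.cos (((i : ℝ) + 1) * (Real.pi * m / L)) +
      (Real.cos (Real.pi * m) + 1) / 2) = 0 := by
    rw [mul_add, h, mul_comm (m : ℝ) Real.pi]; ring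
  have h3 := (mul_eq_zero.1 h2).resolve_left (by simpa using hs)
  linarith

lemma dct_compl {L : ℕ} (hL : 0 < L) {x y : ℤ} (hx : x ∈ Finset.Ico (0 : ℤ) L)
    (hy : y ∈ Finset.Ico (0 : ℤ) L) :
    ∑ p ∈ Finset.Ico (0 : ℤ) L, dct L p x * dct L p y = if x = y then 1 else 0 := by
  rw [Finset.mem_Ico] at hx hy
  have hL' : (0 : ℝ) < L := by positivity
  obtain ⟨M, rfl⟩ : ∃ M, L = M + 1 := ⟨L - 1, by omega⟩
  rw [sum_Ico_int, Finset.sum_range_succ']
  have h0 : dct (M + 1) ((0 : ℕ) : ℤ) x * dct (M + 1) ((0 : ℕ) : ℤ) y = 1 / ((M + 1 : ℕ) : ℝ) := by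
    rw [Nat.cast_zero, dct_zero, dct_zero, Real.mul_self_sqrt (by positivity)]
  have h1 : ∀ i : ℕ, dct (M + 1) ((i + 1 : ℕ) : ℤ) x * dct (M + 1) ((i + 1 : ℕ) : ℤ) y =
      1 / ((M + 1 : ℕ) : ℝ) * (Real.cos (((i : ℝ) + 1) * (Real.pi * ((x + y + 1 : ℤ) : ℝ) / (M + 1 : ℕ))) +
        Real.cos (((i : ℝ) + 1) * (Real.pi * ((x - y : ℤ) : ℝ) / (M + 1 : ℕ)))) := by
    intro i
    rw [dct_ne _ (by omega), dct_ne _ (by omega)]
    have e1 : ((i : ℝ) + 1) * (Real.pi * ((x + y + 1 : ℤ) : ℝ) / (M + 1 : ℕ)) =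
        Real.pi * ((i + 1 : ℕ) : ℤ) * ((x : ℝ) + 1 / 2) / (M + 1 : ℕ) +
        Real.pi * ((i + 1 : ℕ) : ℤ) * ((y : ℝ) + 1 / 2) / (M + 1 : ℕ) := by
      push_cast; ring
    have e2 : ((i : ℝ) + 1) * (Real.pi * ((x - y : ℤ) : ℝ) / (M + 1 : ℕ)) =
        Real.pi * ((i + 1 : ℕ) : ℤ) * ((x : ℝ) + 1 / 2) / (M + 1 : ℕ) -
        Real.pi * ((i + 1 : ℕ) : ℤ) * ((y : ℝ) + 1 / 2) / (M + 1 : ℕ) := by
      push_cast; ring
    rw [e1, e2, Real.cos_add, Real.cos_sub]
    have e3 : Real.sqrt (2 / ((M + 1 : ℕ) : ℝ)) * Real.sqrt (2 / ((M + 1 : ℕ) : ℝ)) =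
        2 / ((M + 1 : ℕ) : ℝ) := Real.mul_self_sqrt (by positivity)
    generalize Real.cos (Real.pi * ((i + 1 : ℕ) : ℤ) * ((x : ℝ) + 1 / 2) / (M + 1 : ℕ)) = cx
    generalize Real.cos (Real.pi * ((i + 1 : ℕ) : ℤ) * ((y : ℝ) + 1 / 2) / (M + 1 : ℕ)) = cy
    calc _ = (Real.sqrt (2 / ((M + 1 : ℕ) : ℝ)) * Real.sqrt (2 / ((M + 1 : ℕ) : ℝ))) *
        (cx * cy) := by ring
      _ = _ := by rw [e3]; ring
  rw [h0]
  simp only [h1]
  rw [← Finset.mul_sum, Finset.sum_add_distrib]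
  have h2 := dirichlet_sum hL (x + y + 1) (by omega) (by rw [abs_of_nonneg] <;> push_cast <;> omega)
  rw [Nat.add_sub_cancel] at h2
  rw [h2]
  by_cases hxy : x = y
  · subst hxy
    rw [if_pos rfl]
    have h3 : Real.cos (Real.pi * ((x + x + 1 : ℤ) : ℝ)) = -1 := by
      have : Real.pi * ((x + x + 1 : ℤ) : ℝ) = (x : ℝ) * (2 * Real.pi) + Real.pi := by
        push_cast; ring
      rw [this, Real.cos_add_pi, Real.cos_int_mul_two_pi]
    rw [h3]
    simp
    field_simp
  · rw [if_neg hxy]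
    have h3 := dirichlet_sum hL (x - y) (by omega) (by rw [abs_lt]; push_cast; omega)
    rw [Nat.add_sub_cancel] at h3
    rw [h3]
    have h4 : Real.cos (Real.pi * ((x + y + 1 : ℤ) : ℝ)) =
        - Real.cos (Real.pi * ((x - y : ℤ) : ℝ)) := by
      have : Real.pi * ((x + y + 1 : ℤ) : ℝ) = Real.pi * ((x - y : ℤ) : ℝ) +
          (y : ℝ) * (2 * Real.pi) + Real.pi := by push_cast; ring
      rw [this, Real.cos_add_pi, Real.cos_add_int_mul_two_pi]
    rw [h4]
    ring

variable {L : ℕ}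

/-- Cosine basis on the cube. -/
noncomputable def dct3 (L : ℕ) (k x : cube L) : ℝ := ∏ j, dct L (k.1 j) (x.1 j)

/-- Laplacian eigenvalues on the cube. -/
noncomputable def lam3 (L : ℕ) (k : cube L) : ℝ := ∑ j, lam1 L (k.1 j)

lemma mem_cubeD {x : Site} : x ∈ cube L ↔ ∀ j, x j ∈ Finset.Ico (0 : ℤ) L := by
  rw [cube, Fintype.mem_piFinset]

lemma sum_cube_prod (g : Fin 3 → ℤ → ℝ) :
    ∑ k : cube L, ∏ j, g j (k.1 j) = ∏ j, ∑ p ∈ Finset.Ico (0 : ℤ) L, g j p := by
  rw [Finset.sum_coe_sort (cube L) (fun k => ∏ j, g j (k j)), Finset.prod_univ_sum]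
  rfl

lemma dct3_compl (hL : 0 < L) (x y : cube L) :
    ∑ k, dct3 L k x * dct3 L k y = if x = y then 1 else 0 := by
  unfold dct3
  simp only [← Finset.prod_mul_distrib]
  rw [sum_cube_prod (fun j p => dct L p (x.1 j) * dct L p (y.1 j))]
  have hx := mem_cubeD.1 x.2
  have hy := mem_cubeD.1 y.2
  simp only [fun j => dct_compl hL (hx j) (hy j)]
  by_cases hxy : x = y
  · subst hxy; simp
  · rw [if_neg hxy]
    have : ∃ j, x.1 j ≠ y.1 j := by
      by_contra hcon
      push Not at hcon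
      exact hxy (Subtype.ext (funext hcon))
    obtain ⟨j, hj⟩ := this
    exact Finset.prod_eq_zero (Finset.mem_univ j) (if_neg hj)

lemma dct3_orth (hL : 0 < L) (k l : cube L) :
    ∑ x, dct3 L k x * dct3 L l x = if k = l then 1 else 0 := by
  set M : Matrix (cube L) (cube L) ℝ := Matrix.of fun k x => dct3 L k x with hM
  have h1 : M.transpose * M = 1 := by
    ext x y
    rw [Matrix.mul_apply, Matrix.one_apply]
    exact dct3_compl hL x y
  have h2 : M * M.transpose = 1 := mul_eq_one_comm.1 h1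
  have h3 := congrFun (congrFun h2 k) l
  rw [Matrix.mul_apply, Matrix.one_apply] at h3
  exact h3

/-- Extension of the basis functions to all of `ℤ³`. -/
noncomputable def dctE (L : ℕ) (k : cube L) (x : Site) : ℝ := ∏ j, dct L (k.1 j) (x j)

lemma dctE_step (k : cube L) (x : Site) (j : Fin 3) (s : ℤ) :
    dctE L k (x + Pi.single j s) = dct L (k.1 j) (x j + s) *
      ∏ i ∈ Finset.univ.erase j, dct L (k.1 i) (x i) := by
  unfold dctE
  rw [← Finset.mul_prod_erase _ _ (Finset.mem_univ j)]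
  congr 1
  · simp
  · refine Finset.prod_congr rfl fun i hi => ?_
    have := Finset.ne_of_mem_erase hi
    simp [this]

lemma dctE_base (k : cube L) (x : Site) (j : Fin 3) :
    dctE L k x = dct L (k.1 j) (x j) * ∏ i ∈ Finset.univ.erase j, dct L (k.1 i) (x i) := by
  unfold dctE
  rw [← Finset.mul_prod_erase _ _ (Finset.mem_univ j)]

lemma dct3_eig (hL : 0 < L) (k x : cube L) :
    ∑ z : cube L, (if IsNN x.1 z.1 then dct3 L k z - dct3 L k x else 0) =
      - lam3 L k * dct3 L k x := by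
  have h1 : ∑ z : cube L, (if IsNN x.1 z.1 then dct3 L k z - dct3 L k x else 0) =
      ∑ p : Fin 3 × Bool, (dctE L k (x.1 + dir p) - dctE L k x.1) := by
    have e1 : ∑ z : cube L, (if IsNN x.1 z.1 then dct3 L k z - dct3 L k x else 0) =
        ∑ z ∈ (cube L).filter (fun z => IsNN x.1 z), (dctE L k z - dctE L k x.1) := by
      rw [Finset.sum_filter, ← Finset.sum_coe_sort (cube L)
        (fun z => if IsNN x.1 z then dctE L k z - dctE L k x.1 else 0)]
      rfl
    have hinj : Function.Injective fun p => x.1 + dir p :=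
      fun p q h => dir_injective (by simpa using h)
    rw [e1]
    have e2 : ∑ p : Fin 3 × Bool, (dctE L k (x.1 + dir p) - dctE L k x.1) =
        ∑ z ∈ Finset.univ.image (fun p => x.1 + dir p), (dctE L k z - dctE L k x.1) := by
      rw [Finset.sum_image (fun p _ q _ h => hinj h)]
    rw [e2]
    refine Finset.sum_subset ?_ ?_
    · intro z hz
      obtain ⟨p, hp⟩ := (isNN_iff x.1 z).1 (Finset.mem_filter.1 hz).2
      exact Finset.mem_image.2 ⟨p, Finset.mem_univ _, hp.symm⟩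
    · intro z hz hz2
      obtain ⟨p, _, rfl⟩ := Finset.mem_image.1 hz
      have hout : x.1 + dir p ∉ cube L := by
        intro hin
        exact hz2 (Finset.mem_filter.2 ⟨hin, (isNN_iff _ _).2 ⟨p, rfl⟩⟩)
      have hx := mem_cubeD.1 x.2
      obtain ⟨j, b⟩ := p
      rw [dir, dctE_step, dctE_base k x.1 j]
      have hxj := Finset.mem_Ico.1 (hx j)
      have hcoord : x.1 j + (if b then 1 else -1) ∉ Finset.Ico (0 : ℤ) L := by
        intro hin
        apply hout
        rw [mem_cubeD]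
        intro i
        by_cases hi : i = j
        · subst hi; simpa [dir] using hin
        · simpa [dir, hi] using hx i
      have hd : dct L (k.1 j) (x.1 j + (if b then 1 else -1)) = dct L (k.1 j) (x.1 j) := by
        cases b with
        | false =>
          simp only [Bool.false_eq_true, if_false, Finset.mem_Ico] at hcoord ⊢
          have : x.1 j = 0 := by omega
          rw [this]
          exact dct_refl_left L _
        | true =>
          simp only [if_true, Finset.mem_Ico] at hcoord ⊢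
          have : x.1 j = L - 1 := by omega
          rw [this, sub_add_cancel]
          exact dct_refl_right hL _
      rw [hd, sub_self]
  rw [h1, Fintype.sum_prod_type, lam3, neg_mul, Finset.sum_mul, ← Finset.sum_neg_distrib]
  refine Finset.sum_congr rfl fun j _ => ?_
  have h2 : dct3 L k x = dctE L k x.1 := rfl
  rw [Fintype.sum_bool, h2, dir, dir, dctE_step, dctE_step, dctE_base k x.1 j]
  simp only [if_true, Bool.false_eq_true, if_false]
  have h3 := dct_lap L (k.1 j) (x.1 j)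
  rw [sub_eq_add_neg (x.1 j) 1] at h3
  rw [← mul_assoc, ← neg_mul, ← neg_mul, ← h3]
  ring

lemma spec3 (hL : 0 < L) :
    Spec (fun x y : cube L => IsNN x.1 y.1) (dct3 L) (lam3 L) where
  eig := dct3_eig hL
  compl := dct3_compl hL
  orth := dct3_orth hL

/-- Sup bound of the squared basis functions. -/
noncomputable def bd1 (L : ℕ) (p : ℤ) : ℝ := if p = 0 then 1 / L else 2 / L

noncomputable def bd3 (L : ℕ) (k : cube L) : ℝ := ∏ j, bd1 L (k.1 j)

lemma bd1_nonneg (p : ℤ) : 0 ≤ bd1 L p := by unfold bd1; split_ifs <;> positivity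

lemma bd3_nonneg (k : cube L) : 0 ≤ bd3 L k := Finset.prod_nonneg fun _ _ => bd1_nonneg _

lemma dct_sq_le (p x : ℤ) : dct L p x ^ 2 ≤ bd1 L p := by
  by_cases hp : p = 0
  · subst hp
    rw [dct_zero, Real.sq_sqrt (by positivity), bd1, if_pos rfl]
  · rw [dct_ne _ hp, mul_pow, Real.sq_sqrt (by positivity), bd1, if_neg hp]
    have := Real.cos_sq_le_one (Real.pi * p * (x + 1 / 2) / L)
    have h2 : (0 : ℝ) ≤ 2 / L := by positivity
    nlinarith

lemma dct3_sq_le (k x : cube L) : dct3 L k x ^ 2 ≤ bd3 L k := by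
  unfold dct3 bd3
  rw [← Finset.prod_pow]
  exact Finset.prod_le_prod (fun j _ => sq_nonneg _) fun j _ => dct_sq_le _ _

lemma lam1_nonneg (p : ℤ) : 0 ≤ lam1 L p := by
  unfold lam1
  have := Real.cos_le_one (Real.pi * p / L)
  linarith

lemma lam3_nonneg (k : cube L) : 0 ≤ lam3 L k := Finset.sum_nonneg fun _ _ => lam1_nonneg _

/-- Riemann-sum upper bound. -/
lemma riemann_upper (hL : 0 < L) {t : ℝ} (ht : 0 ≤ t) {M : ℕ} (hM : M ≤ L) :
    ∑ i ∈ Finset.range M, Real.exp (-t * (1 - Real.cos (Real.pi * ((i + 1 : ℕ) : ℝ) / L))) ≤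
      L * bJ t := by
  have hL' : (0 : ℝ) < L := by positivity
  set f : ℝ → ℝ := fun x => Real.exp (-t * (1 - Real.cos (Real.pi * x / L))) with hf
  have hanti : AntitoneOn f (Set.Icc 0 (0 + (M : ℝ))) := by
    intro x hx y hy hxy
    simp only [hf]
    apply Real.exp_le_exp.2
    rw [zero_add] at hx hy
    have hML : (M : ℝ) ≤ L := by exact_mod_cast hM
    have h1 : Real.cos (Real.pi * y / L) ≤ Real.cos (Real.pi * x / L) := by
      refine Real.cos_le_cos_of_nonneg_of_le_pi ?_ ?_ ?_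
      · have := hx.1; have := Real.pi_pos; positivity
      · rw [div_le_iff₀ hL']
        exact mul_le_mul_of_nonneg_left (hy.2.trans hML) Real.pi_pos.le
      · gcongr
    nlinarith
  have h1 := hanti.sum_le_integral
  simp only [zero_add] at h1
  have hcont : Continuous f := by
    simp only [hf]; fun_prop
  have h2 : ∫ x in (0 : ℝ)..M, f x ≤ ∫ x in (0 : ℝ)..L, f x := by
    have h3 : ∫ x in (0 : ℝ)..L, f x = (∫ x in (0 : ℝ)..M, f x) + ∫ x in (M : ℝ)..L, f x :=
      (intervalIntegral.integral_add_adjacent_intervals (hcont.intervalIntegrable _ _)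
        (hcont.intervalIntegrable _ _)).symm
    have h4 : 0 ≤ ∫ x in (M : ℝ)..L, f x :=
      intervalIntegral.integral_nonneg (by exact_mod_cast hM) fun x _ => (Real.exp_pos _).le
    linarith
  have h3 : ∫ x in (0 : ℝ)..L, f x = L * bJ t := by
    have h4 : ∀ x, f x = (fun θ => Real.exp (-t * (1 - Real.cos θ))) (Real.pi / L * x) := by
      intro x
      simp only [hf]
      congr 4
      ring
    have hc : Real.pi / L ≠ 0 := by have := Real.pi_pos; positivity
    rw [intervalIntegral.integral_congr (fun x _ => h4 x),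
      intervalIntegral.integral_comp_mul_left (fun θ => Real.exp (-t * (1 - Real.cos θ))) hc,
      mul_zero, bJ, smul_eq_mul]
    have h5 : Real.pi / L * L = Real.pi := by field_simp
    rw [h5]
    field_simp
  calc _ ≤ ∫ x in (0 : ℝ)..M, f x := h1
    _ ≤ _ := h2
    _ = _ := h3

lemma one_dim_sum (hL : 0 < L) {t : ℝ} (ht : 0 ≤ t) :
    ∑ p ∈ Finset.Ico (0 : ℤ) L, Real.exp (-(t / 2 * lam1 L p)) ≤ 1 + L * bJ t := by
  obtain ⟨M, rfl⟩ : ∃ M, L = M + 1 := ⟨L - 1, by omega⟩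
  rw [sum_Ico_int, Finset.sum_range_succ', add_comm]
  refine add_le_add ?_ ?_
  · simp [lam1]
  · refine le_trans (le_of_eq ?_) (riemann_upper hL ht (Nat.le_succ M))
    refine Finset.sum_congr rfl fun i _ => ?_
    unfold lam1
    congr 1
    push_cast
    ring

lemma one_dim_sum_bd (hL : 0 < L) {t : ℝ} (ht : 0 ≤ t) :
    ∑ p ∈ Finset.Ico (0 : ℤ) L, Real.exp (-(t / 2 * lam1 L p)) * bd1 L p ≤ 1 / L + 2 * bJ t := by
  have hL' : (0 : ℝ) < L := by positivity
  obtain ⟨M, rfl⟩ : ∃ M, L = M + 1 := ⟨L - 1, by omega⟩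
  rw [sum_Ico_int, Finset.sum_range_succ', add_comm]
  refine add_le_add ?_ ?_
  · simp [lam1, bd1]
  · have h1 := riemann_upper hL ht (Nat.le_succ M)
    have h2 : ∑ i ∈ Finset.range M, Real.exp (-(t / 2 * lam1 (M + 1) ((i + 1 : ℕ) : ℤ))) *
        bd1 (M + 1) ((i + 1 : ℕ) : ℤ) = 2 / ((M + 1 : ℕ) : ℝ) *
        ∑ i ∈ Finset.range M, Real.exp (-t * (1 - Real.cos (Real.pi * ((i + 1 : ℕ) : ℝ) /
          ((M + 1 : ℕ) : ℝ)))) := by
      rw [Finset.mul_sum]
      refine Finset.sum_congr rfl fun i _ => ?_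
      unfold lam1 bd1
      rw [if_neg (by omega), mul_comm]
      congr 2
      push_cast
      ring
    rw [h2]
    calc _ ≤ 2 / ((M + 1 : ℕ) : ℝ) * (((M + 1 : ℕ) : ℝ) * bJ t) :=
          mul_le_mul_of_nonneg_left h1 (by positivity)
      _ = _ := by field_simp

lemma three_dim_sum (hL : 0 < L) {t : ℝ} (ht : 0 ≤ t) :
    ∑ k : cube L, Real.exp (-(t / 2 * lam3 L k)) ≤ (1 + L * bJ t) ^ 3 := by
  have h1 : ∀ k : cube L, Real.exp (-(t / 2 * lam3 L k)) =
      ∏ j, Real.exp (-(t / 2 * lam1 L (k.1 j))) := by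
    intro k
    rw [← Real.exp_sum, lam3, Finset.mul_sum, Finset.sum_neg_distrib]
  simp only [h1]
  rw [sum_cube_prod (fun _ p => Real.exp (-(t / 2 * lam1 L p)))]
  rw [Finset.prod_const, Finset.card_univ, Fintype.card_fin]
  exact pow_le_pow_left₀ (Finset.sum_nonneg fun _ _ => (Real.exp_pos _).le) (one_dim_sum hL ht) 3

lemma three_dim_sum_bd (hL : 0 < L) {t : ℝ} (ht : 0 ≤ t) :
    ∑ k : cube L, Real.exp (-(t / 2 * lam3 L k)) * bd3 L k ≤ (1 / L + 2 * bJ t) ^ 3 := by
  have h1 : ∀ k : cube L, Real.exp (-(t / 2 * lam3 L k)) * bd3 L k =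
      ∏ j, (Real.exp (-(t / 2 * lam1 L (k.1 j))) * bd1 L (k.1 j)) := by
    intro k
    rw [Finset.prod_mul_distrib, ← Real.exp_sum, lam3, bd3, Finset.mul_sum, Finset.sum_neg_distrib]
  simp only [h1]
  rw [sum_cube_prod (fun _ p => Real.exp (-(t / 2 * lam1 L p)) * bd1 L p)]
  rw [Finset.prod_const, Finset.card_univ, Fintype.card_fin]
  exact pow_le_pow_left₀ (Finset.sum_nonneg fun _ _ =>
    mul_nonneg (Real.exp_pos _).le (bd1_nonneg _)) (one_dim_sum_bd hL ht) 3

lemma degree_le (x : cube L) : ∑ y : cube L, (if IsNN x.1 y.1 then (1 : ℝ) else 0) ≤ 6 := by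
  have h := H.sum_nn_le (cube L) x.1 (fun _ => 1) (fun _ => zero_le_one)
  refine h.trans (le_of_eq ?_)
  simp

end Vale.Agent.P361.B
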