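import Vale.Agent.P361.H.Finite

/-!
Part B: definitions. `hT = H + S²|E| ≥ 0`, `numOp = S|Λ| - M ≥ 0`.
-/

namespace Vale.Agent.P361.B

open Matrix

/-- The cube `{0,…,L-1}³`. -/
noncomputable def cube (L : ℕ) : Finset Site := Fintype.piFinset fun _ : Fin 3 => Finset.Ico (0 : ℤ) L

/-- `H̃_Λ = ∑_{edges} (S² - S_x·S_y)`. -/
noncomputable def hT (n : ℕ) (Λ : Finset Site) : Matrix (Λ → Fin (n + 1)) (Λ → Fin (n + 1)) ℂ :=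
  (1 / 2 : ℂ) • ∑ x : Λ, ∑ y : Λ,
    if IsNN x.1 y.1 then (((n : ℂ) / 2) ^ 2) • (1 : Matrix _ _ ℂ) - H.dotOp n x y else 0

/-- Number of lowered spins `∑_x (S - S³_x)`. -/
noncomputable def numOp (n : ℕ) (Λ : Finset Site) : Matrix (Λ → Fin (n + 1)) (Λ → Fin (n + 1)) ℂ :=
  ∑ x : Λ, (((n : ℂ) / 2) • (1 : Matrix _ _ ℂ) - H.oZ n x)

/-- `Tr exp(-β H̃ - t N)`. -/
noncomputable def Zt (n : ℕ) (Λ : Finset Site) (β t : ℝ) : ℝ :=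
  (trace (NormedSpace.exp (-((β : ℂ) • hT n Λ + (t : ℂ) • numOp n Λ)))).re

end Vale.Agent.P361.B
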