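import Mathlib

/-!
Part B: joint diagonalization with a number operator.
-/

namespace Vale.Agent.P361.B

open Matrix Finset

variable {κ : Type*} [Fintype κ] [DecidableEq κ]

lemma joint_diag (A : Matrix κ κ ℝ) (hA : Aᵀ = A) (tot : κ → ℕ)
    (hcomm : ∀ i j, tot i ≠ tot j → A i j = 0) :
    ∃ (U : Matrix κ κ ℝ) (E : κ → ℝ) (Nn : κ → ℕ), Uᵀ * U = 1 ∧ U * Uᵀ = 1 ∧
      A = U * diagonal E * Uᵀ ∧ ∀ i j, tot i ≠ Nn j → U i j = 0 := by
  set C : ℝ := ∑ i, ∑ j, |A i j| with hC
  have hC0 : 0 ≤ C := Finset.sum_nonneg fun i _ => Finset.sum_nonneg fun j _ => abs_nonneg _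
  set τ : ℝ := 2 * C + 1 with hτ
  set B : Matrix κ κ ℝ := A + τ • diagonal (fun i => (tot i : ℝ)) with hB
  have hBh : B.IsHermitian := by
    unfold Matrix.IsHermitian
    rw [hB, Matrix.conjTranspose_add, Matrix.conjTranspose_smul, Matrix.diagonal_conjTranspose]
    have h1 : Aᴴ = A := by
      ext i j
      rw [Matrix.conjTranspose_apply]
      simp only [star_trivial]
      conv_rhs => rw [← hA]
      rfl
    rw [h1]
    simp
  set U : Matrix κ κ ℝ := (hBh.eigenvectorUnitary : Matrix κ κ ℝ) with hU
  have hstar : star U = Uᵀ := by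
    ext i j
    rw [Matrix.star_apply, Matrix.transpose_apply]; simp
  have hUU : Uᵀ * U = 1 := by rw [← hstar]; exact Unitary.coe_star_mul_self _
  have hUU' : U * Uᵀ = 1 := by rw [← hstar]; exact Unitary.coe_mul_star_self _
  set b : κ → ℝ := hBh.eigenvalues with hb
  have hspec : B = U * diagonal b * Uᵀ := by
    have h := hBh.spectral_theorem
    rw [Unitary.conjStarAlgAut_apply] at h
    rw [← hstar]
    exact h
  have hcol : B * U = U * diagonal b := by
    calc B * U = U * diagonal b * Uᵀ * U := by rw [← hspec]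
      _ = U * diagonal b := by rw [Matrix.mul_assoc, hUU, Matrix.mul_one]
  -- mass in each sector
  set S : ℕ → κ → ℝ := fun N j => ∑ i, if tot i = N then U i j ^ 2 else 0 with hS
  have hS0 : ∀ N j, 0 ≤ S N j := fun N j =>
    Finset.sum_nonneg fun i _ => by split_ifs <;> positivity
  have hle : ∀ i j, U i j ^ 2 ≤ S (tot i) j := by
    intro i j
    have := Finset.single_le_sum (f := fun k => if tot k = tot i then U k j ^ 2 else 0)
      (fun k _ => by split_ifs <;> positivity) (Finset.mem_univ i)
    simpa using this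
  have hkey : ∀ (N : ℕ) (j : κ), |b j - τ * N| * S N j ≤ C * S N j := by
    intro N j
    have h1 : ∀ i, (∑ k, A i k * U k j) + τ * tot i * U i j = U i j * b j := by
      intro i
      have h2 := congrFun (congrFun hcol i) j
      rw [Matrix.mul_diagonal, Matrix.mul_apply] at h2
      rw [← h2, hB]
      simp only [Matrix.add_apply, Matrix.smul_apply, Matrix.diagonal_apply, add_mul,
        Finset.sum_add_distrib, smul_eq_mul]
      congr 1
      rw [Finset.sum_eq_single i]
      · simp
      · intro k _ hk; simp [Ne.symm hk]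
      · simp
    have h2 : (b j - τ * N) * S N j =
        ∑ i, ∑ k, if tot i = N then A i k * (U i j * U k j) else 0 := by
      simp only [hS]
      rw [Finset.mul_sum]
      refine Finset.sum_congr rfl fun i _ => ?_
      by_cases hi : tot i = N
      · simp only [if_pos hi]
        have h3 := h1 i
        rw [hi] at h3
        calc (b j - τ * N) * U i j ^ 2 = U i j * (U i j * b j - τ * N * U i j) := by ring
          _ = U i j * ∑ k, A i k * U k j := by rw [← h3]; ring
          _ = _ := by rw [Finset.mul_sum]; exact Finset.sum_congr rfl fun k _ => by ring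
      · simp [if_neg hi]
    calc |b j - τ * N| * S N j = |(b j - τ * N) * S N j| := by rw [abs_mul, abs_of_nonneg (hS0 N j)]
      _ = |∑ i, ∑ k, if tot i = N then A i k * (U i j * U k j) else 0| := by rw [h2]
      _ ≤ ∑ i, ∑ k, |A i k| * S N j := by
          refine (Finset.abs_sum_le_sum_abs _ _).trans (Finset.sum_le_sum fun i _ => ?_)
          refine (Finset.abs_sum_le_sum_abs _ _).trans (Finset.sum_le_sum fun k _ => ?_)
          split_ifs with hi
          · rw [abs_mul]
            by_cases hk : tot i = tot k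
            · refine mul_le_mul_of_nonneg_left ?_ (abs_nonneg _)
              have e1 := hle i j
              have e2 := hle k j
              rw [hi] at e1
              rw [← hk, hi] at e2
              rw [abs_le]
              constructor <;> nlinarith [sq_nonneg (U i j + U k j), sq_nonneg (U i j - U k j)]
            · rw [hcomm i k hk]; simp
          · rw [abs_zero]; exact mul_nonneg (abs_nonneg _) (hS0 N j)
      _ = C * S N j := by
          rw [hC, Finset.sum_mul]
          exact Finset.sum_congr rfl fun i _ => by rw [Finset.sum_mul]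
  have hnz : ∀ j, ∃ i, U i j ≠ 0 := by
    intro j
    by_contra hcon
    push Not at hcon
    have h1 := congrFun (congrFun hUU j) j
    rw [Matrix.mul_apply, Matrix.one_apply_eq] at h1
    rw [Finset.sum_eq_zero] at h1
    · exact zero_ne_one h1
    · intro i _
      rw [hcon i, mul_zero]
  choose i0 hi0 using hnz
  have hzero : ∀ i j, tot i ≠ tot (i0 j) → U i j = 0 := by
    intro i j hij
    by_contra hne
    have p1 : 0 < S (tot i) j := lt_of_lt_of_le (by positivity) (hle i j)
    have p2 : 0 < S (tot (i0 j)) j :=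
      lt_of_lt_of_le (by have := hi0 j; positivity) (hle (i0 j) j)
    have q1 : |b j - τ * tot i| ≤ C := le_of_mul_le_mul_right (hkey _ _) p1
    have q2 : |b j - τ * tot (i0 j)| ≤ C := le_of_mul_le_mul_right (hkey _ _) p2
    have h3 : τ ≤ |τ * tot i - τ * tot (i0 j)| := by
      rw [← mul_sub, abs_mul, abs_of_nonneg (by positivity : 0 ≤ τ)]
      have : (1 : ℝ) ≤ |(tot i : ℝ) - tot (i0 j)| := by
        have h4 : (1 : ℤ) ≤ |(tot i : ℤ) - tot (i0 j)| := by
          exact Int.one_le_abs (by omega)
        exact_mod_cast h4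
      nlinarith
    have h5 : |τ * tot i - τ * tot (i0 j)| ≤ |b j - τ * tot i| + |b j - τ * tot (i0 j)| := by
      rw [abs_sub_comm (b j) (τ * tot i)]
      have := abs_add_le (τ * tot i - b j) (b j - τ * tot (i0 j))
      simpa using this
    linarith
  refine ⟨U, fun j => b j - τ * tot (i0 j), fun j => tot (i0 j), hUU, hUU', ?_, hzero⟩
  have hnum : diagonal (fun i => (tot i : ℝ)) = U * diagonal (fun j => (tot (i0 j) : ℝ)) * Uᵀ := by
    have h1 : diagonal (fun i => (tot i : ℝ)) * U = U * diagonal (fun j => (tot (i0 j) : ℝ)) := by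
      ext i j
      rw [Matrix.diagonal_mul, Matrix.mul_diagonal]
      by_cases hij : tot i = tot (i0 j)
      · rw [hij]; ring
      · rw [hzero i j hij]; ring
    rw [← h1, Matrix.mul_assoc, hUU', Matrix.mul_one]
  have h1 : A = B - τ • diagonal (fun i => (tot i : ℝ)) := by rw [hB]; simp
  have h2 : (diagonal fun j => b j - τ * (tot (i0 j) : ℝ)) =
      diagonal b - τ • diagonal (fun j => (tot (i0 j) : ℝ)) := by
    rw [← Matrix.diagonal_smul, Matrix.diagonal_sub]
    rfl
  rw [h2, Matrix.mul_sub, Matrix.sub_mul, ← hspec, Matrix.mul_smul, Matrix.smul_mul, ← hnum]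
  exact h1

lemma trace_exp_real_conj (U : Matrix κ κ ℝ) (h1 : Uᵀ * U = 1) (h2 : U * Uᵀ = 1) (d : κ → ℝ) :
    trace (NormedSpace.exp ((U * diagonal d * Uᵀ).map (fun r : ℝ => (r : ℂ)))) =
      ((∑ i, Real.exp (d i) : ℝ) : ℂ) := by
  set W : Matrix κ κ ℂ := U.map (fun r : ℝ => (r : ℂ)) with hW
  have hWi : W⁻¹ = (Uᵀ).map (fun r : ℝ => (r : ℂ)) := by
    apply Matrix.inv_eq_right_inv
    have := congrArg (fun M : Matrix κ κ ℝ => M.map (fun r : ℝ => (r : ℂ))) h2
    have e1 := Matrix.map_mul (L := U) (M := Uᵀ) (f := Complex.ofRealHom)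
    have e2 : (1 : Matrix κ κ ℝ).map (fun r : ℝ => (r : ℂ)) = 1 := by
      ext i j
      by_cases h : i = j
      · subst h; simp
      · simp [Matrix.one_apply_ne h]
    rw [e2] at this
    exact e1.symm.trans this
  have hunit : IsUnit W := by
    have := congrArg (fun M : Matrix κ κ ℝ => M.map (fun r : ℝ => (r : ℂ))) h2
    have e1 := Matrix.map_mul (L := U) (M := Uᵀ) (f := Complex.ofRealHom)
    have e2 : (1 : Matrix κ κ ℝ).map (fun r : ℝ => (r : ℂ)) = 1 := by
      ext i j
      by_cases h : i = j
      · subst h; simp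
      · simp [Matrix.one_apply_ne h]
    rw [e2] at this
    exact IsUnit.of_mul_eq_one _ (e1.symm.trans this)
  have hD : (diagonal d).map (fun r : ℝ => (r : ℂ)) = diagonal (fun i => ((d i : ℝ) : ℂ)) := by
    rw [Matrix.diagonal_map (by simp)]
  have hfac : (U * diagonal d * Uᵀ).map (fun r : ℝ => (r : ℂ)) =
      W * diagonal (fun i => ((d i : ℝ) : ℂ)) * W⁻¹ := by
    rw [hWi, ← hD]
    have e1 := Matrix.map_mul (L := U * diagonal d) (M := Uᵀ) (f := Complex.ofRealHom)
    have e2 := Matrix.map_mul (L := U) (M := diagonal d) (f := Complex.ofRealHom)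
    rw [e2] at e1
    exact e1
  rw [hfac, Matrix.exp_conj _ _ hunit, Matrix.exp_diagonal, Matrix.trace_mul_comm,
    ← Matrix.mul_assoc, Matrix.nonsing_inv_mul _ ((Matrix.isUnit_iff_isUnit_det _).1 hunit),
    Matrix.one_mul, Matrix.trace_diagonal]
  push_cast
  refine Finset.sum_congr rfl fun i _ => ?_
  rw [Pi.exp_def]
  simp [Complex.exp_eq_exp_ℂ]

end Vale.Agent.P361.B
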