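import Vale.Agent.P361.B.Params

/-!
Part B: final theorems.
-/

namespace Vale.Agent.P361.B

open Filter Topology

/-- Two-sided Bloch law, uniform for fields `h ≥ β^{-1-κ}`, `κ < 1/21`. -/
theorem bloch_uniform {n : ℕ} (hn : 1 ≤ n) {κ : ℝ} (hκ2 : κ < 1 / 21) {ε : ℝ} (hε : 0 < ε) :
    ∀ᶠ β : ℝ in atTop, ∀ h : ℝ, β ^ (-1 - κ) ≤ h →
      |β ^ (3 / 2 : ℝ) * ((n : ℝ) / 2 - H.magAt n β h) - fS ((n : ℝ) / 2) (β * h)| ≤ ε := by
  -- reduce to positive exponent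
  obtain ⟨κ₁, h1, h2, h3⟩ : ∃ κ₁ : ℝ, κ ≤ κ₁ ∧ 0 < κ₁ ∧ κ₁ < 1 / 21 := by
    rcases le_or_gt κ 0 with h | h
    · exact ⟨1 / 42, by linarith, by norm_num, by norm_num⟩
    · exact ⟨κ, le_rfl, h, hκ2⟩
  obtain ⟨κ₂, h4, h5⟩ := exists_between h3
  have hU := gRed_upper hn (by linarith : 0 < κ₂) h5
  have h6 := deficit_uniform hn h2 h4 (by linarith) hU ε hε
  filter_upwards [h6, eventually_ge_atTop 1] with β h7 hβ1 h hh
  have hβ0 : 0 < β := by linarith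
  have h8 := h7 (β * h) (by
    have h9 : β ^ (-κ₁) ≤ β * β ^ (-1 - κ) := by
      nth_rewrite 2 [← Real.rpow_one β]
      rw [← Real.rpow_add hβ0]
      exact Real.rpow_le_rpow_of_exponent_le hβ1 (by linarith)
    exact h9.trans (mul_le_mul_of_nonneg_left hh hβ0.le))
  rw [mul_div_cancel_left₀ h hβ0.ne'] at h8
  rwa [H.rpow_three_half hβ0.le]

/-- Crude bound valid for every positive field. -/
theorem crude_deficit {n : ℕ} (hn : 1 ≤ n) {ε : ℝ} (hε : 0 < ε) :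
    ∀ᶠ β : ℝ in atTop, ∀ h : ℝ, 0 < h →
      (n : ℝ) / 2 - H.magAt n β h ≤ β ^ (-(5 / 2) + ε) / h := by
  obtain ⟨η, h1, h2, h3⟩ : ∃ η : ℝ, 0 < η ∧ η < 1 / 2 ∧ 5 * η ≤ ε :=
    ⟨min (1 / 4) (ε / 5), by positivity, by
      have := min_le_left (1 / 4 : ℝ) (ε / 5); linarith, by
      have := min_le_right (1 / 4 : ℝ) (ε / 5); linarith⟩
  have l1 : ∀ᶠ β : ℝ in atTop, 2 ≤ β ^ (1 / 2 - η) :=
    (tendsto_rpow_atTop (by linarith)).eventually_ge_atTop 2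
  have l2 : ∀ᶠ β : ℝ in atTop, 8 ≤ β ^ η := (tendsto_rpow_atTop h1).eventually_ge_atTop 8
  filter_upwards [crude_log hn h1 h2, l1, l2, eventually_ge_atTop 1] with β hcr h2X h8 hβ1 h hh
  have hβ0 : 0 < β := by linarith
  have pp : ∀ a : ℝ, 0 < β ^ a := fun a => Real.rpow_pos_of_pos hβ0 a
  have hX0 := pp (1 / 2 - η)
  obtain ⟨L, hLa, hLb⟩ : ∃ L : ℕ, (L : ℝ) ≤ β ^ (1 / 2 - η) ∧ β ^ (1 / 2 - η) / 2 ≤ L := by
    refine ⟨⌊β ^ (1 / 2 - η)⌋₊, Nat.floor_le hX0.le, ?_⟩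
    have := Nat.lt_floor_add_one (β ^ (1 / 2 - η))
    linarith
  have hLR : (0 : ℝ) < L := by linarith
  have hLpos : 0 < L := by exact_mod_cast hLR
  have hz := hcr L hLpos hLa
  have hz2 : Real.log (Zt n (cube L) β (β * 0)) ≤ β ^ η := by
    rw [mul_zero]
    exact (Real.log_le_log (Zt_pos β 0) (Zt_anti (by linarith) le_rfl)).trans hz
  have hg := gRed_le (n := n) (β := β) (h := 0) hβ0 le_rfl hLpos
  have hg2 : gRed n β 0 ≤ 8 * β ^ (-(3 / 2) + 4 * η) := by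
    refine hg.trans ?_
    rw [div_le_iff₀ (by positivity)]
    refine hz2.trans ?_
    have h4 : (β ^ (1 / 2 - η) / 2) ^ 3 ≤ (L : ℝ) ^ 3 :=
      pow_le_pow_left₀ (by positivity) hLb 3
    have h5 : (β ^ (1 / 2 - η) / 2) ^ 3 = β ^ (3 / 2 - 3 * η) / 8 := by
      rw [div_pow, ← Real.rpow_natCast, ← Real.rpow_mul hβ0.le]
      norm_num
      congr 1
      ring
    rw [h5] at h4
    have h6 : β ^ (-(3 / 2) + 4 * η) * β ^ (3 / 2 - 3 * η) = β ^ η := by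
      rw [← Real.rpow_add hβ0]; congr 1; ring
    have h7 := mul_le_mul_of_nonneg_left h4 (pp (-(3 / 2) + 4 * η)).le
    nlinarith
  have sl := mag_le_slope (n := n) hβ0 (h₁ := 0) (h₀ := h) hh
  have hg3 := gRed_nonneg (n := n) hβ0 h
  refine sl.trans ?_
  rw [sub_zero, div_le_div_iff₀ (by positivity) hh]
  have h9 : gRed n β 0 - gRed n β h ≤ β * β ^ (-(5 / 2) + ε) := by
    have h10 : 8 * β ^ (-(3 / 2) + 4 * η) ≤ β * β ^ (-(5 / 2) + ε) := by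
      calc 8 * β ^ (-(3 / 2) + 4 * η) ≤ β ^ η * β ^ (-(3 / 2) + 4 * η) :=
            mul_le_mul_of_nonneg_right h8 (pp _).le
        _ = β ^ (-(3 / 2) + 5 * η) := by rw [← Real.rpow_add hβ0]; congr 1; ring
        _ ≤ β ^ (-(3 / 2) + ε) := Real.rpow_le_rpow_of_exponent_le hβ1 (by linarith)
        _ = β * β ^ (-(5 / 2) + ε) := by
          nth_rewrite 2 [← Real.rpow_one β]
          rw [← Real.rpow_add hβ0]; congr 1; ring
    linarith
  calc (gRed n β 0 - gRed n β h) * h ≤ β * β ^ (-(5 / 2) + ε) * h :=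
        mul_le_mul_of_nonneg_right h9 hh.le
    _ = _ := by ring

/-- Limit at fixed scaled field. -/
theorem bloch_scaled {n : ℕ} (hn : 1 ≤ n) {t : ℝ} (ht : 0 < t) :
    Tendsto (fun β : ℝ => β ^ (3 / 2 : ℝ) * ((n : ℝ) / 2 - H.magAt n β (t / β))) atTop
      (𝓝 (fS ((n : ℝ) / 2) t)) := by
  rw [Metric.tendsto_nhds]
  intro ε hε
  have l1 : ∀ᶠ β : ℝ in atTop, t⁻¹ ≤ β ^ (1 / 42 : ℝ) :=
    (tendsto_rpow_atTop (by norm_num)).eventually_ge_atTop _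
  filter_upwards [bloch_uniform hn (κ := 1 / 42) (by norm_num) (half_pos hε), l1,
    eventually_ge_atTop 1] with β h1 h2 hβ1
  have hβ0 : 0 < β := by linarith
  have h3 := h1 (t / β) (by
    rw [le_div_iff₀ hβ0]
    have e : β ^ (-1 - 1 / 42 : ℝ) * β = (β ^ (1 / 42 : ℝ))⁻¹ := by
      nth_rewrite 2 [← Real.rpow_one β]
      rw [← Real.rpow_add hβ0, ← Real.rpow_neg hβ0.le]
      congr 1; ring
    rw [e]
    exact inv_le_of_inv_le₀ ht h2)
  rw [mul_div_cancel₀ t hβ0.ne'] at h3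
  rw [Real.dist_eq]
  linarith

/-- Bloch's law along `h = β^{-1-κ}`, `0 < κ < 1/21`. -/
theorem bloch_vanishing {n : ℕ} (hn : 1 ≤ n) {κ : ℝ} (hκ : 0 < κ) (hκ2 : κ < 1 / 21) :
    Tendsto (fun β : ℝ => β ^ (3 / 2 : ℝ) * ((n : ℝ) / 2 - H.magAt n β (β ^ (-1 - κ)))) atTop
      (𝓝 (H.blochCoeff ((n : ℝ) / 2))) := by
  have hnR : (1 : ℝ) ≤ n := by exact_mod_cast hn
  have e0 : H.blochCoeff ((n : ℝ) / 2) = fS ((n : ℝ) / 2) 0 := by
    rw [fS_zero, aS, H.blochCoeff, H.rpow_three_half Real.pi_pos.le,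
      H.rpow_three_half (by positivity)]
    have e : Real.sqrt (4 * Real.pi * ((n : ℝ) / 2)) ^ 3 =
        8 * Real.sqrt Real.pi ^ 3 * Real.sqrt ((n : ℝ) / 2) ^ 3 := by
      rw [mul_assoc, Real.sqrt_mul (by norm_num), Real.sqrt_mul Real.pi_pos.le,
        show (4 : ℝ) = 2 ^ 2 by norm_num, Real.sqrt_sq (by norm_num)]
      ring
    rw [e]
    ring
  rw [e0]
  have h0 : Tendsto (fun β : ℝ => fS ((n : ℝ) / 2) (β * β ^ (-1 - κ))) atTop
      (𝓝 (fS ((n : ℝ) / 2) 0)) := by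
    refine (fS_tendsto_zero _).comp (tendsto_nhdsWithin_iff.2 ⟨?_, ?_⟩)
    · refine (tendsto_rpow_neg_atTop hκ).congr' ?_
      filter_upwards [eventually_gt_atTop 0] with β hβ
      nth_rewrite 2 [← Real.rpow_one β]
      rw [← Real.rpow_add hβ]; congr 1; ring
    · filter_upwards [eventually_gt_atTop 0] with β hβ
      exact Set.mem_Ici.2 (by positivity)
  have h1 : Tendsto (fun β : ℝ => β ^ (3 / 2 : ℝ) * ((n : ℝ) / 2 -
      H.magAt n β (β ^ (-1 - κ))) - fS ((n : ℝ) / 2) (β * β ^ (-1 - κ))) atTop (𝓝 0) := by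
    rw [Metric.tendsto_nhds]
    intro ε hε
    filter_upwards [bloch_uniform hn hκ2 (half_pos hε)] with β h1
    have h2 := h1 (β ^ (-1 - κ)) le_rfl
    rw [Real.dist_eq, sub_zero]
    linarith
  have h2 := h1.add h0
  simpa using h2

end Vale.Agent.P361.B
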