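import Vale.Agent.P361.B.Pair

set_option linter.unusedSectionVars false

/-!
Part B: comparison of pair functions with the heat flow.
-/

namespace Vale.Agent.P361.B

open Finset Filter Topology

lemma quasi_monotone {ι : Type*} [Finite ι] (G G' : ℝ → ι → ℝ) (K : ℝ)
    (hd : ∀ s i, HasDerivAt (fun s => G s i) (G' s i) s) (h0 : ∀ i, 0 ≤ G 0 i)
    (hq : ∀ s, 0 ≤ s → ∀ δ, 0 < δ → (∀ j, -δ ≤ G s j) → ∀ i, G s i = -δ → -(K * δ) ≤ G' s i) :
    ∀ s, 0 ≤ s → ∀ i, 0 ≤ G s i := by
  intro s1 hs1 i1
  by_contra hneg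
  push Not at hneg
  obtain ⟨ε, hε, hεs⟩ : ∃ ε > 0, ε * Real.exp ((K + 1) * s1) < - G s1 i1 := by
    refine ⟨- G s1 i1 / Real.exp ((K + 1) * s1) / 2, by have := Real.exp_pos ((K + 1) * s1)
                                                        apply div_pos (div_pos (by linarith) this)
                                                        norm_num, ?_⟩
    have := Real.exp_pos ((K + 1) * s1)
    field_simp
    linarith
  set δ : ℝ → ℝ := fun s => ε * Real.exp ((K + 1) * s) with hδ
  have hδpos : ∀ s, 0 < δ s := fun s => mul_pos hε (Real.exp_pos _)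
  have hδd : ∀ s, HasDerivAt δ ((K + 1) * δ s) s := by
    intro s
    have h1 : HasDerivAt (fun s : ℝ => (K + 1) * s) (K + 1) s := by
      simpa using (hasDerivAt_id s).const_mul (K + 1)
    have h2 := (h1.exp).const_mul ε
    have e : (K + 1) * δ s = ε * (Real.exp ((K + 1) * s) * (K + 1)) := by simp only [hδ]; ring
    rw [e]
    exact h2
  have hFd : ∀ s i, HasDerivAt (fun s => G s i + δ s) (G' s i + (K + 1) * δ s) s :=
    fun s i => (hd s i).add (hδd s)
  have hFc : ∀ i, Continuous fun s => G s i + δ s := fun i =>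
    continuous_iff_continuousAt.2 fun s => (hFd s i).continuousAt
  set B : Set ℝ := {s | s ∈ Set.Icc 0 s1 ∧ ∃ i, G s i + δ s ≤ 0} with hB
  have hBc : IsCompact B := by
    have : B = Set.Icc 0 s1 ∩ ⋃ i, {s | G s i + δ s ≤ 0} := by
      ext s; simp [hB]
    rw [this]
    refine isCompact_Icc.inter_right ?_
    exact isClosed_iUnion_of_finite fun i => isClosed_le (hFc i) continuous_const
  have hBn : B.Nonempty := ⟨s1, ⟨hs1, le_rfl⟩, i1, by linarith⟩
  obtain ⟨t, ⟨⟨ht0, ht1⟩, i, hi⟩, hmin⟩ := hBc.exists_isLeast hBn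
  have htpos : 0 < t := by
    rcases ht0.lt_or_eq with h | h
    · exact h
    · exfalso
      rw [← h] at hi
      have := h0 i
      have := hδpos 0
      linarith
  have hbefore : ∀ s, 0 ≤ s → s < t → ∀ j, 0 < G s j + δ s := by
    intro s hs hst j
    by_contra hcon
    push Not at hcon
    exact absurd (hmin ⟨⟨hs, by linarith⟩, j, hcon⟩) (not_le.2 hst)
  have hge : ∀ j, 0 ≤ G t j + δ t := by
    intro j
    have h1 : Tendsto (fun s => G s j + δ s) (𝓝[<] t) (𝓝 (G t j + δ t)) :=
      ((hFc j).tendsto t).mono_left nhdsWithin_le_nhds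
    refine ge_of_tendsto h1 ?_
    filter_upwards [Ioo_mem_nhdsLT htpos] with s hs
    exact (hbefore s hs.1.le hs.2 j).le
  have hit : G t i = - δ t := by linarith [hge i]
  have hG' := hq t ht0 (δ t) (hδpos t) (fun j => by linarith [hge j]) i hit
  have hpos : 0 < G' t i + (K + 1) * δ t := by
    have := hδpos t
    nlinarith
  have hslope := hasDerivAt_iff_tendsto_slope.1 (hFd t i)
  have hev : ∀ᶠ s in 𝓝[≠] t, 0 < slope (fun s => G s i + δ s) t s :=
    hslope.eventually (lt_mem_nhds hpos)
  have hev2 : ∀ᶠ s in 𝓝[<] t, 0 < slope (fun s => G s i + δ s) t s :=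
    hev.filter_mono (nhdsWithin_mono _ fun s hs => ne_of_lt hs)
  obtain ⟨s, hs1', hs2⟩ := (hev2.and (Ioo_mem_nhdsLT htpos)).exists
  have h3 := hbefore s hs2.1.le hs2.2 i
  rw [slope_def_field] at hs1'
  have h4 : G t i + δ t = 0 := by linarith
  have h5 : s - t < 0 := by linarith [hs2.2]
  rw [h4] at hs1'
  have : (G s i + δ s - 0) / (s - t) < 0 := div_neg_of_pos_of_neg (by linarith) h5
  linarith

variable {V : Type*} [Fintype V] [DecidableEq V]

/-- Eigenbasis of the graph Laplacian. -/
structure Spec (adj : V → V → Prop) [DecidableRel adj] (e : V → V → ℝ) (lam : V → ℝ) : Prop where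
  eig : ∀ k x, ∑ z, (if adj x z then e k z - e k x else 0) = - lam k * e k x
  compl : ∀ x y, ∑ k, e k x * e k y = if x = y then 1 else 0
  orth : ∀ k l, ∑ x, e k x * e l x = if k = l then 1 else 0

/-- Heat flow. -/
noncomputable def heat (n : ℕ) (e : V → V → ℝ) (lam : V → ℝ) (ζ : V → ℕ) (s : ℝ) (x : V) : ℝ :=
  ∑ k, Real.exp (-(s * n * lam k)) * (∑ y, (ζ y : ℝ) * e k y) * e k x

section

variable {n : ℕ} {adj : V → V → Prop} [DecidableRel adj] {e : V → V → ℝ} {lam : V → ℝ}

lemma heat_zero (hS : Spec adj e lam) (ζ : V → ℕ) (x : V) : heat n e lam ζ 0 x = ζ x := by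
  unfold heat
  calc _ = ∑ k, ∑ y, (ζ y : ℝ) * (e k y * e k x) := by
        refine Finset.sum_congr rfl fun k _ => ?_
        rw [zero_mul, zero_mul, neg_zero, Real.exp_zero, one_mul, Finset.sum_mul]
        exact Finset.sum_congr rfl fun y _ => by ring
    _ = ∑ y, (ζ y : ℝ) * ∑ k, e k y * e k x := by
        rw [Finset.sum_comm]
        exact Finset.sum_congr rfl fun y _ => by rw [Finset.mul_sum]
    _ = _ := by
        simp only [hS.compl]
        simp

lemma heat_deriv (hS : Spec adj e lam) (ζ : V → ℕ) (s : ℝ) (x : V) :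
    HasDerivAt (fun s => heat n e lam ζ s x)
      (n * ∑ z, (if adj x z then heat n e lam ζ s z - heat n e lam ζ s x else 0)) s := by
  have h1 : HasDerivAt (fun s => heat n e lam ζ s x)
      (∑ k, Real.exp (-(s * n * lam k)) * (-(n * lam k)) * (∑ y, (ζ y : ℝ) * e k y) * e k x) s := by
    unfold heat
    refine HasDerivAt.fun_sum fun k _ => ?_
    have h2 : HasDerivAt (fun s : ℝ => -(s * n * lam k)) (-(n * lam k)) s := by
      have h0 : HasDerivAt (fun s : ℝ => (-((n : ℝ) * lam k)) * s) (-(n * lam k)) s := by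
        simpa using (hasDerivAt_id' s).const_mul (-((n : ℝ) * lam k))
      have h3 : (fun s : ℝ => -(s * n * lam k)) = fun s : ℝ => (-((n : ℝ) * lam k)) * s := by
        funext s; ring
      rw [h3]; exact h0
    exact (h2.exp.mul_const _).mul_const _
  convert h1 using 1
  have h3 : ∀ z, (if adj x z then heat n e lam ζ s z - heat n e lam ζ s x else 0) =
      ∑ k, Real.exp (-(s * n * lam k)) * (∑ y, (ζ y : ℝ) * e k y) *
        (if adj x z then e k z - e k x else 0) := by
    intro z
    split_ifs
    · unfold heat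
      rw [← Finset.sum_sub_distrib]
      exact Finset.sum_congr rfl fun k _ => by ring
    · simp
  simp only [h3]
  rw [Finset.sum_comm, Finset.mul_sum]
  refine Finset.sum_congr rfl fun k _ => ?_
  rw [← Finset.mul_sum, hS.eig]
  ring

lemma heat_sq (hS : Spec adj e lam) (ζ : V → ℕ) (s : ℝ) :
    ∑ x, heat n e lam ζ s x ^ 2 =
      ∑ k, Real.exp (-(2 * s * n * lam k)) * (∑ y, (ζ y : ℝ) * e k y) ^ 2 := by
  have h1 : ∀ x, heat n e lam ζ s x ^ 2 = ∑ k, ∑ l,
      (Real.exp (-(s * n * lam k)) * (∑ y, (ζ y : ℝ) * e k y)) *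
      (Real.exp (-(s * n * lam l)) * (∑ y, (ζ y : ℝ) * e l y)) * (e k x * e l x) := by
    intro x
    rw [sq]
    unfold heat
    rw [Finset.sum_mul_sum]
    exact Finset.sum_congr rfl fun k _ => Finset.sum_congr rfl fun l _ => by ring
  simp only [h1]
  rw [Finset.sum_comm]
  refine Finset.sum_congr rfl fun k _ => ?_
  rw [Finset.sum_comm]
  simp only [← Finset.mul_sum, hS.orth]
  rw [Finset.sum_eq_single k]
  · rw [if_pos rfl, mul_one]
    have : Real.exp (-(2 * s * n * lam k)) = Real.exp (-(s * n * lam k)) *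
        Real.exp (-(s * n * lam k)) := by rw [← Real.exp_add]; congr 1; ring
    rw [this]; ring
  · intro l _ hl
    rw [if_neg (Ne.symm hl), mul_zero]
  · simp

lemma heat_sq_le (hS : Spec adj e lam) {N : ℕ} (ζ : V → ℕ) (hζ : ∑ x, ζ x = N) (s : ℝ)
    {b : V → ℝ} (hb : ∀ k x, e k x ^ 2 ≤ b k) :
    ∑ x, heat n e lam ζ s x ^ 2 ≤ (N : ℝ) ^ 2 * ∑ k, Real.exp (-(2 * s * n * lam k)) * b k := by
  rw [heat_sq hS, Finset.mul_sum]
  refine Finset.sum_le_sum fun k _ => ?_
  have h1 : (∑ y, (ζ y : ℝ) * e k y) ^ 2 ≤ (N : ℝ) ^ 2 * b k := by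
    have h2 : (∑ y, (ζ y : ℝ) * e k y) ^ 2 ≤ (∑ y, (ζ y : ℝ)) * ∑ y, (ζ y : ℝ) * e k y ^ 2 := by
      have := Finset.sum_sq_le_sum_mul_sum_of_sq_le_mul (R := ℝ) Finset.univ
        (r := fun y => (ζ y : ℝ) * e k y) (f := fun y => (ζ y : ℝ))
        (g := fun y => (ζ y : ℝ) * e k y ^ 2) (fun y _ => by positivity)
        (fun y _ => by positivity) (fun y _ => le_of_eq (by ring))
      exact this
    have h3 : ∑ y, (ζ y : ℝ) = N := by rw [← hζ]; push_cast; rfl
    have h4 : ∑ y, (ζ y : ℝ) * e k y ^ 2 ≤ N * b k := by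
      rw [← h3, Finset.sum_mul]
      exact Finset.sum_le_sum fun y _ => mul_le_mul_of_nonneg_left (hb k y) (by positivity)
    calc _ ≤ _ := h2
      _ ≤ (N : ℝ) * (N * b k) := by rw [h3]; exact mul_le_mul_of_nonneg_left h4 (by positivity)
      _ = _ := by ring
  calc _ ≤ Real.exp (-(2 * s * n * lam k)) * ((N : ℝ) ^ 2 * b k) :=
        mul_le_mul_of_nonneg_left h1 (Real.exp_pos _).le
    _ = _ := by ring

/-- Product supersolution. -/
noncomputable def prodW (n : ℕ) (a : V → ℝ) (u v : V) : ℝ :=
  (1 - (if u = v then (1 : ℝ) else 0) / n) * (a u * a v)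

/-- Its time derivative. -/
noncomputable def prodW' (n : ℕ) (adj : V → V → Prop) [DecidableRel adj] (a : V → ℝ)
    (u v : V) : ℝ :=
  (1 - (if u = v then (1 : ℝ) else 0) / n) *
    ((n * ∑ z, (if adj u z then a z - a u else 0)) * a v +
      a u * (n * ∑ z, (if adj v z then a z - a v else 0)))

lemma pairOpM_prodW (hn : 1 ≤ n) (hadj : ∀ x y, adj x y → adj y x) (hirr : ∀ x, ¬ adj x x)
    (a : V → ℝ) (u v : V) :
    pairOpM n adj (prodW n a) u v ≤ prodW' n adj a u v := by
  have hn0 : (n : ℝ) ≠ 0 := by positivity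
  have hrest : prodW' n adj a u v = (1 - (if u = v then (1 : ℝ) else 0) / n) *
      (∑ z, (if adj u z then n * (a z - a u) * a v else 0) +
       ∑ z, (if adj v z then n * (a z - a v) * a u else 0)) := by
    unfold prodW'
    congr 1
    rw [Finset.mul_sum, Finset.sum_mul, Finset.mul_sum, Finset.mul_sum]
    congr 1
    · exact Finset.sum_congr rfl fun z _ => by split_ifs <;> ring
    · exact Finset.sum_congr rfl fun z _ => by split_ifs <;> ring
  rw [hrest]
  by_cases huv : u = v
  · subst huv
    rw [if_pos rfl]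
    refine le_of_eq ?_
    unfold pairOpM
    rw [mul_add, Finset.mul_sum]
    congr 1
    · refine Finset.sum_congr rfl fun z _ => ?_
      by_cases hz : adj u z
      · have hne : z ≠ u := fun h' => hirr u (h' ▸ hz)
        rw [if_pos hz, if_pos hz, if_pos rfl, if_neg (Ne.symm hne), prodW, prodW, if_neg hne,
          if_pos rfl]
        field_simp
        ring
      · rw [if_neg hz, if_neg hz, mul_zero]
    · refine Finset.sum_congr rfl fun z _ => ?_
      by_cases hz : adj u z
      · have hne : z ≠ u := fun h' => hirr u (h' ▸ hz)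
        rw [if_pos hz, if_pos hz, if_pos rfl, if_neg (Ne.symm hne), prodW, prodW,
          if_neg (Ne.symm hne), if_pos rfl]
        field_simp
        ring
      · rw [if_neg hz, if_neg hz, mul_zero]
  · rw [if_neg huv, zero_div, sub_zero, one_mul]
    unfold pairOpM
    have h1 : ∑ z, (if adj u z then (n : ℝ) * (prodW n a z v - prodW n a u v) +
        ((if v = z then 1 else 0) - if u = v then 1 else 0) * prodW n a z u else 0) =
        ∑ z, (if adj u z then n * (a z - a u) * a v else 0) +
          (if adj u v then a v * a u - a v ^ 2 else 0) := by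
      have h2 : (if adj u v then a v * a u - a v ^ 2 else 0) =
          ∑ z, (if v = z then (if adj u v then a v * a u - a v ^ 2 else 0) else 0) := by
        simp
      rw [h2, ← Finset.sum_add_distrib]
      refine Finset.sum_congr rfl fun z _ => ?_
      by_cases hz : adj u z
      · have hne : z ≠ u := fun h' => hirr u (h' ▸ hz)
        rw [if_pos hz, if_pos hz, if_neg huv, prodW, prodW, prodW, if_neg huv, if_neg hne]
        by_cases hvz : v = z
        · rw [if_pos hvz, if_pos hvz.symm, if_pos hvz, hvz, if_pos hz]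
          field_simp
          ring
        · rw [if_neg hvz, if_neg (Ne.symm hvz), if_neg hvz]; ring
      · rw [if_neg hz, if_neg hz]
        by_cases hvz : v = z
        · rw [if_pos hvz, hvz, if_neg hz]; ring
        · rw [if_neg hvz]; ring
    have h3 : ∑ z, (if adj v z then (n : ℝ) * (prodW n a u z - prodW n a u v) +
        ((if u = z then 1 else 0) - if u = v then 1 else 0) * prodW n a v z else 0) =
        ∑ z, (if adj v z then n * (a z - a v) * a u else 0) +
          (if adj v u then a u * a v - a u ^ 2 else 0) := by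
      have h2 : (if adj v u then a u * a v - a u ^ 2 else 0) =
          ∑ z, (if u = z then (if adj v u then a u * a v - a u ^ 2 else 0) else 0) := by
        simp
      rw [h2, ← Finset.sum_add_distrib]
      refine Finset.sum_congr rfl fun z _ => ?_
      by_cases hz : adj v z
      · have hne : z ≠ v := fun h' => hirr v (h' ▸ hz)
        rw [if_pos hz, if_pos hz, if_neg huv, prodW, prodW, prodW, if_neg huv,
          if_neg (Ne.symm hne)]
        by_cases hvz : u = z
        · rw [if_pos hvz, if_pos hvz, hvz, if_pos hz]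
          field_simp
          ring
        · rw [if_neg hvz, if_neg hvz]; ring
      · rw [if_neg hz, if_neg hz]
        by_cases hvz : u = z
        · rw [if_pos hvz, hvz, if_neg hz]; ring
        · rw [if_neg hvz]; ring
    rw [h1, h3]
    by_cases huv2 : adj u v
    · rw [if_pos huv2, if_pos (hadj _ _ huv2)]
      nlinarith [sq_nonneg (a u - a v)]
    · rw [if_neg huv2, if_neg fun h' => huv2 (hadj _ _ h')]
      linarith

lemma pairOpM_lower (hn : 1 ≤ n) (hirr : ∀ x, ¬ adj x x) {g : V → V → ℝ} {δ : ℝ} (hδ : 0 < δ)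
    (hg : ∀ a b, -δ ≤ g a b) {u v : V} (huv : g u v = -δ) : -(2 * δ) ≤ pairOpM n adj g u v := by
  have hn1 : (1 : ℝ) ≤ n := by exact_mod_cast hn
  unfold pairOpM
  have key : ∀ (u v : V) (g : V → V → ℝ), (∀ a b, -δ ≤ g a b) → g u v = -δ →
      -δ ≤ ∑ z, (if adj u z then (n : ℝ) * (g z v - g u v) +
      ((if v = z then 1 else 0) - if u = v then 1 else 0) * g z u else 0) := by
    intro u v g hg huv
    by_cases h : u = v
    · refine le_trans (by linarith : -δ ≤ 0) (Finset.sum_nonneg fun z _ => ?_)
      split_ifs with hz h1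
      · exfalso; rw [← h1, ← h] at hz; exact hirr u hz
      · rw [← h] at huv ⊢
        have := hg z u
        rw [huv]
        nlinarith
      · exact le_rfl
    · rw [show (-δ : ℝ) = ∑ z, (if v = z then -δ else 0) by simp]
      refine Finset.sum_le_sum fun z _ => ?_
      rw [if_neg h, huv]
      have h1 := hg z v
      have h2 := hg z u
      have h3 : 0 ≤ (n : ℝ) * (g z v - -δ) := mul_nonneg (by linarith) (by linarith)
      split_ifs <;> linarith
  have k1 := key u v g hg huv
  have k2 := key v u (fun a b => g b a) (fun a b => hg b a) huv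
  have e : (∑ z, if adj v z then (n : ℝ) * (g u z - g u v) +
      ((if u = z then 1 else 0) - if v = u then 1 else 0) * g v z else 0) =
      ∑ z, if adj v z then (n : ℝ) * (g u z - g u v) +
      ((if u = z then 1 else 0) - if u = v then 1 else 0) * g v z else 0 := by
    refine Finset.sum_congr rfl fun z _ => ?_
    by_cases h : u = v
    · rw [if_pos h, if_pos h.symm]
    · rw [if_neg h, if_neg (Ne.symm h)]
  rw [e] at k2
  linarith

end

end Vale.Agent.P361.B
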