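import Vale.Agent.P361.B.Peierls

set_option linter.unusedSectionVars false

/-!
Part B: low-energy part of the partition function against free bosons.
-/

namespace Vale.Agent.P361.B

open Finset Filter Topology

variable {V : Type*} [Fintype V] [DecidableEq V]
variable {n N : ℕ} {adj : V → V → Prop} [DecidableRel adj] {e : V → V → ℝ} {lam : V → ℝ}

lemma bessel {X ι : Type*} [Fintype X] (I : Finset ι) (F : ι → X → ℝ) (Φ : X → ℝ)
    (h1 : ∀ i ∈ I, ∑ x, F i x ^ 2 = 1) (h2 : ∀ i ∈ I, ∀ j ∈ I, i ≠ j → ∑ x, F i x * F j x = 0) :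
    ∑ i ∈ I, (∑ x, Φ x * F i x) ^ 2 ≤ ∑ x, Φ x ^ 2 := by
  set c : ι → ℝ := fun i => ∑ x, Φ x * F i x with hc
  have h0 : 0 ≤ ∑ x, (Φ x - ∑ i ∈ I, c i * F i x) ^ 2 := Finset.sum_nonneg fun x _ => sq_nonneg _
  have e1 : ∑ x, (Φ x - ∑ i ∈ I, c i * F i x) ^ 2 = ∑ x, Φ x ^ 2 -
      2 * ∑ x, Φ x * ∑ i ∈ I, c i * F i x + ∑ x, (∑ i ∈ I, c i * F i x) ^ 2 := by
    rw [Finset.mul_sum, ← Finset.sum_sub_distrib, ← Finset.sum_add_distrib]
    exact Finset.sum_congr rfl fun x _ => by ring
  have e2 : ∑ x, Φ x * ∑ i ∈ I, c i * F i x = ∑ i ∈ I, c i ^ 2 := by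
    simp only [Finset.mul_sum]
    rw [Finset.sum_comm]
    refine Finset.sum_congr rfl fun i _ => ?_
    calc ∑ x, Φ x * (c i * F i x) = c i * ∑ x, Φ x * F i x := by
          rw [Finset.mul_sum]; exact Finset.sum_congr rfl fun x _ => by ring
      _ = c i ^ 2 := by rw [sq]
  have e3 : ∑ x, (∑ i ∈ I, c i * F i x) ^ 2 = ∑ i ∈ I, c i ^ 2 := by
    have : ∀ x, (∑ i ∈ I, c i * F i x) ^ 2 = ∑ i ∈ I, ∑ j ∈ I, c i * c j * (F i x * F j x) := by
      intro x
      rw [sq, Finset.sum_mul_sum]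
      exact Finset.sum_congr rfl fun i _ => Finset.sum_congr rfl fun j _ => by ring
    simp only [this]
    rw [Finset.sum_comm]
    refine Finset.sum_congr rfl fun i hi => ?_
    rw [Finset.sum_comm]
    simp only [← Finset.mul_sum]
    rw [Finset.sum_eq_single i]
    · have : ∑ x, F i x * F i x = 1 := by rw [← h1 i hi]; exact Finset.sum_congr rfl fun x _ => by ring
      rw [this]; ring
    · intro j hj hij
      rw [h2 i hi j hj (Ne.symm hij), mul_zero]
    · intro h; exact absurd hi h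
  rw [e1, e2, e3] at h0
  linarith

/-- Occupation numbers of `N` particles. -/
noncomputable def occImg (V : Type*) [Fintype V] [DecidableEq V] (N : ℕ) : Finset (V → ℕ) :=
  (Finset.univ : Finset (Fin N → V)).image occ

theorem peierls_bosons {ι : Type*} (hS : Spec adj e lam) (hadj : ∀ x y, adj x y → adj y x)
    (I : Finset ι) (E : ι → ℝ) (ψ : ι → (V → ℕ) → ℝ) (h : ∀ i ∈ I, IsEig n adj N (E i) (ψ i))
    (horth : ∀ i ∈ I, ∀ j ∈ I, i ≠ j → ∑ ζ ∈ occBox V n, ψ i ζ * ψ j ζ = 0)
    {d : ℝ} (hd : ∀ i ∈ I, kform n adj (ψ i) ≤ E i + d) {β : ℝ} (hβ : 0 ≤ β) :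
    ∑ i ∈ I, Real.exp (-(β * E i)) ≤
      Real.exp (β * d) * ∑ m ∈ occImg V N, Real.exp (-(β * bosE n lam m)) := by
  classical
  set w : ι → (V → ℕ) → ℝ := fun i m =>
    ∑ k : Fin N → V, if occ k = m then four e (wf N (ψ i)) k ^ 2 else 0 with hw
  have hw0 : ∀ i m, 0 ≤ w i m := fun i m =>
    Finset.sum_nonneg fun k _ => by split_ifs <;> positivity
  have hfib : ∀ (i : ι) (g : (V → ℕ) → ℝ), ∑ m ∈ occImg V N, g m * w i m =
      ∑ k : Fin N → V, g (occ k) * four e (wf N (ψ i)) k ^ 2 := by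
    intro i g
    simp only [hw, Finset.mul_sum]
    rw [Finset.sum_comm]
    refine Finset.sum_congr rfl fun k _ => ?_
    rw [Finset.sum_eq_single (occ k)]
    · rw [if_pos rfl]
    · intro m _ hm
      rw [if_neg (Ne.symm hm), mul_zero]
    · intro hk
      exact absurd (Finset.mem_image_of_mem _ (Finset.mem_univ k)) hk
  have hone : ∀ i ∈ I, ∑ m ∈ occImg V N, w i m = 1 := by
    intro i hi
    have h1 := hfib i (fun _ => 1)
    simp only [one_mul] at h1
    rw [h1, parseval hS]
    have h2 := wf_inner (ψ₂ := ψ i) (h i hi).supp (h i hi).sect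
    have h3 : ∑ x, wf N (ψ i) x ^ 2 = ∑ x, wf N (ψ i) x * wf N (ψ i) x :=
      Finset.sum_congr rfl fun x _ => by ring
    rw [h3, h2, ← (h i hi).norm]
    exact Finset.sum_congr rfl fun x _ => by ring
  have hle : ∀ m ∈ occImg V N, ∑ i ∈ I, w i m ≤ 1 := by
    intro m hm
    obtain ⟨k0, _, hk0⟩ := Finset.mem_image.1 hm
    have hc : (0 : ℝ) < cnt N m := by rw [← hk0]; exact cnt_occ_pos k0
    have hwm : ∀ i, w i m = cnt N m * four e (wf N (ψ i)) k0 ^ 2 := by
      intro i
      simp only [hw]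
      rw [cnt_eq_sum]
      push_cast
      rw [Finset.sum_mul]
      refine Finset.sum_congr rfl fun k _ => ?_
      split_ifs with hk
      · rw [one_mul, four_occ hS _ (wf_perm (ψ i)) (hk.trans hk0.symm)]
      · rw [zero_mul]
    set Φ : (Fin N → V) → ℝ := fun x => ∑ k : Fin N → V, if occ k = m then tens e k x else 0 with hΦ
    have hΦF : ∀ i, ∑ x, Φ x * wf N (ψ i) x = cnt N m * four e (wf N (ψ i)) k0 := by
      intro i
      simp only [hΦ, Finset.sum_mul]
      rw [Finset.sum_comm, cnt_eq_sum]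
      push_cast
      rw [Finset.sum_mul]
      refine Finset.sum_congr rfl fun k _ => ?_
      by_cases hk : occ k = m
      · simp only [if_pos hk, one_mul]
        rw [four_occ hS _ (wf_perm (ψ i)) (hk0.trans hk.symm)]
        rfl
      · simp only [if_neg hk, zero_mul, Finset.sum_const_zero]
    have hΦ2 : ∑ x, Φ x ^ 2 = cnt N m := by
      have h1 : ∀ x, Φ x ^ 2 = ∑ k : Fin N → V, ∑ l : Fin N → V,
          (if occ k = m then (1 : ℝ) else 0) * (if occ l = m then (1 : ℝ) else 0) *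
            (tens e k x * tens e l x) := by
        intro x
        rw [sq]
        simp only [hΦ]
        rw [Finset.sum_mul_sum]
        refine Finset.sum_congr rfl fun k _ => Finset.sum_congr rfl fun l _ => ?_
        by_cases hk : occ k = m <;> by_cases hl : occ l = m <;> simp [hk, hl]
      simp only [h1]
      rw [Finset.sum_comm, cnt_eq_sum]
      push_cast
      refine Finset.sum_congr rfl fun k _ => ?_
      rw [Finset.sum_comm]
      simp only [← Finset.mul_sum, tens_orth hS]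
      rw [Finset.sum_eq_single k]
      · by_cases hk : occ k = m <;> simp [hk]
      · intro l _ hl
        rw [if_neg (Ne.symm hl), mul_zero]
      · simp
    have hb := bessel I (fun i => wf N (ψ i)) Φ
      (fun i hi => by
        have h2 := wf_inner (ψ₂ := ψ i) (h i hi).supp (h i hi).sect
        have h3 : ∑ x, wf N (ψ i) x ^ 2 = ∑ x, wf N (ψ i) x * wf N (ψ i) x :=
          Finset.sum_congr rfl fun x _ => by ring
        rw [h3, h2, ← (h i hi).norm]
        exact Finset.sum_congr rfl fun x _ => by ring)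
      (fun i hi j hj hij => by
        rw [wf_inner (h i hi).supp (h i hi).sect]
        exact horth i hi j hj hij)
    rw [hΦ2] at hb
    simp only [hΦF] at hb
    have h4 : ∑ i ∈ I, ((cnt N m : ℝ) * four e (wf N (ψ i)) k0) ^ 2 =
        cnt N m * ∑ i ∈ I, w i m := by
      rw [Finset.mul_sum]
      exact Finset.sum_congr rfl fun i _ => by rw [hwm]; ring
    rw [h4] at hb
    by_contra hcon
    push Not at hcon
    have : (cnt N m : ℝ) * 1 < cnt N m * ∑ i ∈ I, w i m := mul_lt_mul_of_pos_left hcon hc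
    linarith
  have hterm : ∀ i ∈ I, Real.exp (-(β * E i)) ≤
      Real.exp (β * d) * ∑ m ∈ occImg V N, w i m * Real.exp (-(β * bosE n lam m)) := by
    intro i hi
    have h1 : kform n adj (ψ i) = ∑ m ∈ occImg V N, bosE n lam m * w i m := by
      rw [hfib, kform_eq hS hadj (h i hi).supp (h i hi).sect]
    have h2 : Real.exp (∑ m ∈ occImg V N, w i m * (-(β * bosE n lam m))) ≤
        ∑ m ∈ occImg V N, w i m * Real.exp (-(β * bosE n lam m)) := by
      have := convexOn_exp.map_sum_le (t := occImg V N) (w := w i)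
        (p := fun m => -(β * bosE n lam m)) (fun m _ => hw0 i m) (hone i hi)
        (fun m _ => Set.mem_univ _)
      simpa [smul_eq_mul] using this
    have h3 : ∑ m ∈ occImg V N, w i m * (-(β * bosE n lam m)) = -(β * kform n adj (ψ i)) := by
      rw [h1, Finset.mul_sum, ← Finset.sum_neg_distrib]
      exact Finset.sum_congr rfl fun m _ => by ring
    rw [h3] at h2
    calc Real.exp (-(β * E i)) ≤ Real.exp (β * d + -(β * kform n adj (ψ i))) := by
          apply Real.exp_le_exp.2
          have := mul_le_mul_of_nonneg_left (hd i hi) hβ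
          linarith
      _ = Real.exp (β * d) * Real.exp (-(β * kform n adj (ψ i))) := Real.exp_add _ _
      _ ≤ _ := mul_le_mul_of_nonneg_left h2 (Real.exp_pos _).le
  calc ∑ i ∈ I, Real.exp (-(β * E i))
      ≤ ∑ i ∈ I, Real.exp (β * d) * ∑ m ∈ occImg V N, w i m * Real.exp (-(β * bosE n lam m)) :=
        Finset.sum_le_sum hterm
    _ = Real.exp (β * d) * ∑ m ∈ occImg V N, (∑ i ∈ I, w i m) * Real.exp (-(β * bosE n lam m)) := by
        rw [← Finset.mul_sum, Finset.sum_comm]
        congr 1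
        exact Finset.sum_congr rfl fun m _ => by rw [Finset.sum_mul]
    _ ≤ _ := by
        refine mul_le_mul_of_nonneg_left (Finset.sum_le_sum fun m hm => ?_) (Real.exp_pos _).le
        calc (∑ i ∈ I, w i m) * Real.exp (-(β * bosE n lam m))
            ≤ 1 * Real.exp (-(β * bosE n lam m)) :=
              mul_le_mul_of_nonneg_right (hle m hm) (Real.exp_pos _).le
          _ = _ := one_mul _

/-- Low-energy, low-number part of the partition function. -/
theorem low_part {ι : Type*} (hn : 1 ≤ n) (hS : Spec adj e lam)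
    (hadj : ∀ x y, adj x y → adj y x)
    (hirr : ∀ x, ¬ adj x x) {D : ℝ} (hD : ∀ x, ∑ y, (if adj x y then (1 : ℝ) else 0) ≤ D)
    (hD0 : 0 ≤ D)
    {b : V → ℝ} (hb : ∀ k x, e k x ^ 2 ≤ b k) (hb0 : ∀ k, 0 ≤ b k)
    {E1 : ℝ} (hE1 : 0 < E1) {N1 : ℕ} {β t : ℝ} (hβ : 0 ≤ β) (ht : 0 < t)
    (hlam : ∀ k, 0 ≤ lam k)
    (I : Finset ι) (E : ι → ℝ) (Nn : ι → ℕ) (ψ : ι → (V → ℕ) → ℝ)
    (h : ∀ i ∈ I, IsEig n adj (Nn i) (E i) (ψ i)) (hE0 : ∀ i ∈ I, 0 ≤ E i)
    (hEE : ∀ i ∈ I, E i ≤ E1) (hNN : ∀ i ∈ I, Nn i ≤ N1)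
    (horth : ∀ i ∈ I, ∀ j ∈ I, i ≠ j → ∑ ζ ∈ occBox V n, ψ i ζ * ψ j ζ = 0) :
    ∑ i ∈ I, Real.exp (-(β * E i + t * Nn i)) ≤
      Real.exp (β * (2 * D * Real.exp 2 * ((N1 : ℝ) ^ 2 * ∑ k, Real.exp (-(n * lam k / E1)) * b k))) *
      ∏ k, (1 - Real.exp (-(t + β * ((n : ℝ) / 2 * lam k))))⁻¹ := by
  classical
  set d := 2 * D * Real.exp 2 * ((N1 : ℝ) ^ 2 * ∑ k, Real.exp (-(n * lam k / E1)) * b k) with hd
  have hP0 : 0 ≤ ∑ k, Real.exp (-(n * lam k / E1)) * b k :=
    Finset.sum_nonneg fun k _ => mul_nonneg (Real.exp_pos _).le (hb0 k)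
  -- energy bound
  have hkf : ∀ i ∈ I, kform n adj (ψ i) ≤ E i + d := by
    intro i hi
    have h1 := (h i hi).kform_le hadj hirr
    have h2 := (h i hi).edge_sum_le hn (hE0 i hi) hadj hirr hS hD hb
      (s := 1 / (2 * E1)) (by positivity)
    have e1 : ∀ k, -(2 * (1 / (2 * E1)) * n * lam k) = -(n * lam k / E1) := by
      intro k; field_simp
    simp only [e1] at h2
    have h3 : Real.exp (4 * E i * (1 / (2 * E1))) ≤ Real.exp 2 := by
      apply Real.exp_le_exp.2
      rw [mul_one_div, div_le_iff₀ (by positivity)]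
      have := hEE i hi
      linarith
    have h4 : (Nn i : ℝ) ^ 2 ≤ (N1 : ℝ) ^ 2 := by
      have : (Nn i : ℝ) ≤ N1 := by exact_mod_cast hNN i hi
      exact pow_le_pow_left₀ (by positivity) this 2
    have h5 : 2 * D * Real.exp (4 * E i * (1 / (2 * E1))) *
        ((Nn i : ℝ) ^ 2 * ∑ k, Real.exp (-(n * lam k / E1)) * b k) ≤ d := by
      rw [hd]
      have h6 : (Nn i : ℝ) ^ 2 * ∑ k, Real.exp (-(n * lam k / E1)) * b k ≤
          (N1 : ℝ) ^ 2 * ∑ k, Real.exp (-(n * lam k / E1)) * b k :=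
        mul_le_mul_of_nonneg_right h4 hP0
      exact mul_le_mul (mul_le_mul_of_nonneg_left h3 (by positivity)) h6 (by positivity)
        (by positivity)
    linarith
  -- split by number
  have hsplit : ∑ i ∈ I, Real.exp (-(β * E i + t * Nn i)) =
      ∑ N ∈ Finset.range (N1 + 1), Real.exp (-(t * N)) *
        ∑ i ∈ I.filter (fun i => Nn i = N), Real.exp (-(β * E i)) := by
    rw [← Finset.sum_fiberwise_of_maps_to (s := I) (t := Finset.range (N1 + 1)) (g := Nn)
      (fun i hi => Finset.mem_range.2 (Nat.lt_succ_of_le (hNN i hi)))]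
    refine Finset.sum_congr rfl fun N _ => ?_
    rw [Finset.mul_sum]
    refine Finset.sum_congr rfl fun i hi => ?_
    rw [(Finset.mem_filter.1 hi).2, ← Real.exp_add]
    congr 1; ring
  rw [hsplit]
  have hN : ∀ N, ∑ i ∈ I.filter (fun i => Nn i = N), Real.exp (-(β * E i)) ≤
      Real.exp (β * d) * ∑ m ∈ occImg V N, Real.exp (-(β * bosE n lam m)) := by
    intro N
    refine peierls_bosons hS hadj _ E ψ ?_ ?_ ?_ hβ
    · intro i hi
      have := h i (Finset.mem_filter.1 hi).1
      rwa [(Finset.mem_filter.1 hi).2] at this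
    · intro i hi j hj hij
      exact horth i (Finset.mem_filter.1 hi).1 j (Finset.mem_filter.1 hj).1 hij
    · intro i hi
      exact hkf i (Finset.mem_filter.1 hi).1
  have hstep : ∑ N ∈ Finset.range (N1 + 1), Real.exp (-(t * N)) *
        ∑ i ∈ I.filter (fun i => Nn i = N), Real.exp (-(β * E i)) ≤
      Real.exp (β * d) * ∑ N ∈ Finset.range (N1 + 1), ∑ m ∈ occImg V N,
        ∏ v, Real.exp (-(t + β * ((n : ℝ) / 2 * lam v))) ^ (m v) := by
    rw [Finset.mul_sum]
    refine Finset.sum_le_sum fun N _ => ?_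
    calc Real.exp (-(t * N)) * ∑ i ∈ I.filter (fun i => Nn i = N), Real.exp (-(β * E i))
        ≤ Real.exp (-(t * N)) * (Real.exp (β * d) *
          ∑ m ∈ occImg V N, Real.exp (-(β * bosE n lam m))) :=
          mul_le_mul_of_nonneg_left (hN N) (Real.exp_pos _).le
      _ = Real.exp (β * d) * ∑ m ∈ occImg V N, Real.exp (-(t * N)) *
          Real.exp (-(β * bosE n lam m)) := by
          rw [Finset.mul_sum, Finset.mul_sum, Finset.mul_sum]
          exact Finset.sum_congr rfl fun m _ => by ring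
      _ = _ := by
          congr 1
          refine Finset.sum_congr rfl fun m hm => ?_
          obtain ⟨k, _, hk⟩ := Finset.mem_image.1 hm
          have hsum : ∑ v, (m v : ℝ) = N := by rw [← hk]; exact_mod_cast sum_occ k
          rw [← Real.exp_add]
          have : ∏ v, Real.exp (-(t + β * ((n : ℝ) / 2 * lam v))) ^ (m v) =
              Real.exp (∑ v, (m v : ℝ) * (-(t + β * ((n : ℝ) / 2 * lam v)))) := by
            rw [Real.exp_sum]
            exact Finset.prod_congr rfl fun v _ => by rw [← Real.exp_nat_mul]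
          rw [this, bosE, ← hsum]
          congr 1
          rw [Finset.mul_sum, Finset.mul_sum, Finset.mul_sum, ← Finset.sum_neg_distrib,
            ← Finset.sum_neg_distrib, ← Finset.sum_add_distrib]
          exact Finset.sum_congr rfl fun v _ => by ring
  refine hstep.trans (mul_le_mul_of_nonneg_left ?_ (Real.exp_pos _).le)
  set q : V → ℝ := fun v => Real.exp (-(t + β * ((n : ℝ) / 2 * lam v))) with hq
  have hq0 : ∀ v, 0 ≤ q v := fun v => (Real.exp_pos _).le
  have hq1 : ∀ v, q v < 1 := by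
    intro v
    simp only [hq]
    rw [Real.exp_lt_one_iff]
    have : 0 ≤ β * ((n : ℝ) / 2 * lam v) := mul_nonneg hβ (mul_nonneg (by positivity) (hlam v))
    linarith
  have hdisj : ∀ a ∈ Finset.range (N1 + 1), ∀ c ∈ Finset.range (N1 + 1), a ≠ c →
      Disjoint (occImg V a) (occImg V c) := by
    intro a _ c _ hac
    rw [Finset.disjoint_left]
    intro m hma hmc
    obtain ⟨k, _, hk⟩ := Finset.mem_image.1 hma
    obtain ⟨l, _, hl⟩ := Finset.mem_image.1 hmc
    apply hac
    rw [← sum_occ k, ← sum_occ l, hk, hl]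
  rw [← Finset.sum_biUnion hdisj]
  calc ∑ m ∈ (Finset.range (N1 + 1)).biUnion (fun N => occImg V N), ∏ v, q v ^ m v
      ≤ ∑ m ∈ Fintype.piFinset (fun _ : V => Finset.range (N1 + 1)), ∏ v, q v ^ m v := by
        refine Finset.sum_le_sum_of_subset_of_nonneg ?_ fun m _ _ =>
          Finset.prod_nonneg fun v _ => pow_nonneg (hq0 v) _
        intro m hm
        obtain ⟨N, hN, hm2⟩ := Finset.mem_biUnion.1 hm
        obtain ⟨k, _, hk⟩ := Finset.mem_image.1 hm2
        rw [Fintype.mem_piFinset]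
        intro v
        have h1 : m v ≤ ∑ w, m w := Finset.single_le_sum (fun _ _ => Nat.zero_le _) (Finset.mem_univ v)
        have h2 : ∑ w, m w = N := by rw [← hk]; exact sum_occ k
        have h3 := Finset.mem_range.1 hN
        rw [Finset.mem_range]; omega
    _ = ∏ v, ∑ j ∈ Finset.range (N1 + 1), q v ^ j := by
        rw [Finset.prod_univ_sum]
    _ ≤ ∏ v, (1 - q v)⁻¹ := by
        refine Finset.prod_le_prod (fun v _ => Finset.sum_nonneg fun j _ => pow_nonneg (hq0 v) _)
          fun v _ => ?_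
        rw [← tsum_geometric_of_lt_one (hq0 v) (hq1 v)]
        exact (summable_geometric_of_lt_one (hq0 v) (hq1 v)).sum_le_tsum _
          fun j _ => pow_nonneg (hq0 v) _

end Vale.Agent.P361.B
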