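import Vale.Agent.P361.B.Sub
import Vale.Agent.P361.H.Main

/-!
Part B, step D7: sharp lower bound on the reduced pressure, uniformly in the field.
-/

namespace Vale.Agent.P361.B

open MeasureTheory Filter Topology

/-- Gaussian tail. -/
theorem gauss_tail {A : ℝ} (hA : 0 < A) :
    ∫ u in Set.Ioi A, Real.exp (-(1 / 2) * u ^ 2) ≤ Real.exp (-(1 / 2) * A ^ 2) / A := by
  have hi1 : IntegrableOn (fun u : ℝ => Real.exp (-(1 / 2) * u ^ 2)) (Set.Ioi A) :=
    (integrable_exp_neg_mul_sq (by norm_num)).integrableOn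
  have hi2 : IntegrableOn (fun u : ℝ => u * Real.exp (-(1 / 2) * u ^ 2)) (Set.Ioi A) :=
    (integrable_mul_exp_neg_mul_sq (by norm_num)).integrableOn
  have h1 : ∫ u in Set.Ioi A, u * Real.exp (-(1 / 2) * u ^ 2) = Real.exp (-(1 / 2) * A ^ 2) := by
    have hd : ∀ x ∈ Set.Ici A, HasDerivAt (fun u : ℝ => -Real.exp (-(1 / 2) * u ^ 2))
        (x * Real.exp (-(1 / 2) * x ^ 2)) x := by
      intro x _
      have h := (((hasDerivAt_pow 2 x).const_mul (-(1 / 2 : ℝ))).exp).fun_neg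
      refine h.congr_deriv ?_
      push_cast
      ring
    have ht : Tendsto (fun u : ℝ => -Real.exp (-(1 / 2) * u ^ 2)) atTop (𝓝 (-0)) := by
      refine Tendsto.neg (Real.tendsto_exp_atBot.comp ?_)
      refine Tendsto.const_mul_atTop_of_neg (by norm_num) (tendsto_pow_atTop (by norm_num))
    rw [integral_Ioi_of_hasDerivAt_of_tendsto' hd hi2 ht]
    ring
  have h2 : ∫ u in Set.Ioi A, Real.exp (-(1 / 2) * u ^ 2) ≤
      ∫ u in Set.Ioi A, A⁻¹ * (u * Real.exp (-(1 / 2) * u ^ 2)) := by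
    refine setIntegral_mono_on hi1 (hi2.const_mul _) measurableSet_Ioi fun u hu => ?_
    rw [← mul_assoc]
    refine le_mul_of_one_le_left (Real.exp_pos _).le ?_
    rw [inv_mul_eq_div, one_le_div hA]
    exact (Set.mem_Ioi.1 hu).le
  rw [integral_const_mul, h1] at h2
  rw [div_eq_inv_mul (Real.exp _) A]
  exact h2

/-- Quantitative lower bound for the Bessel factor. -/
theorem bJ_lower {x : ℝ} (hx : 0 < x) :
    (Real.sqrt (2 * Real.pi))⁻¹ * (1 - 1 / x) ≤ Real.sqrt x * H.bJ x := by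
  have hpi := Real.pi_pos
  have hs : 0 < Real.sqrt x := Real.sqrt_pos.2 hx
  refine le_trans ?_ (H.bJ_gauss_lower hx)
  set A := Real.pi * Real.sqrt x with hA
  have hA0 : 0 < A := by positivity
  have hint : IntegrableOn (fun u : ℝ => Real.exp (-(1 / 2) * u ^ 2)) (Set.Ioi 0) :=
    (integrable_exp_neg_mul_sq (by norm_num)).integrableOn
  have h1 : ∫ u in (0 : ℝ)..A, Real.exp (-(1 / 2) * u ^ 2) =
      Real.sqrt (Real.pi / (1 / 2)) / 2 - ∫ u in Set.Ioi A, Real.exp (-(1 / 2) * u ^ 2) := by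
    rw [← integral_gaussian_Ioi]
    rw [intervalIntegral.integral_of_le hA0.le, eq_sub_iff_add_eq,
      ← setIntegral_union Set.Ioc_disjoint_Ioi_same measurableSet_Ioi
        (hint.mono_set Set.Ioc_subset_Ioi_self)
        (hint.mono_set (Set.Ioi_subset_Ioi hA0.le)), Set.Ioc_union_Ioi_eq_Ioi hA0.le]
  rw [h1]
  have h2 := gauss_tail hA0
  have e : Real.pi⁻¹ * (Real.sqrt (Real.pi / (1 / 2)) / 2) = (Real.sqrt (2 * Real.pi))⁻¹ := by
    have h4 : Real.sqrt (2 * Real.pi) ^ 2 = 2 * Real.pi := Real.sq_sqrt (by positivity)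
    have h5 : 0 < Real.sqrt (2 * Real.pi) := Real.sqrt_pos.2 (by positivity)
    rw [show Real.pi / (1 / 2) = 2 * Real.pi by ring]
    generalize Real.sqrt (2 * Real.pi) = s at h4 h5
    have h6 : Real.pi = s ^ 2 / 2 := by linarith
    rw [h6]
    field_simp
  rw [mul_sub (Real.pi⁻¹), e, mul_sub, mul_one]
  have h3 : Real.pi⁻¹ * ∫ u in Set.Ioi A, Real.exp (-(1 / 2) * u ^ 2) ≤
      (Real.sqrt (2 * Real.pi))⁻¹ * (1 / x) := by
    refine (mul_le_mul_of_nonneg_left h2 (by positivity)).trans ?_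
    have h6 : Real.exp (-(1 / 2) * A ^ 2) ≤ 1 / (1 + 4 * x) := by
      have h7 : (1 / 2) * A ^ 2 = Real.pi ^ 2 * x / 2 := by
        rw [hA, mul_pow, Real.sq_sqrt hx.le]; ring
      have h8 : 9 ≤ Real.pi ^ 2 := by nlinarith [Real.pi_gt_three]
      have h9 : 1 + 4 * x ≤ Real.exp ((1 / 2) * A ^ 2) := by
        have := Real.add_one_le_exp ((1 / 2) * A ^ 2)
        rw [h7] at this ⊢
        nlinarith
      rw [show -(1 / 2 : ℝ) * A ^ 2 = -((1 / 2) * A ^ 2) by ring, Real.exp_neg, ← one_div]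
      exact one_div_le_one_div_of_le (by positivity) h9
    have h10 : Real.pi⁻¹ * (Real.exp (-(1 / 2) * A ^ 2) / A) ≤
        Real.pi⁻¹ * ((1 / (1 + 4 * x)) / A) :=
      mul_le_mul_of_nonneg_left (div_le_div_of_nonneg_right h6 hA0.le) (by positivity)
    refine h10.trans ?_
    have hsq : Real.sqrt (2 * Real.pi) ≤ 3 := by
      rw [show (3 : ℝ) = Real.sqrt 9 by
        rw [show (9 : ℝ) = 3 ^ 2 by norm_num, Real.sqrt_sq (by norm_num)]]
      exact Real.sqrt_le_sqrt (by nlinarith [Real.pi_lt_four])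
    have hsq0 : 0 < Real.sqrt (2 * Real.pi) := Real.sqrt_pos.2 (by positivity)
    have h11 : (3 : ℝ)⁻¹ * (1 / x) ≤ (Real.sqrt (2 * Real.pi))⁻¹ * (1 / x) :=
      mul_le_mul_of_nonneg_right (inv_anti₀ hsq0 hsq) (by positivity)
    refine le_trans ?_ h11
    have h12 : Real.pi⁻¹ * ((1 / (1 + 4 * x)) / A) = 1 / (Real.pi ^ 2 * (1 + 4 * x) *
        Real.sqrt x) := by
      rw [hA]; field_simp
    rw [h12]
    have h13 : (3 : ℝ)⁻¹ * (1 / x) = 1 / (3 * x) := by field_simp
    rw [h13]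
    refine one_div_le_one_div_of_le (by positivity) ?_
    have hx2 : Real.sqrt x ^ 2 = x := Real.sq_sqrt hx.le
    have h8 : 9 ≤ Real.pi ^ 2 := by nlinarith [Real.pi_gt_three]
    have h14 : 3 * x ≤ 9 * ((1 + 4 * x) * Real.sqrt x) := by
      have : 3 * x = 3 * Real.sqrt x * Real.sqrt x := by nlinarith
      rw [this]
      have h15 : 3 * Real.sqrt x ≤ 9 * (1 + 4 * x) := by nlinarith [sq_nonneg (Real.sqrt x - 1)]
      nlinarith
    have h16 : 9 * ((1 + 4 * x) * Real.sqrt x) ≤ Real.pi ^ 2 * ((1 + 4 * x) * Real.sqrt x) :=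
      mul_le_mul_of_nonneg_right h8 (by positivity)
    calc 3 * x ≤ 9 * ((1 + 4 * x) * Real.sqrt x) := h14
      _ ≤ Real.pi ^ 2 * ((1 + 4 * x) * Real.sqrt x) := h16
      _ = _ := by ring
  linarith

/-- Partial sums of `(4πS)^{-3/2} Li_{3/2}(e^{-t})`. -/
noncomputable def fR (S : ℝ) (R : ℕ) (t : ℝ) : ℝ :=
  (Real.sqrt (4 * Real.pi * S) ^ 3)⁻¹ *
    ∑ r ∈ Finset.range R, Real.exp (-(((r : ℝ) + 1) * t)) / Real.sqrt ((r : ℝ) + 1) ^ 3

/-- Partial sums of `(4πS)^{-3/2} Li_{5/2}(e^{-t})`. -/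
noncomputable def FR (S : ℝ) (R : ℕ) (t : ℝ) : ℝ :=
  (Real.sqrt (4 * Real.pi * S) ^ 3)⁻¹ *
    ∑ r ∈ Finset.range R, Real.exp (-(((r : ℝ) + 1) * t)) /
      (((r : ℝ) + 1) * Real.sqrt ((r : ℝ) + 1) ^ 3)

theorem fR_nonneg (S : ℝ) (R : ℕ) (t : ℝ) : 0 ≤ fR S R t := by
  unfold fR
  refine mul_nonneg (by positivity) (Finset.sum_nonneg fun r _ => ?_)
  positivity

theorem FR_nonneg (S : ℝ) (R : ℕ) (t : ℝ) : 0 ≤ FR S R t := by
  unfold FR
  refine mul_nonneg (by positivity) (Finset.sum_nonneg fun r _ => ?_)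
  positivity

/-- The limiting coefficient at zero field. -/
noncomputable def aS (S : ℝ) : ℝ :=
  (Real.sqrt (4 * Real.pi * S) ^ 3)⁻¹ * (riemannZeta (3 / 2)).re

theorem fR_le (S : ℝ) (R : ℕ) {t : ℝ} (ht : 0 ≤ t) : fR S R t ≤ aS S := by
  unfold fR aS
  refine mul_le_mul_of_nonneg_left ?_ (by positivity)
  refine le_trans ?_ (sum_le_hasSum (Finset.range R) (fun r _ => by positivity) H.zeta_hasSum)
  refine Finset.sum_le_sum fun r _ => ?_
  refine div_le_div_of_nonneg_right ?_ (by positivity)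
  rw [Real.exp_le_one_iff]
  have : 0 ≤ ((r : ℝ) + 1) * t := by positivity
  linarith

theorem aS_nonneg (S : ℝ) : 0 ≤ aS S := (fR_nonneg S 0 0).trans (fR_le S 0 le_rfl)

theorem hasDerivAt_FR (S : ℝ) (R : ℕ) (t : ℝ) : HasDerivAt (FR S R) (-fR S R t) t := by
  have h1 : ∀ r ∈ Finset.range R, HasDerivAt (fun t : ℝ => Real.exp (-(((r : ℝ) + 1) * t)) /
      (((r : ℝ) + 1) * Real.sqrt ((r : ℝ) + 1) ^ 3))
      (-(Real.exp (-(((r : ℝ) + 1) * t)) / Real.sqrt ((r : ℝ) + 1) ^ 3)) t := by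
    intro r _
    have h2 : HasDerivAt (fun t : ℝ => -(((r : ℝ) + 1) * t)) (-((r : ℝ) + 1)) t := by
      have := ((hasDerivAt_id' t).const_mul ((r : ℝ) + 1)).fun_neg
      refine this.congr_deriv ?_
      ring
    have h3 := h2.exp.div_const (((r : ℝ) + 1) * Real.sqrt ((r : ℝ) + 1) ^ 3)
    refine h3.congr_deriv ?_
    have h4 : 0 < Real.sqrt ((r : ℝ) + 1) := Real.sqrt_pos.2 (by positivity)
    field_simp
  have h5 := (HasDerivAt.fun_sum h1).const_mul ((Real.sqrt (4 * Real.pi * S) ^ 3)⁻¹)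
  refine h5.congr_deriv ?_
  rw [fR, Finset.sum_neg_distrib, mul_neg]

theorem FR_tendsto_zero (S : ℝ) (R : ℕ) : Tendsto (FR S R) atTop (𝓝 0) := by
  unfold FR
  have h1 : Tendsto (fun t : ℝ => ∑ r ∈ Finset.range R, Real.exp (-(((r : ℝ) + 1) * t)) /
      (((r : ℝ) + 1) * Real.sqrt ((r : ℝ) + 1) ^ 3)) atTop (𝓝 (∑ _r ∈ Finset.range R, 0)) := by
    refine tendsto_finsetSum _ fun r _ => ?_
    have h2 : Tendsto (fun t : ℝ => Real.exp (-(((r : ℝ) + 1) * t))) atTop (𝓝 0) := by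
      refine Real.tendsto_exp_neg_atTop_nhds_zero.comp ?_
      exact Tendsto.const_mul_atTop (by positivity) tendsto_id
    simpa using h2.div_const (((r : ℝ) + 1) * Real.sqrt ((r : ℝ) + 1) ^ 3)
  simpa using h1.const_mul ((Real.sqrt (4 * Real.pi * S) ^ 3)⁻¹)

/-- The Bernoulli type inequality used for the self-consistent bound. -/
theorem bernoulli_aux {u : ℝ} (hu : 0 ≤ u) : 1 - 5 / 2 * (1 - u ^ 2) ≤ u ^ 5 := by
  have h : 2 * u ^ 5 - 5 * u ^ 2 + 3 = (1 - u) ^ 2 * (2 * u ^ 3 + 4 * u ^ 2 + 6 * u + 3) := by ring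
  have h2 : 0 ≤ (1 - u) ^ 2 * (2 * u ^ 3 + 4 * u ^ 2 + 6 * u + 3) := by positivity
  nlinarith

/-- One term of the series bound. -/
theorem bJ_term {S β m : ℝ} (hS : 0 < S) (hβ : 0 < β) (hm : 0 < m) (hmS : m ≤ S)
    (hy : 1 ≤ 2 * S * β) (r : ℕ) :
    (1 - 1 / (2 * S * β)) ^ 3 * (Real.sqrt (m / S) ^ 3 * ((Real.sqrt (4 * Real.pi * S) ^ 3)⁻¹ *
      ((Real.sqrt β ^ 3)⁻¹ * (Real.sqrt ((r : ℝ) + 1) ^ 3)⁻¹))) ≤
      (H.bJ (((r : ℝ) + 1) * (β * (2 * S ^ 2)) / m)) ^ 3 := by
  have hpi := Real.pi_pos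
  set x := ((r : ℝ) + 1) * (β * (2 * S ^ 2)) / m with hx
  have hx0 : 0 < x := by positivity
  have hxy : 2 * S * β ≤ x := by
    rw [hx, le_div_iff₀ hm]
    have h1 : 2 * S * β * m ≤ 2 * S * β * S := mul_le_mul_of_nonneg_left hmS (by positivity)
    have h2 : 2 * S * β * S ≤ ((r : ℝ) + 1) * (β * (2 * S ^ 2)) := by
      have : (1 : ℝ) ≤ (r : ℝ) + 1 := by linarith [Nat.cast_nonneg (α := ℝ) r]
      calc 2 * S * β * S = 1 * (β * (2 * S ^ 2)) := by ring
        _ ≤ _ := mul_le_mul_of_nonneg_right this (by positivity)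
    linarith
  have hb := bJ_lower hx0
  have hsx : 0 < Real.sqrt x := Real.sqrt_pos.2 hx0
  have h3 : (Real.sqrt (2 * Real.pi))⁻¹ * (1 - 1 / (2 * S * β)) ≤ Real.sqrt x * H.bJ x := by
    refine le_trans ?_ hb
    refine mul_le_mul_of_nonneg_left ?_ (by positivity)
    have : 1 / x ≤ 1 / (2 * S * β) := one_div_le_one_div_of_le (by positivity) hxy
    linarith
  have h4 : (Real.sqrt x)⁻¹ * ((Real.sqrt (2 * Real.pi))⁻¹ * (1 - 1 / (2 * S * β))) ≤ H.bJ x := by
    rw [inv_mul_le_iff₀ hsx]; exact h3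
  have h5 : 0 ≤ 1 - 1 / (2 * S * β) := by
    rw [sub_nonneg, div_le_one (by positivity)]; exact hy
  have h6 := pow_le_pow_left₀ (by positivity) h4 3
  refine le_trans (le_of_eq ?_) h6
  have h7 : Real.sqrt x * Real.sqrt (2 * Real.pi) * Real.sqrt (m / S) =
      Real.sqrt (4 * Real.pi * S) * (Real.sqrt β * Real.sqrt ((r : ℝ) + 1)) := by
    rw [← Real.sqrt_mul hx0.le, ← Real.sqrt_mul (by positivity), ← Real.sqrt_mul (by positivity),
      ← Real.sqrt_mul (by positivity)]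
    congr 1
    rw [hx]
    field_simp
    ring
  have hr0 : 0 < Real.sqrt ((r : ℝ) + 1) := Real.sqrt_pos.2 (by positivity)
  have hb0 : 0 < Real.sqrt β := Real.sqrt_pos.2 hβ
  have h40 : 0 < Real.sqrt (4 * Real.pi * S) := Real.sqrt_pos.2 (by positivity)
  have h20 : 0 < Real.sqrt (2 * Real.pi) := Real.sqrt_pos.2 (by positivity)
  have h8 : (Real.sqrt x)⁻¹ * (Real.sqrt (2 * Real.pi))⁻¹ =
      Real.sqrt (m / S) * ((Real.sqrt (4 * Real.pi * S))⁻¹ * ((Real.sqrt β)⁻¹ *
        (Real.sqrt ((r : ℝ) + 1))⁻¹)) := by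
    generalize Real.sqrt (4 * Real.pi * S) = z1 at h7 h40 ⊢
    generalize Real.sqrt (2 * Real.pi) = z2 at h7 h20 ⊢
    generalize Real.sqrt (m / S) = z3 at h7 ⊢
    generalize Real.sqrt x = z4 at h7 hsx ⊢
    generalize Real.sqrt β = z5 at h7 hb0 ⊢
    generalize Real.sqrt ((r : ℝ) + 1) = z6 at h7 hr0 ⊢
    field_simp
    linarith
  rw [← mul_assoc ((Real.sqrt x)⁻¹), h8]
  ring

theorem magAt_le {n : ℕ} (hn : 1 ≤ n) {β h : ℝ} (hβ : 0 < β) (hh : 0 ≤ h) :
    H.magAt n β h ≤ (n : ℝ) / 2 := by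
  have hS : 0 < (n : ℝ) / 2 := by
    have : (1 : ℝ) ≤ n := by exact_mod_cast hn
    linarith
  rcases le_or_gt (H.magAt n β h) 0 with h0 | h0
  · linarith
  · have h1 := H.magAt_series n 0 hβ hh h0
    simp only [Finset.range_zero, Finset.sum_empty, mul_zero] at h1
    have h2 := (mul_nonneg_iff_of_pos_left hS).1 h1
    linarith

/-- Uniform lower bound for the magnetization deficit. -/
theorem mag_lower {n : ℕ} (hn : 1 ≤ n) : ∃ K : ℝ, 1 ≤ K ∧ ∀ β : ℝ, K ≤ β → ∀ h : ℝ, 0 ≤ h →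
    ∀ R : ℕ, (1 - K / β) * fR ((n : ℝ) / 2) R (β * h) ≤
      Real.sqrt β ^ 3 * ((n : ℝ) / 2 - H.magAt n β h) := by
  set S : ℝ := (n : ℝ) / 2 with hSdef
  have hS : 0 < S := by
    have : (1 : ℝ) ≤ n := by exact_mod_cast hn
    rw [hSdef]; linarith
  have hA := aS_nonneg S
  refine ⟨1 + 1 / (2 * S) + aS S / S + (3 + 5 * aS S) / (2 * S), ?_, ?_⟩
  · have h1 : 0 ≤ 1 / (2 * S) := by positivity
    have h2 : 0 ≤ aS S / S := by positivity
    have h3 : 0 ≤ (3 + 5 * aS S) / (2 * S) := by positivity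
    linarith
  intro β hβK h hh R
  set K := 1 + 1 / (2 * S) + aS S / S + (3 + 5 * aS S) / (2 * S) with hK
  have k1 : 0 ≤ 1 / (2 * S) := by positivity
  have k2 : 0 ≤ aS S / S := by positivity
  have k3 : 0 ≤ (3 + 5 * aS S) / (2 * S) := by positivity
  have hβ1 : 1 ≤ β := by linarith
  have hβ : 0 < β := by linarith
  have hy : 1 ≤ 2 * S * β := by
    have : 1 / (2 * S) ≤ β := by linarith
    rw [div_le_iff₀ (by positivity)] at this
    linarith
  have hAβ : aS S ≤ S * β := by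
    have : aS S / S ≤ β := by linarith
    rw [div_le_iff₀ hS] at this
    linarith
  have hsβ : 1 ≤ Real.sqrt β := by rw [Real.one_le_sqrt]; exact hβ1
  have hs2 : Real.sqrt β ^ 2 = β := Real.sq_sqrt hβ.le
  have hs3 : β ≤ Real.sqrt β ^ 3 := by
    calc β = Real.sqrt β ^ 2 * 1 := by rw [hs2, mul_one]
      _ ≤ Real.sqrt β ^ 2 * Real.sqrt β := mul_le_mul_of_nonneg_left hsβ (by positivity)
      _ = _ := by ring
  have ht : 0 ≤ β * h := by positivity
  set f := fR S R (β * h) with hf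
  have hf0 : 0 ≤ f := fR_nonneg _ _ _
  have hfA : f ≤ aS S := fR_le _ _ ht
  set m := H.magAt n β h with hm
  have hmS : m ≤ S := magAt_le hn hβ hh
  have hM0 : 0 ≤ Real.sqrt β ^ 3 * (S - m) := mul_nonneg (by positivity) (by linarith)
  rcases le_or_gt m 0 with hneg | hpos
  · have h1 : (1 - K / β) * f ≤ f := by
      have : 0 ≤ K / β := by positivity
      nlinarith
    calc (1 - K / β) * f ≤ aS S := h1.trans hfA
      _ ≤ S * β := hAβ
      _ ≤ Real.sqrt β ^ 3 * S := by nlinarith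
      _ ≤ Real.sqrt β ^ 3 * (S - m) := mul_le_mul_of_nonneg_left (by linarith) (by positivity)
  · have hser := H.magAt_series n R hβ hh hpos
    rw [← hm, ← hSdef] at hser
    set c := (1 - 1 / (2 * S * β)) ^ 3 with hc
    have hc1 : 0 ≤ 1 - 1 / (2 * S * β) := by
      rw [sub_nonneg, div_le_one (by positivity)]; exact hy
    have hc2 : 1 - 1 / (2 * S * β) ≤ 1 := by
      have : 0 ≤ 1 / (2 * S * β) := by positivity
      linarith
    have hc0 : 0 ≤ c := by positivity
    have hcle : c ≤ 1 := pow_le_one₀ hc1 hc2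
    have hcge : 1 - 3 * (1 / (2 * S * β)) ≤ c := by
      rw [hc]
      generalize 1 / (2 * S * β) = w at hc1 hc2
      nlinarith [mul_nonneg (sq_nonneg w) hc1, sq_nonneg w]
    set u := Real.sqrt (m / S) with hu
    have hu0 : 0 ≤ u := Real.sqrt_nonneg _
    have hu2 : u ^ 2 = m / S := Real.sq_sqrt (by positivity)
    -- lower bound of the series
    have hlow : c * (u ^ 3 * (Real.sqrt β ^ 3)⁻¹) * f ≤
        ∑ r ∈ Finset.range R, Real.exp (-(((r : ℝ) + 1) * (β * h))) *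
          (H.bJ (((r : ℝ) + 1) * (β * (2 * S ^ 2)) / m)) ^ 3 := by
      rw [hf, fR, Finset.mul_sum, Finset.mul_sum]
      refine Finset.sum_le_sum fun r _ => ?_
      have h1 := bJ_term hS hβ hpos hmS hy r
      have h2 := mul_le_mul_of_nonneg_left h1 (Real.exp_pos (-(((r : ℝ) + 1) * (β * h)))).le
      refine le_trans (le_of_eq ?_) h2
      rw [← hc, ← hu]
      ring
    have h1 : m * (c * (u ^ 3 * (Real.sqrt β ^ 3)⁻¹) * f) ≤ S * (S - m) :=
      (mul_le_mul_of_nonneg_left hlow hpos.le).trans hser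
    -- self-consistency
    set M := Real.sqrt β ^ 3 * (S - m) with hM
    have hsb : 0 < Real.sqrt β ^ 3 := by positivity
    have h2 : u ^ 5 * (c * f) ≤ M := by
      have h3 := mul_le_mul_of_nonneg_left h1 (a := Real.sqrt β ^ 3 / S) (by positivity)
      have e1 : Real.sqrt β ^ 3 / S * (m * (c * (u ^ 3 * (Real.sqrt β ^ 3)⁻¹) * f)) =
          u ^ 5 * (c * f) := by
        have : u ^ 5 = m / S * u ^ 3 := by rw [← hu2]; ring
        rw [this]
        field_simp
      have e2 : Real.sqrt β ^ 3 / S * (S * (S - m)) = M := by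
        rw [hM]; field_simp
      rw [e1, e2] at h3
      exact h3
    have h3 := bernoulli_aux hu0
    have hcf : 0 ≤ c * f := mul_nonneg hc0 hf0
    have h4 : 1 - u ^ 2 = M / (S * Real.sqrt β ^ 3) := by
      rw [hu2, hM]; field_simp
    rw [h4] at h3
    have h5 : (1 - 5 / 2 * (M / (S * Real.sqrt β ^ 3))) * (c * f) ≤ M :=
      (mul_le_mul_of_nonneg_right h3 hcf).trans h2
    set δ := 5 / (2 * S) / Real.sqrt β ^ 3 * (c * f) with hδ
    have hδ0 : 0 ≤ δ := by positivity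
    have h6 : c * f ≤ M * (1 + δ) := by
      have e : (1 - 5 / 2 * (M / (S * Real.sqrt β ^ 3))) * (c * f) = c * f - M * δ := by
        rw [hδ]; field_simp
      rw [e] at h5
      linarith
    have h7 : c * f * (1 - δ) ≤ M := by
      rcases le_or_gt δ 1 with hd | hd
      · calc c * f * (1 - δ) ≤ M * (1 + δ) * (1 - δ) :=
              mul_le_mul_of_nonneg_right h6 (by linarith)
          _ = M - M * δ ^ 2 := by ring
          _ ≤ M := by
            have : 0 ≤ M * δ ^ 2 := by positivity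
            linarith
      · have : c * f * (1 - δ) ≤ 0 := mul_nonpos_of_nonneg_of_nonpos hcf (by linarith)
        linarith
    refine le_trans ?_ h7
    have hδle : δ ≤ 5 * aS S / (2 * S) / β := by
      rw [hδ]
      have h8 : c * f ≤ aS S := by
        calc c * f ≤ 1 * f := mul_le_mul_of_nonneg_right hcle hf0
          _ = f := one_mul _
          _ ≤ aS S := hfA
      calc 5 / (2 * S) / Real.sqrt β ^ 3 * (c * f) ≤ 5 / (2 * S) / β * aS S := by
            refine mul_le_mul ?_ h8 hcf (by positivity)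
            exact div_le_div_of_nonneg_left (by positivity) hβ hs3
        _ = _ := by ring
    have h9 : 1 - K / β ≤ c * (1 - δ) := by
      rcases le_or_gt (1 - K / β) 0 with hk | hk
      · rcases le_or_gt δ 1 with hd | hd
        · exact hk.trans (mul_nonneg hc0 (by linarith))
        · -- δ > 1 forces K / β > 1
          have h10 : (5 * aS S / (2 * S)) / β ≤ K / β := by
            refine div_le_div_of_nonneg_right ?_ hβ.le
            have : (3 + 5 * aS S) / (2 * S) = 3 / (2 * S) + 5 * aS S / (2 * S) := by ring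
            have : 0 ≤ 3 / (2 * S) := by positivity
            linarith
          have h11 : 0 ≤ (1 - c) * (δ - 1) := mul_nonneg (by linarith) (by linarith)
          have h12 : c * (1 - δ) = 1 - δ + (1 - c) * (δ - 1) := by ring
          linarith
      · have h10 : c * (1 - δ) ≥ 1 - 3 * (1 / (2 * S * β)) - δ := by
          have h13 : 0 ≤ (1 - c) * δ := mul_nonneg (by linarith) hδ0
          have h12 : c * (1 - δ) = c - δ + (1 - c) * δ := by ring
          linarith
        have h11 : 3 * (1 / (2 * S * β)) + 5 * aS S / (2 * S) / β ≤ K / β := by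
          have : 3 * (1 / (2 * S * β)) + 5 * aS S / (2 * S) / β =
              ((3 + 5 * aS S) / (2 * S)) / β := by field_simp
          rw [this]
          exact div_le_div_of_nonneg_right (by linarith) hβ.le
        linarith
    calc (1 - K / β) * f ≤ c * (1 - δ) * f := mul_le_mul_of_nonneg_right h9 hf0
      _ = c * f * (1 - δ) := by ring

theorem gRed_hasDeriv (n : ℕ) {β : ℝ} (hβ : 0 < β) (h : ℝ) :
    HasDerivWithinAt (gRed n β) (β * (H.magAt n β h - (n : ℝ) / 2)) (Set.Ici h) h := by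
  have h1 : HasDerivWithinAt (pressure n β) (H.magAt n β h) (Set.Ici h) h :=
    hasDerivWithinAt_Ioi_iff_Ici.1 (pressure_hasRightDeriv n hβ h)
  have h2 : HasDerivWithinAt (fun x : ℝ => (n : ℝ) / 2 * x) ((n : ℝ) / 2) (Set.Ici h) h := by
    simpa using (hasDerivWithinAt_id h (Set.Ici h)).const_mul ((n : ℝ) / 2)
  have h3 := ((h1.sub_const (3 * ((n : ℝ) / 2) ^ 2)).sub h2).const_mul β
  exact h3

theorem gRed_continuous (n : ℕ) {β : ℝ} (hβ : 0 < β) : Continuous (gRed n β) := by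
  have h1 : Continuous (pressure n β) := by
    have := (pressure_convex n hβ).continuousOn isOpen_univ
    exact continuousOn_univ.1 this
  unfold gRed
  fun_prop

/-- (D7) Sharp lower bound for the reduced pressure, uniformly in the field. -/
theorem gRed_lower {n : ℕ} (hn : 1 ≤ n) : ∃ K : ℝ, 1 ≤ K ∧ ∀ β : ℝ, K ≤ β → ∀ h : ℝ, 0 ≤ h →
    ∀ R : ℕ, (1 - K / β) * FR ((n : ℝ) / 2) R (β * h) ≤ Real.sqrt β ^ 3 * gRed n β h := by
  obtain ⟨K, hK1, hK⟩ := mag_lower hn
  refine ⟨K, hK1, fun β hβK a ha R => ?_⟩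
  have hβ : 0 < β := by linarith
  have hsb : 0 < Real.sqrt β ^ 3 := by positivity
  set c := (1 - K / β) / Real.sqrt β ^ 3 with hc
  -- comparison on `[a, b]`
  have key : ∀ b : ℝ, a ≤ b → c * FR ((n : ℝ) / 2) R (β * a) ≤
      gRed n β a + c * FR ((n : ℝ) / 2) R (β * b) := by
    intro b hab
    have hd : ∀ x : ℝ, HasDerivAt (fun x => gRed n β a + (c * FR ((n : ℝ) / 2) R (β * x) -
        c * FR ((n : ℝ) / 2) R (β * a))) (-(c * β * fR ((n : ℝ) / 2) R (β * x))) x := by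
      intro x
      have h1 := hasDerivAt_FR ((n : ℝ) / 2) R (β * x)
      have h2 : HasDerivAt (fun x : ℝ => β * x) β x := by
        simpa using (hasDerivAt_id x).const_mul β
      have h3 := (h1.comp x h2).const_mul c
      have h4 := (h3.sub_const (c * FR ((n : ℝ) / 2) R (β * a))).const_add (gRed n β a)
      refine h4.congr_deriv ?_
      ring
    have h := image_le_of_deriv_right_le_deriv_boundary (f := gRed n β)
      (f' := fun x => β * (H.magAt n β x - (n : ℝ) / 2)) (a := a) (b := b)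
      (gRed_continuous n hβ).continuousOn (fun x _ => gRed_hasDeriv n hβ x)
      (B := fun x => gRed n β a + (c * FR ((n : ℝ) / 2) R (β * x) -
        c * FR ((n : ℝ) / 2) R (β * a)))
      (B' := fun x => -(c * β * fR ((n : ℝ) / 2) R (β * x))) (by simp)
      (fun x _ => (hd x).continuousAt.continuousWithinAt) (fun x _ => (hd x).hasDerivWithinAt)
      (by
        intro x hx
        have hx0 : 0 ≤ x := ha.trans hx.1
        have h5 := hK β hβK x hx0 R
        have h6 : c * β * fR ((n : ℝ) / 2) R (β * x) ≤ β * ((n : ℝ) / 2 - H.magAt n β x) := by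
          have h7 : c * fR ((n : ℝ) / 2) R (β * x) ≤ (n : ℝ) / 2 - H.magAt n β x := by
            rw [hc, div_mul_eq_mul_div, div_le_iff₀ hsb]
            linarith
          have := mul_le_mul_of_nonneg_left h7 hβ.le
          linarith
        linarith) (x := b) ⟨hab, le_rfl⟩
    have h0 := gRed_nonneg (n := n) hβ b
    linarith
  have hlim : Tendsto (fun b : ℝ => gRed n β a + c * FR ((n : ℝ) / 2) R (β * b)) atTop
      (𝓝 (gRed n β a + c * 0)) := by
    refine tendsto_const_nhds.add (Tendsto.const_mul _ ((FR_tendsto_zero _ R).comp ?_))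
    exact Tendsto.const_mul_atTop hβ tendsto_id
  have h1 : c * FR ((n : ℝ) / 2) R (β * a) ≤ gRed n β a + c * 0 := by
    refine ge_of_tendsto hlim ?_
    filter_upwards [eventually_ge_atTop a] with b hb
    exact key b hb
  rw [mul_zero, add_zero, hc, div_mul_eq_mul_div, div_le_iff₀ hsb] at h1
  linarith

/-- Upper bound of the deficit by difference quotients of the reduced pressure. -/
theorem mag_le_slope {n : ℕ} {β : ℝ} (hβ : 0 < β) {h₁ h₀ : ℝ} (hh : h₁ < h₀) :
    (n : ℝ) / 2 - H.magAt n β h₀ ≤ (gRed n β h₁ - gRed n β h₀) / (β * (h₀ - h₁)) := by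
  have hc := pressure_convex n hβ
  have h1 := hc.slope_le_leftDeriv_of_mem_interior (x := h₁) (y := h₀) (Set.mem_univ _)
    (by simp) hh
  have h2 := hc.leftDeriv_le_rightDeriv_of_mem_interior (x := h₀) (by simp)
  have h3 : (pressure n β h₀ - pressure n β h₁) / (h₀ - h₁) ≤ H.magAt n β h₀ := by
    rw [← slope_def_field]
    exact h1.trans h2
  have hpos : 0 < h₀ - h₁ := by linarith
  rw [div_le_iff₀ hpos] at h3
  rw [le_div_iff₀ (by positivity)]
  unfold gRed
  nlinarith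

end Vale.Agent.P361.B
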