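import Mathlib

set_option linter.unusedSectionVars false

/-!
Part B: pair functions of eigenvectors. Occupation numbers are functions `V → ℕ`.
-/

namespace Vale.Agent.P361.B

open Finset

variable {V : Type*} [Fintype V] [DecidableEq V]

/-- Occupation numbers at most `n`. -/
def occBox (V : Type*) [Fintype V] [DecidableEq V] (n : ℕ) : Finset (V → ℕ) :=
  Fintype.piFinset fun _ => Finset.range (n + 1)

lemma mem_occBox {n : ℕ} {ζ : V → ℕ} : ζ ∈ occBox V n ↔ ∀ x, ζ x ≤ n := by
  simp [occBox]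

lemma add_single_apply (σ : V → ℕ) (x y : V) :
    ((σ + Pi.single y 1 : V → ℕ) x : ℝ) = (σ x : ℝ) + if x = y then 1 else 0 := by
  rw [Pi.add_apply]
  by_cases h : x = y
  · subst h; simp
  · simp [h]

lemma sub_single_apply (η : V → ℕ) (x y : V) (hy : 0 < η y) :
    ((η - Pi.single y 1 : V → ℕ) x : ℝ) = (η x : ℝ) - if x = y then 1 else 0 := by
  rw [Pi.sub_apply]
  by_cases h : x = y
  · subst h
    simp only [Pi.single_eq_same, if_true]
    rw [Nat.cast_sub hy]; simp
  · simp [h]

lemma sub_add_single (η : V → ℕ) (y : V) (hy : 0 < η y) :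
    (η - Pi.single y 1 : V → ℕ) + Pi.single y 1 = η := by
  ext x
  rw [Pi.add_apply, Pi.sub_apply]
  by_cases h : x = y
  · subst h; simp; omega
  · simp [h]

lemma add_sub_single (σ : V → ℕ) (y : V) :
    (σ + Pi.single y 1 : V → ℕ) - Pi.single y 1 = σ := by
  ext x
  rw [Pi.sub_apply, Pi.add_apply]; omega

lemma sum_shift (n : ℕ) (y : V) (F g : (V → ℕ) → ℝ) (hF : ∀ ζ, ζ ∉ occBox V n → F ζ = 0) :
    ∑ σ ∈ occBox V n, ((σ y : ℝ) + 1) * F (σ + Pi.single y 1) * g σ =
      ∑ η ∈ occBox V n, (η y : ℝ) * F η * g (η - Pi.single y 1) := by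
  have h1 : ∑ σ ∈ occBox V n, ((σ y : ℝ) + 1) * F (σ + Pi.single y 1) * g σ =
      ∑ σ ∈ (occBox V n).filter (fun σ => σ y < n),
        ((σ y : ℝ) + 1) * F (σ + Pi.single y 1) * g σ := by
    rw [Finset.sum_filter]
    refine Finset.sum_congr rfl fun σ hσ => ?_
    split_ifs with h
    · rfl
    · rw [hF]
      · ring
      · rw [mem_occBox]
        push Not
        refine ⟨y, ?_⟩
        simp; omega
  have h2 : ∑ η ∈ occBox V n, (η y : ℝ) * F η * g (η - Pi.single y 1) =
      ∑ η ∈ (occBox V n).filter (fun η => 0 < η y),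
        (η y : ℝ) * F η * g (η - Pi.single y 1) := by
    rw [Finset.sum_filter]
    refine Finset.sum_congr rfl fun η hη => ?_
    split_ifs with h
    · rfl
    · have : η y = 0 := by omega
      rw [this]; simp
  rw [h1, h2]
  refine Finset.sum_nbij' (fun σ => σ + Pi.single y 1) (fun η => η - Pi.single y 1) ?_ ?_ ?_ ?_ ?_
  · intro σ hσ
    rw [Finset.mem_filter, mem_occBox] at hσ ⊢
    refine ⟨fun x => ?_, by simp⟩
    rw [Pi.add_apply]
    by_cases h : x = y
    · subst h; simp; omega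
    · simp [h, hσ.1 x]
  · intro η hη
    rw [Finset.mem_filter, mem_occBox] at hη ⊢
    refine ⟨fun x => ?_, ?_⟩
    · rw [Pi.sub_apply]; exact (Nat.sub_le _ _).trans (hη.1 x)
    · have := hη.1 y
      have h0 := hη.2
      simp; omega
  · intro σ _
    exact add_sub_single σ y
  · intro η hη
    exact sub_add_single η y (Finset.mem_filter.1 hη).2
  · intro σ hσ
    rw [add_sub_single, add_single_apply, if_pos rfl]

/-- The edge operator `a_x b_y - b_x a_y` on functions of occupation numbers. -/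
noncomputable def edgeT (n : ℕ) (x y : V) (f : (V → ℕ) → ℝ) (σ : V → ℕ) : ℝ :=
  Real.sqrt ((n : ℝ) - σ x) * (Real.sqrt ((σ y : ℝ) + 1) * f (σ + Pi.single y 1)) -
    Real.sqrt ((n : ℝ) - σ y) * (Real.sqrt ((σ x : ℝ) + 1) * f (σ + Pi.single x 1))

/-- `ψ` is a normalized eigenvector with `N` magnons and energy `E` (weak form). -/
structure IsEig (n : ℕ) (adj : V → V → Prop) [DecidableRel adj] (N : ℕ) (E : ℝ)
    (ψ : (V → ℕ) → ℝ) : Prop where
  supp : ∀ ζ, ζ ∉ occBox V n → ψ ζ = 0
  sect : ∀ ζ, ∑ x, ζ x ≠ N → ψ ζ = 0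
  norm : ∑ ζ ∈ occBox V n, ψ ζ ^ 2 = 1
  weak : ∀ X : (V → ℕ) → ℝ, E * ∑ ζ ∈ occBox V n, X ζ * ψ ζ ^ 2 =
    1 / 4 * ∑ x, ∑ y, if adj x y then
      ∑ σ ∈ occBox V n, edgeT n x y (fun ζ => X ζ * ψ ζ) σ * edgeT n x y ψ σ else 0

section

variable {n N : ℕ} {adj : V → V → Prop} [DecidableRel adj] {E : ℝ} {ψ : (V → ℕ) → ℝ}

lemma edge_pointwise (x y : V) (X : (V → ℕ) → ℝ) (hX : ∀ ζ, 0 ≤ X ζ) (σ : V → ℕ)
    (hσ : σ ∈ occBox V n) :
    1 / 2 * ((((n : ℝ) - σ x) * ((σ y : ℝ) + 1) * ψ (σ + Pi.single y 1) ^ 2 *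
        (X (σ + Pi.single y 1) - X (σ + Pi.single x 1))) +
      (((n : ℝ) - σ y) * ((σ x : ℝ) + 1) * ψ (σ + Pi.single x 1) ^ 2 *
        (X (σ + Pi.single x 1) - X (σ + Pi.single y 1)))) ≤
      edgeT n x y (fun ζ => X ζ * ψ ζ) σ * edgeT n x y ψ σ := by
  rw [mem_occBox] at hσ
  have hx : 0 ≤ (n : ℝ) - σ x := by have := hσ x; rw [sub_nonneg]; exact_mod_cast this
  have hy : 0 ≤ (n : ℝ) - σ y := by have := hσ y; rw [sub_nonneg]; exact_mod_cast this
  have hx1 : (0 : ℝ) ≤ (σ x : ℝ) + 1 := by positivity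
  have hy1 : (0 : ℝ) ≤ (σ y : ℝ) + 1 := by positivity
  simp only [edgeT]
  set Xy := X (σ + Pi.single y 1) with hXy
  set Xx := X (σ + Pi.single x 1) with hXx
  set A := Real.sqrt ((n : ℝ) - σ x) * (Real.sqrt ((σ y : ℝ) + 1) * ψ (σ + Pi.single y 1)) with hA
  set B := Real.sqrt ((n : ℝ) - σ y) * (Real.sqrt ((σ x : ℝ) + 1) * ψ (σ + Pi.single x 1)) with hB
  have eA : A ^ 2 = ((n : ℝ) - σ x) * ((σ y : ℝ) + 1) * ψ (σ + Pi.single y 1) ^ 2 := by
    rw [hA, mul_pow, mul_pow, Real.sq_sqrt hx, Real.sq_sqrt hy1]; ring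
  have eB : B ^ 2 = ((n : ℝ) - σ y) * ((σ x : ℝ) + 1) * ψ (σ + Pi.single x 1) ^ 2 := by
    rw [hB, mul_pow, mul_pow, Real.sq_sqrt hy, Real.sq_sqrt hx1]; ring
  rw [← eA, ← eB]
  have e1 : Real.sqrt ((n : ℝ) - σ x) * (Real.sqrt ((σ y : ℝ) + 1) *
      (Xy * ψ (σ + Pi.single y 1))) = Xy * A := by rw [hA]; ring
  have e2 : Real.sqrt ((n : ℝ) - σ y) * (Real.sqrt ((σ x : ℝ) + 1) *
      (Xx * ψ (σ + Pi.single x 1))) = Xx * B := by rw [hB]; ring
  rw [e1, e2]
  have h1 : 0 ≤ Xx := hX _
  have h2 : 0 ≤ Xy := hX _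
  nlinarith [mul_nonneg (add_nonneg h1 h2) (sq_nonneg (A - B))]

lemma IsEig.dirichlet (h : IsEig n adj N E ψ) (hadj : ∀ x y, adj x y → adj y x)
    (X : (V → ℕ) → ℝ) (hX : ∀ ζ, 0 ≤ X ζ) :
    1 / 4 * ∑ x, ∑ y, (if adj x y then ∑ σ ∈ occBox V n,
      ((n : ℝ) - σ x) * ((σ y : ℝ) + 1) * ψ (σ + Pi.single y 1) ^ 2 *
        (X (σ + Pi.single y 1) - X (σ + Pi.single x 1)) else 0) ≤
      E * ∑ ζ ∈ occBox V n, X ζ * ψ ζ ^ 2 := by
  rw [h.weak X]
  refine mul_le_mul_of_nonneg_left ?_ (by norm_num)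
  set t : V → V → ℝ := fun x y => ∑ σ ∈ occBox V n,
      ((n : ℝ) - σ x) * ((σ y : ℝ) + 1) * ψ (σ + Pi.single y 1) ^ 2 *
        (X (σ + Pi.single y 1) - X (σ + Pi.single x 1)) with ht
  have hsymm : ∑ x, ∑ y, (if adj x y then t x y else 0) =
      ∑ x, ∑ y, (if adj x y then t y x else 0) := by
    rw [Finset.sum_comm]
    refine Finset.sum_congr rfl fun y _ => Finset.sum_congr rfl fun x _ => ?_
    by_cases hxy : adj x y
    · rw [if_pos hxy, if_pos (hadj _ _ hxy)]
    · rw [if_neg hxy, if_neg fun h' => hxy (hadj _ _ h')]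
  have hhalf : ∑ x, ∑ y, (if adj x y then t x y else 0) =
      ∑ x, ∑ y, (if adj x y then 1 / 2 * (t x y + t y x) else 0) := by
    have : ∑ x, ∑ y, (if adj x y then 1 / 2 * (t x y + t y x) else 0) =
        1 / 2 * (∑ x, ∑ y, (if adj x y then t x y else 0) +
          ∑ x, ∑ y, (if adj x y then t y x else 0)) := by
      rw [← Finset.sum_add_distrib, Finset.mul_sum]
      refine Finset.sum_congr rfl fun x _ => ?_
      rw [← Finset.sum_add_distrib, Finset.mul_sum]
      refine Finset.sum_congr rfl fun y _ => ?_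
      split_ifs <;> ring
    rw [this, ← hsymm]; ring
  rw [hhalf]
  refine Finset.sum_le_sum fun x _ => Finset.sum_le_sum fun y _ => ?_
  split_ifs with hxy
  · rw [ht, ← Finset.sum_add_distrib, Finset.mul_sum]
    exact Finset.sum_le_sum fun σ hσ => edge_pointwise x y X hX σ hσ
  · exact le_rfl

/-- `φ(u,v) = ⟨η_u (η_v - δ_uv)⟩`. -/
noncomputable def pairFn (n : ℕ) (ψ : (V → ℕ) → ℝ) (u v : V) : ℝ :=
  ∑ η ∈ occBox V n, ((η u : ℝ) * ((η v : ℝ) - if u = v then 1 else 0)) * ψ η ^ 2

lemma pair_nonneg_aux (η : V → ℕ) (u v : V) :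
    0 ≤ (η u : ℝ) * ((η v : ℝ) - if u = v then 1 else 0) := by
  split_ifs with h
  · subst h
    rcases Nat.eq_zero_or_pos (η u) with h0 | h0
    · rw [h0]; simp
    · have : (1 : ℝ) ≤ η u := by exact_mod_cast h0
      exact mul_nonneg (by linarith) (by linarith)
  · rw [sub_zero]; positivity

lemma pair_symm_aux (η : V → ℕ) (u v : V) :
    (η u : ℝ) * ((η v : ℝ) - if u = v then 1 else 0) =
      (η v : ℝ) * ((η u : ℝ) - if v = u then 1 else 0) := by
  by_cases h : u = v
  · subst h; ring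
  · rw [if_neg h, if_neg (Ne.symm h)]; ring

lemma pairFn_nonneg (u v : V) : 0 ≤ pairFn n ψ u v :=
  Finset.sum_nonneg fun η _ => mul_nonneg (pair_nonneg_aux η u v) (sq_nonneg _)

lemma pairFn_symm (u v : V) : pairFn n ψ u v = pairFn n ψ v u :=
  Finset.sum_congr rfl fun η _ => by rw [pair_symm_aux]

lemma pair_diff (σ : V → ℕ) (u v x y : V) :
    ((σ + Pi.single y 1 : V → ℕ) u : ℝ) *
        (((σ + Pi.single y 1 : V → ℕ) v : ℝ) - if u = v then 1 else 0) -
      ((σ + Pi.single x 1 : V → ℕ) u : ℝ) *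
        (((σ + Pi.single x 1 : V → ℕ) v : ℝ) - if u = v then 1 else 0) =
    ((if u = y then 1 else 0) - if u = x then 1 else 0) * (σ v : ℝ) +
      ((if v = y then 1 else 0) - if v = x then 1 else 0) * (σ u : ℝ) := by
  simp only [add_single_apply]
  by_cases huv : u = v
  · subst huv
    rw [if_pos rfl]
    by_cases h1 : u = y
    · by_cases h2 : u = x
      · simp only [if_pos h1, if_pos h2]; ring
      · simp only [if_pos h1, if_neg h2]; ring
    · by_cases h2 : u = x
      · simp only [if_neg h1, if_pos h2]; ring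
      · simp only [if_neg h1, if_neg h2]; ring
  · by_cases h1 : u = y
    · have h3 : v ≠ y := fun h => huv (h1.trans h.symm)
      by_cases h2 : u = x
      · have h4 : v ≠ x := fun h => huv (h2.trans h.symm)
        simp only [if_neg huv, if_pos h1, if_pos h2, if_neg h3, if_neg h4]; ring
      · by_cases h4 : v = x
        · simp only [if_neg huv, if_pos h1, if_neg h2, if_neg h3, if_pos h4]; ring
        · simp only [if_neg huv, if_pos h1, if_neg h2, if_neg h3, if_neg h4]; ring
    · by_cases h3 : v = y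
      · by_cases h2 : u = x
        · have h4 : v ≠ x := fun h => huv (h2.trans h.symm)
          simp only [if_neg huv, if_neg h1, if_pos h2, if_pos h3, if_neg h4]; ring
        · by_cases h4 : v = x
          · simp only [if_neg huv, if_neg h1, if_neg h2, if_pos h3, if_pos h4]; ring
          · simp only [if_neg huv, if_neg h1, if_neg h2, if_pos h3, if_neg h4]; ring
      · by_cases h2 : u = x
        · have h4 : v ≠ x := fun h => huv (h2.trans h.symm)
          simp only [if_neg huv, if_neg h1, if_pos h2, if_neg h3, if_neg h4]; ring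
        · by_cases h4 : v = x
          · simp only [if_neg huv, if_neg h1, if_neg h2, if_neg h3, if_pos h4]; ring
          · simp only [if_neg huv, if_neg h1, if_neg h2, if_neg h3, if_neg h4]; ring

lemma IsEig.term_eq (h : IsEig n adj N E ψ) (u v x y : V) (hxy : x ≠ y) :
    ∑ σ ∈ occBox V n, ((n : ℝ) - σ x) * ((σ y : ℝ) + 1) * ψ (σ + Pi.single y 1) ^ 2 *
        (((σ + Pi.single y 1 : V → ℕ) u : ℝ) *
            (((σ + Pi.single y 1 : V → ℕ) v : ℝ) - if u = v then 1 else 0) -
          ((σ + Pi.single x 1 : V → ℕ) u : ℝ) *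
            (((σ + Pi.single x 1 : V → ℕ) v : ℝ) - if u = v then 1 else 0)) =
      ∑ η ∈ occBox V n, ψ η ^ 2 * ((η y : ℝ) * ((n : ℝ) - η x) *
        (((if u = y then 1 else 0) - if u = x then 1 else 0) *
            ((η v : ℝ) - if v = y then 1 else 0) +
          ((if v = y then 1 else 0) - if v = x then 1 else 0) *
            ((η u : ℝ) - if u = y then 1 else 0))) := by
  have hF : ∀ ζ, ζ ∉ occBox V n → (fun ζ => ψ ζ ^ 2) ζ = 0 := by
    intro ζ hζ
    simp only [h.supp ζ hζ]; norm_num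
  have key := sum_shift n y (fun ζ => ψ ζ ^ 2) (fun σ => ((n : ℝ) - σ x) *
    (((if u = y then 1 else 0) - if u = x then 1 else 0) * (σ v : ℝ) +
      ((if v = y then 1 else 0) - if v = x then 1 else 0) * (σ u : ℝ))) hF
  calc _ = ∑ σ ∈ occBox V n, ((σ y : ℝ) + 1) * ψ (σ + Pi.single y 1) ^ 2 *
        (((n : ℝ) - σ x) * (((if u = y then 1 else 0) - if u = x then 1 else 0) * (σ v : ℝ) +
      ((if v = y then 1 else 0) - if v = x then 1 else 0) * (σ u : ℝ))) := by
        refine Finset.sum_congr rfl fun σ _ => ?_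
        rw [pair_diff]; ring
    _ = _ := key
    _ = _ := by
        refine Finset.sum_congr rfl fun η _ => ?_
        rcases Nat.eq_zero_or_pos (η y) with h0 | h0
        · rw [h0]; simp
        · rw [sub_single_apply η x y h0, sub_single_apply η v y h0, sub_single_apply η u y h0,
            if_neg hxy]
          ring

lemma sum_delta_right (adj : V → V → Prop) [DecidableRel adj] (u : V) (g : V → V → ℝ) :
    ∑ x, ∑ y, (if adj x y then (if u = y then 1 else 0) * g x y else 0) =
      ∑ x, if adj x u then g x u else 0 := by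
  refine Finset.sum_congr rfl fun x _ => ?_
  rw [Finset.sum_eq_single u]
  · simp
  · intro y _ hy
    rw [if_neg (Ne.symm hy)]; simp
  · simp

lemma sum_delta_left (adj : V → V → Prop) [DecidableRel adj] (u : V) (g : V → V → ℝ) :
    ∑ x, ∑ y, (if adj x y then (if u = x then 1 else 0) * g x y else 0) =
      ∑ y, if adj u y then g u y else 0 := by
  rw [Finset.sum_comm]
  refine Finset.sum_congr rfl fun y _ => ?_
  rw [Finset.sum_eq_single u]
  · simp
  · intro x _ hx
    rw [if_neg (Ne.symm hx)]; simp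
  · simp

lemma pair_combine (hadj : ∀ x y, adj x y → adj y x) (hirr : ∀ x, ¬ adj x x)
    (η : V → ℕ) (u v : V) :
    ∑ x, ∑ y, (if adj x y then (η y : ℝ) * ((n : ℝ) - η x) *
        (((if u = y then 1 else 0) - if u = x then 1 else 0) *
            ((η v : ℝ) - if v = y then 1 else 0) +
          ((if v = y then 1 else 0) - if v = x then 1 else 0) *
            ((η u : ℝ) - if u = y then 1 else 0)) else 0) =
    ∑ z, (if adj u z then
        (n : ℝ) * ((η u : ℝ) * ((η v : ℝ) - if u = v then 1 else 0)) -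
        n * ((η z : ℝ) * ((η v : ℝ) - if z = v then 1 else 0)) +
        ((if u = v then 1 else 0) - if v = z then 1 else 0) *
          ((η z : ℝ) * ((η u : ℝ) - if z = u then 1 else 0)) else 0) +
    ∑ z, (if adj v z then
        (n : ℝ) * ((η u : ℝ) * ((η v : ℝ) - if u = v then 1 else 0)) -
        n * ((η z : ℝ) * ((η u : ℝ) - if z = u then 1 else 0)) +
        ((if u = v then 1 else 0) - if u = z then 1 else 0) *
          ((η z : ℝ) * ((η v : ℝ) - if z = v then 1 else 0)) else 0) := by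
  have hsym : ∀ x y, adj x y ↔ adj y x := fun x y => ⟨hadj x y, hadj y x⟩
  have expand : ∑ x, ∑ y, (if adj x y then (η y : ℝ) * ((n : ℝ) - η x) *
        (((if u = y then 1 else 0) - if u = x then 1 else 0) *
            ((η v : ℝ) - if v = y then 1 else 0) +
          ((if v = y then 1 else 0) - if v = x then 1 else 0) *
            ((η u : ℝ) - if u = y then 1 else 0)) else 0) =
      (∑ x, ∑ y, (if adj x y then (if u = y then 1 else 0) *
          ((η y : ℝ) * ((n : ℝ) - η x) * ((η v : ℝ) - if v = y then 1 else 0)) else 0) -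
       ∑ x, ∑ y, (if adj x y then (if u = x then 1 else 0) *
          ((η y : ℝ) * ((n : ℝ) - η x) * ((η v : ℝ) - if v = y then 1 else 0)) else 0)) +
      (∑ x, ∑ y, (if adj x y then (if v = y then 1 else 0) *
          ((η y : ℝ) * ((n : ℝ) - η x) * ((η u : ℝ) - if u = y then 1 else 0)) else 0) -
       ∑ x, ∑ y, (if adj x y then (if v = x then 1 else 0) *
          ((η y : ℝ) * ((n : ℝ) - η x) * ((η u : ℝ) - if u = y then 1 else 0)) else 0)) := by
    rw [← Finset.sum_sub_distrib, ← Finset.sum_sub_distrib, ← Finset.sum_add_distrib]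
    refine Finset.sum_congr rfl fun x _ => ?_
    rw [← Finset.sum_sub_distrib, ← Finset.sum_sub_distrib, ← Finset.sum_add_distrib]
    refine Finset.sum_congr rfl fun y _ => ?_
    by_cases hxy : adj x y
    · simp only [if_pos hxy]; ring
    · simp only [if_neg hxy]; ring
  rw [expand, sum_delta_right, sum_delta_left, sum_delta_right, sum_delta_left,
    ← Finset.sum_sub_distrib, ← Finset.sum_sub_distrib]
  congr 1
  · refine Finset.sum_congr rfl fun z _ => ?_
    by_cases hz : adj u z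
    · have hz' : adj z u := hadj _ _ hz
      have hne : z ≠ u := fun h' => hirr u (h' ▸ hz)
      rw [if_pos hz, if_pos hz', if_pos hz, if_neg hne]
      by_cases h1 : u = v
      · have h2 : v ≠ z := fun h' => hne (h1.trans h').symm
        rw [if_pos h1, if_pos h1.symm, if_neg h2, if_neg (Ne.symm h2)]
        ring
      · rw [if_neg h1, if_neg (Ne.symm h1)]
        by_cases h2 : v = z
        · rw [if_pos h2, if_pos h2.symm]; ring
        · rw [if_neg h2, if_neg (Ne.symm h2)]; ring
    · have hz' : ¬ adj z u := fun h' => hz (hadj _ _ h')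
      rw [if_neg hz, if_neg hz', if_neg hz]; ring
  · refine Finset.sum_congr rfl fun z _ => ?_
    by_cases hz : adj v z
    · have hz' : adj z v := hadj _ _ hz
      have hne : z ≠ v := fun h' => hirr v (h' ▸ hz)
      rw [if_pos hz, if_pos hz', if_pos hz, if_neg hne]
      by_cases h1 : u = v
      · have h2 : u ≠ z := fun h' => hne (h1.symm.trans h').symm
        rw [if_pos h1, if_neg h2, if_neg (Ne.symm h2)]
        rw [h1]
        ring
      · rw [if_neg h1]
        by_cases h2 : u = z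
        · rw [if_pos h2, if_pos h2.symm]; ring
        · rw [if_neg h2, if_neg (Ne.symm h2)]; ring
    · have hz' : ¬ adj z v := fun h' => hz (hadj _ _ h')
      rw [if_neg hz, if_neg hz', if_neg hz]; ring

lemma sum_swap3 {ι : Type*} (s : Finset ι) (w : ι → ℝ) (c : V → V → ι → ℝ) :
    ∑ x, ∑ y, ∑ i ∈ s, w i * c x y i = ∑ i ∈ s, w i * ∑ x, ∑ y, c x y i := by
  simp only [Finset.mul_sum]
  calc ∑ x, ∑ y, ∑ i ∈ s, w i * c x y i = ∑ x, ∑ i ∈ s, ∑ y, w i * c x y i :=
        Finset.sum_congr rfl fun x _ => Finset.sum_comm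
    _ = ∑ i ∈ s, ∑ x, ∑ y, w i * c x y i := Finset.sum_comm

/-- The two-particle operator. -/
noncomputable def pairOpM (n : ℕ) (adj : V → V → Prop) [DecidableRel adj] (g : V → V → ℝ)
    (u v : V) : ℝ :=
  ∑ z, (if adj u z then (n : ℝ) * (g z v - g u v) +
      ((if v = z then 1 else 0) - if u = v then 1 else 0) * g z u else 0) +
  ∑ z, (if adj v z then (n : ℝ) * (g u z - g u v) +
      ((if u = z then 1 else 0) - if u = v then 1 else 0) * g v z else 0)

lemma IsEig.pair_ineq (h : IsEig n adj N E ψ) (hadj : ∀ x y, adj x y → adj y x)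
    (hirr : ∀ x, ¬ adj x x) (u v : V) :
    0 ≤ pairOpM n adj (pairFn n ψ) u v + 4 * E * pairFn n ψ u v := by
  have h1 := h.dirichlet hadj
    (fun η => (η u : ℝ) * ((η v : ℝ) - if u = v then 1 else 0)) (fun η => pair_nonneg_aux η u v)
  have h2 : ∑ x, ∑ y, (if adj x y then ∑ σ ∈ occBox V n,
      ((n : ℝ) - σ x) * ((σ y : ℝ) + 1) * ψ (σ + Pi.single y 1) ^ 2 *
        (((σ + Pi.single y 1 : V → ℕ) u : ℝ) *
            (((σ + Pi.single y 1 : V → ℕ) v : ℝ) - if u = v then 1 else 0) -
          ((σ + Pi.single x 1 : V → ℕ) u : ℝ) *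
            (((σ + Pi.single x 1 : V → ℕ) v : ℝ) - if u = v then 1 else 0)) else 0) =
      - pairOpM n adj (pairFn n ψ) u v := by
    have e1 : ∀ x y, (if adj x y then ∑ σ ∈ occBox V n,
      ((n : ℝ) - σ x) * ((σ y : ℝ) + 1) * ψ (σ + Pi.single y 1) ^ 2 *
        (((σ + Pi.single y 1 : V → ℕ) u : ℝ) *
            (((σ + Pi.single y 1 : V → ℕ) v : ℝ) - if u = v then 1 else 0) -
          ((σ + Pi.single x 1 : V → ℕ) u : ℝ) *
            (((σ + Pi.single x 1 : V → ℕ) v : ℝ) - if u = v then 1 else 0)) else 0) =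
      ∑ η ∈ occBox V n, ψ η ^ 2 * (if adj x y then (η y : ℝ) * ((n : ℝ) - η x) *
        (((if u = y then 1 else 0) - if u = x then 1 else 0) *
            ((η v : ℝ) - if v = y then 1 else 0) +
          ((if v = y then 1 else 0) - if v = x then 1 else 0) *
            ((η u : ℝ) - if u = y then 1 else 0)) else 0) := by
      intro x y
      by_cases hxy : adj x y
      · have hne : x ≠ y := fun h' => hirr x (by rw [← h'] at hxy; exact hxy)
        simp only [if_pos hxy]
        exact h.term_eq u v x y hne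
      · simp only [if_neg hxy, mul_zero, Finset.sum_const_zero]
    simp only [e1]
    rw [sum_swap3]
    simp only [pair_combine hadj hirr]
    have e3 : ∀ a b, pairFn n ψ a b = ∑ η ∈ occBox V n,
      ψ η ^ 2 * ((η a : ℝ) * ((η b : ℝ) - if a = b then 1 else 0)) := fun a b =>
      Finset.sum_congr rfl fun η _ => by ring
    have e4 : ∀ (a b : V) (G : V → (V → ℕ) → ℝ), ∑ η ∈ occBox V n, ψ η ^ 2 *
        (∑ z, if adj a z then G z η else 0) =
        ∑ z, if adj a z then ∑ η ∈ occBox V n, ψ η ^ 2 * G z η else 0 := by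
      intro a b G
      simp only [Finset.mul_sum]
      rw [Finset.sum_comm]
      refine Finset.sum_congr rfl fun z _ => ?_
      split_ifs
      · rfl
      · simp
    simp only [mul_add (ψ _ ^ 2), Finset.sum_add_distrib]
    rw [e4 u v, e4 v u, pairOpM, neg_add, ← Finset.sum_neg_distrib, ← Finset.sum_neg_distrib]
    have e5 : ∀ (a b c d e f : V) (w : ℝ), ∑ η ∈ occBox V n, ψ η ^ 2 *
        ((n : ℝ) * ((η a : ℝ) * ((η b : ℝ) - if a = b then 1 else 0)) -
        n * ((η c : ℝ) * ((η d : ℝ) - if c = d then 1 else 0)) +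
        w * ((η e : ℝ) * ((η f : ℝ) - if e = f then 1 else 0))) =
        n * pairFn n ψ a b - n * pairFn n ψ c d + w * pairFn n ψ e f := by
      intro a b c d e f w
      rw [e3, e3, e3, Finset.mul_sum, Finset.mul_sum, Finset.mul_sum, ← Finset.sum_sub_distrib,
        ← Finset.sum_add_distrib]
      exact Finset.sum_congr rfl fun η _ => by ring
    congr 1
    · refine Finset.sum_congr rfl fun z _ => ?_
      by_cases hz : adj u z
      · rw [if_pos hz, if_pos hz, e5]; ring
      · rw [if_neg hz, if_neg hz]; ring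
    · refine Finset.sum_congr rfl fun z _ => ?_
      by_cases hz : adj v z
      · rw [if_pos hz, if_pos hz]
        have e6 : ∑ η ∈ occBox V n, ψ η ^ 2 *
            ((n : ℝ) * ((η u : ℝ) * ((η v : ℝ) - if u = v then 1 else 0)) -
            n * ((η z : ℝ) * ((η u : ℝ) - if z = u then 1 else 0)) +
            ((if u = v then 1 else 0) - if u = z then 1 else 0) *
              ((η z : ℝ) * ((η v : ℝ) - if z = v then 1 else 0))) =
            n * pairFn n ψ u v - n * pairFn n ψ z u +
              ((if u = v then 1 else 0) - if u = z then 1 else 0) * pairFn n ψ z v :=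
          e5 u v z u z v _
        rw [e6, pairFn_symm z u, pairFn_symm z v]; ring
      · rw [if_neg hz, if_neg hz]; ring
  rw [h2] at h1
  have h3 : ∑ ζ ∈ occBox V n, ((ζ u : ℝ) * ((ζ v : ℝ) - if u = v then 1 else 0)) * ψ ζ ^ 2 =
      pairFn n ψ u v := rfl
  rw [h3] at h1
  linarith

end

end Vale.Agent.P361.B
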