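import Vale.Agent.P361.B.Heat

set_option linter.unusedSectionVars false

/-!
Part B: bound on the pair function of an eigenvector.
-/

namespace Vale.Agent.P361.B

open Finset Filter Topology

variable {V : Type*} [Fintype V] [DecidableEq V]
variable {n N : ℕ} {adj : V → V → Prop} [DecidableRel adj] {e : V → V → ℝ} {lam : V → ℝ}
variable {E : ℝ} {ψ : (V → ℕ) → ℝ}

lemma pairOpM_comb {ι : Type*} (t : Finset ι) (c : ι → ℝ) (g : ι → V → V → ℝ) (h : V → V → ℝ)
    (w : ℝ) (u v : V) :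
    pairOpM n adj (fun a b => w * ∑ i ∈ t, c i * g i a b - h a b) u v =
      w * ∑ i ∈ t, c i * pairOpM n adj (g i) u v - pairOpM n adj h u v := by
  unfold pairOpM
  simp only [mul_add (c _), Finset.sum_add_distrib, mul_add w]
  have key : ∀ (u v : V) (f₁ f₂ f₃ : V → V × V) (r : V → ℝ),
      ∑ z, (if adj u z then (n : ℝ) * ((w * ∑ i ∈ t, c i * g i (f₁ z).1 (f₁ z).2 -
          h (f₁ z).1 (f₁ z).2) - (w * ∑ i ∈ t, c i * g i (f₂ z).1 (f₂ z).2 -
          h (f₂ z).1 (f₂ z).2)) + r z * (w * ∑ i ∈ t, c i * g i (f₃ z).1 (f₃ z).2 -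
          h (f₃ z).1 (f₃ z).2) else 0) =
      w * ∑ i ∈ t, c i * ∑ z, (if adj u z then (n : ℝ) * (g i (f₁ z).1 (f₁ z).2 -
          g i (f₂ z).1 (f₂ z).2) + r z * g i (f₃ z).1 (f₃ z).2 else 0) -
        ∑ z, (if adj u z then (n : ℝ) * (h (f₁ z).1 (f₁ z).2 -
          h (f₂ z).1 (f₂ z).2) + r z * h (f₃ z).1 (f₃ z).2 else 0) := by
    intro u v f₁ f₂ f₃ r
    have e1 : ∑ i ∈ t, c i * ∑ z, (if adj u z then (n : ℝ) * (g i (f₁ z).1 (f₁ z).2 -
          g i (f₂ z).1 (f₂ z).2) + r z * g i (f₃ z).1 (f₃ z).2 else 0) =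
        ∑ z, (if adj u z then (n : ℝ) * (∑ i ∈ t, c i * g i (f₁ z).1 (f₁ z).2 -
          ∑ i ∈ t, c i * g i (f₂ z).1 (f₂ z).2) +
          r z * ∑ i ∈ t, c i * g i (f₃ z).1 (f₃ z).2 else 0) := by
      simp only [Finset.mul_sum (Finset.univ)]
      rw [Finset.sum_comm]
      refine Finset.sum_congr rfl fun z _ => ?_
      split_ifs
      · rw [← Finset.sum_sub_distrib, Finset.mul_sum, Finset.mul_sum, ← Finset.sum_add_distrib]
        exact Finset.sum_congr rfl fun i _ => by ring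
      · simp
    rw [e1, Finset.mul_sum, ← Finset.sum_sub_distrib]
    refine Finset.sum_congr rfl fun z _ => ?_
    split_ifs
    · ring
    · ring
  have k1 := key u v (fun z => (z, v)) (fun _ => (u, v)) (fun z => (z, u))
    (fun z => (if v = z then 1 else 0) - if u = v then 1 else 0)
  have k2 := key v u (fun z => (u, z)) (fun _ => (u, v)) (fun z => (v, z))
    (fun z => (if u = z then 1 else 0) - if u = v then 1 else 0)
  simp only at k1 k2
  rw [k1, k2]
  ring

lemma prodW_deriv (hS : Spec adj e lam) (ζ : V → ℕ) (u v : V) (s : ℝ) :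
    HasDerivAt (fun s => prodW n (heat n e lam ζ s) u v) (prodW' n adj (heat n e lam ζ s) u v) s :=
  ((heat_deriv hS ζ s u).mul (heat_deriv hS ζ s v)).const_mul _

theorem IsEig.pair_le (h : IsEig n adj N E ψ) (hn : 1 ≤ n) (hE : 0 ≤ E)
    (hadj : ∀ x y, adj x y → adj y x) (hirr : ∀ x, ¬ adj x x) (hS : Spec adj e lam)
    {s : ℝ} (hs : 0 ≤ s) (u v : V) :
    pairFn n ψ u v ≤ Real.exp (4 * E * s) *
      ∑ ζ ∈ occBox V n, ψ ζ ^ 2 * prodW n (heat n e lam ζ s) u v := by
  set G : ℝ → V × V → ℝ := fun s p => Real.exp (4 * E * s) *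
      ∑ ζ ∈ occBox V n, ψ ζ ^ 2 * prodW n (heat n e lam ζ s) p.1 p.2 - pairFn n ψ p.1 p.2 with hG
  set G' : ℝ → V × V → ℝ := fun s p => Real.exp (4 * E * s) * (4 * E) *
      ∑ ζ ∈ occBox V n, ψ ζ ^ 2 * prodW n (heat n e lam ζ s) p.1 p.2 +
      Real.exp (4 * E * s) *
      ∑ ζ ∈ occBox V n, ψ ζ ^ 2 * prodW' n adj (heat n e lam ζ s) p.1 p.2 with hG'
  have hd : ∀ s p, HasDerivAt (fun s => G s p) (G' s p) s := by
    intro s p
    have h1 : HasDerivAt (fun s : ℝ => Real.exp (4 * E * s)) (Real.exp (4 * E * s) * (4 * E)) s := by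
      have h0 : HasDerivAt (fun s : ℝ => 4 * E * s) (4 * E) s := by
        simpa using (hasDerivAt_id' s).const_mul (4 * E)
      exact h0.exp
    have h2 : HasDerivAt (fun s => ∑ ζ ∈ occBox V n, ψ ζ ^ 2 *
        prodW n (heat n e lam ζ s) p.1 p.2)
        (∑ ζ ∈ occBox V n, ψ ζ ^ 2 * prodW' n adj (heat n e lam ζ s) p.1 p.2) s :=
      HasDerivAt.fun_sum fun ζ _ => (prodW_deriv hS ζ p.1 p.2 s).const_mul _
    exact (h1.mul h2).sub_const _
  have hn0 : (0 : ℝ) < n := by exact_mod_cast hn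
  have h0 : ∀ p, 0 ≤ G 0 p := by
    intro p
    simp only [hG, mul_zero, Real.exp_zero, one_mul, sub_nonneg, pairFn]
    refine Finset.sum_le_sum fun ζ hζ => ?_
    rw [mul_comm]
    refine mul_le_mul_of_nonneg_left ?_ (sq_nonneg _)
    rw [prodW, heat_zero hS, heat_zero hS]
    rw [mem_occBox] at hζ
    by_cases hp : p.1 = p.2
    · rw [if_pos hp, hp]
      have h1 : (ζ p.2 : ℝ) ≤ n := by exact_mod_cast hζ p.2
      have h2 : (0 : ℝ) ≤ ζ p.2 := by positivity
      have h3 : (ζ p.2 : ℝ) * ζ p.2 / n ≤ ζ p.2 := by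
        rw [div_le_iff₀ hn0]
        exact mul_le_mul_of_nonneg_left h1 h2
      have h4 : (1 - 1 / (n : ℝ)) * ((ζ p.2 : ℝ) * ζ p.2) =
        (ζ p.2 : ℝ) * ζ p.2 - (ζ p.2 : ℝ) * ζ p.2 / n := by ring
      rw [h4]; nlinarith
    · rw [if_neg hp]; simp
  have hq : ∀ s, 0 ≤ s → ∀ δ, 0 < δ → (∀ j, -δ ≤ G s j) → ∀ p, G s p = -δ →
      -((2 + 4 * E) * δ) ≤ G' s p := by
    intro s _ δ hδ hge p hp
    have h1 : -(2 * δ) ≤ pairOpM n adj (fun a b => G s (a, b)) p.1 p.2 :=
      pairOpM_lower hn hirr hδ (fun a b => hge (a, b)) hp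
    have h2 : pairOpM n adj (fun a b => G s (a, b)) p.1 p.2 =
        Real.exp (4 * E * s) * ∑ ζ ∈ occBox V n, ψ ζ ^ 2 *
          pairOpM n adj (prodW n (heat n e lam ζ s)) p.1 p.2 -
        pairOpM n adj (pairFn n ψ) p.1 p.2 :=
      pairOpM_comb (occBox V n) (fun ζ => ψ ζ ^ 2) (fun ζ => prodW n (heat n e lam ζ s))
        (pairFn n ψ) (Real.exp (4 * E * s)) p.1 p.2
    have h3 : ∑ ζ ∈ occBox V n, ψ ζ ^ 2 * pairOpM n adj (prodW n (heat n e lam ζ s)) p.1 p.2 ≤
        ∑ ζ ∈ occBox V n, ψ ζ ^ 2 * prodW' n adj (heat n e lam ζ s) p.1 p.2 :=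
      Finset.sum_le_sum fun ζ _ => mul_le_mul_of_nonneg_left
        (pairOpM_prodW hn hadj hirr _ p.1 p.2) (sq_nonneg _)
    have h4 := mul_le_mul_of_nonneg_left h3 (Real.exp_pos (4 * E * s)).le
    have h5 := h.pair_ineq hadj hirr p.1 p.2
    have h6 : G' s p = 4 * E * (G s p + pairFn n ψ p.1 p.2) + Real.exp (4 * E * s) *
      ∑ ζ ∈ occBox V n, ψ ζ ^ 2 * prodW' n adj (heat n e lam ζ s) p.1 p.2 := by
      simp only [hG, hG']; ring
    rw [h6, hp]
    rw [h2] at h1
    nlinarith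
  have hfin := quasi_monotone G G' (2 + 4 * E) hd h0 hq s hs (u, v)
  simp only [hG] at hfin
  linarith

/-- Main bound on pair correlations across edges. -/
theorem IsEig.edge_sum_le (h : IsEig n adj N E ψ) (hn : 1 ≤ n) (hE : 0 ≤ E)
    (hadj : ∀ x y, adj x y → adj y x) (hirr : ∀ x, ¬ adj x x) (hS : Spec adj e lam)
    {D : ℝ} (hD : ∀ x, ∑ y, (if adj x y then (1 : ℝ) else 0) ≤ D)
    {b : V → ℝ} (hb : ∀ k x, e k x ^ 2 ≤ b k) {s : ℝ} (hs : 0 ≤ s) :
    ∑ x, ∑ y, (if adj x y then pairFn n ψ x y + pairFn n ψ y y else 0) ≤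
      2 * D * Real.exp (4 * E * s) * ((N : ℝ) ^ 2 * ∑ k, Real.exp (-(2 * s * n * lam k)) * b k) := by
  have hn0 : (0 : ℝ) < n := by exact_mod_cast hn
  have hn1 : (1 : ℝ) ≤ n := by exact_mod_cast hn
  set P := (N : ℝ) ^ 2 * ∑ k, Real.exp (-(2 * s * n * lam k)) * b k with hP
  have hD0 : ∀ x : V, 0 ≤ D := fun x => le_trans
    (Finset.sum_nonneg fun y _ => by split_ifs <;> norm_num) (hD x)
  -- bound for one configuration
  have hone : ∀ ζ : V → ℕ, ∑ x, ∑ y, (if adj x y then prodW n (heat n e lam ζ s) x y +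
      prodW n (heat n e lam ζ s) y y else 0) ≤ 2 * D * ∑ x, heat n e lam ζ s x ^ 2 := by
    intro ζ
    set a := heat n e lam ζ s with ha
    have h1 : ∀ x y, adj x y → prodW n a x y + prodW n a y y ≤
        1 / 2 * a x ^ 2 + 3 / 2 * a y ^ 2 := by
      intro x y hxy
      have hne : x ≠ y := fun h' => hirr x (by rw [← h'] at hxy; exact hxy)
      rw [prodW, prodW, if_neg hne, if_pos rfl]
      have h2 : (1 - 1 / (n : ℝ)) * (a y * a y) ≤ a y ^ 2 := by
        have : 0 ≤ 1 / (n : ℝ) * (a y * a y) := mul_nonneg (by positivity) (mul_self_nonneg _)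
        nlinarith
      have h3 : (1 - 0 / (n : ℝ)) * (a x * a y) ≤ 1 / 2 * a x ^ 2 + 1 / 2 * a y ^ 2 := by
        rw [zero_div, sub_zero, one_mul]
        nlinarith [sq_nonneg (a x - a y)]
      linarith
    calc ∑ x, ∑ y, (if adj x y then prodW n a x y + prodW n a y y else 0)
        ≤ ∑ x, ∑ y, ((if adj x y then (1 : ℝ) else 0) * (1 / 2 * a x ^ 2) +
            (if adj x y then (1 : ℝ) else 0) * (3 / 2 * a y ^ 2)) := by
          refine Finset.sum_le_sum fun x _ => Finset.sum_le_sum fun y _ => ?_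
          split_ifs with hxy
          · have := h1 x y hxy; linarith
          · simp
      _ = ∑ x, (∑ y, (if adj x y then (1 : ℝ) else 0)) * (1 / 2 * a x ^ 2) +
          ∑ y, (∑ x, (if adj y x then (1 : ℝ) else 0)) * (3 / 2 * a y ^ 2) := by
          simp only [Finset.sum_add_distrib]
          congr 1
          · exact Finset.sum_congr rfl fun x _ => by rw [Finset.sum_mul]
          · rw [Finset.sum_comm]
            refine Finset.sum_congr rfl fun y _ => ?_
            rw [Finset.sum_mul]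
            refine Finset.sum_congr rfl fun x _ => ?_
            by_cases hxy : adj x y
            · rw [if_pos hxy, if_pos (hadj _ _ hxy)]
            · rw [if_neg hxy, if_neg fun h' => hxy (hadj _ _ h')]
      _ ≤ ∑ x, D * (1 / 2 * a x ^ 2) + ∑ y, D * (3 / 2 * a y ^ 2) := by
          refine add_le_add (Finset.sum_le_sum fun x _ => ?_) (Finset.sum_le_sum fun y _ => ?_)
          · exact mul_le_mul_of_nonneg_right (hD x) (by positivity)
          · exact mul_le_mul_of_nonneg_right (hD y) (by positivity)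
      _ = _ := by
          rw [← Finset.sum_add_distrib, Finset.mul_sum]
          exact Finset.sum_congr rfl fun x _ => by ring
  have hsum : ∑ x, ∑ y, (if adj x y then pairFn n ψ x y + pairFn n ψ y y else 0) ≤
      Real.exp (4 * E * s) * ∑ ζ ∈ occBox V n, ψ ζ ^ 2 *
        ∑ x, ∑ y, (if adj x y then prodW n (heat n e lam ζ s) x y +
          prodW n (heat n e lam ζ s) y y else 0) := by
    rw [← sum_swap3, Finset.mul_sum]
    refine Finset.sum_le_sum fun x _ => ?_
    rw [Finset.mul_sum]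
    refine Finset.sum_le_sum fun y _ => ?_
    by_cases hxy : adj x y
    · simp only [if_pos hxy]
      have h1 := h.pair_le hn hE hadj hirr hS hs x y
      have h2 := h.pair_le hn hE hadj hirr hS hs y y
      calc _ ≤ _ := add_le_add h1 h2
        _ = _ := by
          rw [← mul_add, ← Finset.sum_add_distrib]
          congr 1
          exact Finset.sum_congr rfl fun ζ _ => by ring
    · simp only [if_neg hxy, mul_zero, Finset.sum_const_zero]
      exact le_rfl
  refine hsum.trans ?_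
  have hfin : ∑ ζ ∈ occBox V n, ψ ζ ^ 2 *
        ∑ x, ∑ y, (if adj x y then prodW n (heat n e lam ζ s) x y +
          prodW n (heat n e lam ζ s) y y else 0) ≤ 2 * D * P := by
    have h1 : ∀ ζ ∈ occBox V n, ψ ζ ^ 2 *
        ∑ x, ∑ y, (if adj x y then prodW n (heat n e lam ζ s) x y +
          prodW n (heat n e lam ζ s) y y else 0) ≤ ψ ζ ^ 2 * (2 * D * P) := by
      intro ζ _
      by_cases hζ : ∑ x, ζ x = N
      · refine mul_le_mul_of_nonneg_left ((hone ζ).trans ?_) (sq_nonneg _)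
        rcases isEmpty_or_nonempty V with hV | ⟨⟨x⟩⟩
        · simp [hP]
        · exact mul_le_mul_of_nonneg_left (heat_sq_le hS ζ hζ s hb)
            (by have := hD0 x; positivity)
      · rw [h.sect ζ hζ]; simp
    calc _ ≤ ∑ ζ ∈ occBox V n, ψ ζ ^ 2 * (2 * D * P) := Finset.sum_le_sum h1
      _ = 2 * D * P := by rw [← Finset.sum_mul, h.norm, one_mul]
  calc _ ≤ Real.exp (4 * E * s) * (2 * D * P) :=
        mul_le_mul_of_nonneg_left hfin (Real.exp_pos _).le
    _ = _ := by ring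

end Vale.Agent.P361.B
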