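import Vale.Agent.P361.B.Asym
import Vale.Agent.P361.B.Crude

/-!
Part B, step D6: choice of the parameters.
-/

namespace Vale.Agent.P361.B

open Filter Topology

/-- Crude bound on cubes of side `≤ β^{1/2 - η}`. -/
theorem crude_log {n : ℕ} (hn : 1 ≤ n) {η : ℝ} (hη : 0 < η) (hη2 : η < 1 / 2) :
    ∀ᶠ β : ℝ in atTop, ∀ L : ℕ, 0 < L → (L : ℝ) ≤ β ^ (1 / 2 - η) →
      Real.log (Zt n (cube L) (β / 2) 0) ≤ β ^ η := by
  have hnR : (1 : ℝ) ≤ n := by exact_mod_cast hn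
  have l1 : Tendsto (fun β : ℝ => β ^ (2 * η)) atTop atTop := tendsto_rpow_atTop (by linarith)
  have l2 : Tendsto (fun β : ℝ => 2 * (β ^ (3 : ℝ) * Real.exp (-(1 / 12) * β ^ (2 * η)))) atTop
      (𝓝 0) := by
    have h1 := (tendsto_rpow_mul_exp_neg_mul_atTop_nhds_zero (3 / (2 * η)) (1 / 12)
      (by norm_num)).comp l1
    have h2 : Tendsto (fun β : ℝ => β ^ (3 : ℝ) * Real.exp (-(1 / 12) * β ^ (2 * η))) atTop
        (𝓝 0) := by
      refine h1.congr' ?_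
      filter_upwards [eventually_gt_atTop 0] with β hβ
      simp only [Function.comp]
      rw [← Real.rpow_mul hβ.le]
      congr 2
      field_simp
    simpa using h2.const_mul 2
  have l3 : Tendsto (fun β : ℝ => (Real.log (4 * n) + 3 * Real.log β) / β ^ η) atTop (𝓝 0) := by
    have h1 := (isLittleO_log_rpow_atTop hη).tendsto_div_nhds_zero
    have h2 : Tendsto (fun β : ℝ => Real.log (4 * n) / β ^ η) atTop (𝓝 0) :=
      tendsto_const_nhds.div_atTop (tendsto_rpow_atTop hη)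
    have h3 := h2.add (h1.const_mul 3)
    simp only [mul_zero, add_zero] at h3
    refine h3.congr fun β => ?_
    ring
  have l4 : Tendsto (fun β : ℝ => β ^ η) atTop atTop := tendsto_rpow_atTop hη
  filter_upwards [l2.eventually (ge_mem_nhds (show (0 : ℝ) < 1 / 2 by norm_num)),
    l3.eventually (ge_mem_nhds (show (0 : ℝ) < 1 / 2 by norm_num)), l4.eventually_ge_atTop 1,
    eventually_ge_atTop 1] with β h2 h3 h4 hβ1 L hL hLβ
  have hβ : 0 < β := by linarith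
  have hLR : (1 : ℝ) ≤ L := by exact_mod_cast hL
  have hL0 : (0 : ℝ) < L := by linarith
  have hLβ1 : (L : ℝ) ≤ β := by
    refine hLβ.trans ?_
    calc β ^ (1 / 2 - η) ≤ β ^ (1 : ℝ) :=
          Real.rpow_le_rpow_of_exponent_le hβ1 (by linarith)
      _ = β := Real.rpow_one β
  have hL3 : (L : ℝ) ^ 3 ≤ β ^ (3 : ℝ) := by
    rw [show (3 : ℝ) = ((3 : ℕ) : ℝ) by norm_num, Real.rpow_natCast]
    exact pow_le_pow_left₀ hL0.le hLβ1 3
  have hL2 : (L : ℝ) ^ 2 ≤ β / β ^ (2 * η) := by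
    calc (L : ℝ) ^ 2 ≤ (β ^ (1 / 2 - η)) ^ 2 := pow_le_pow_left₀ hL0.le hLβ 2
      _ = β / β ^ (2 * η) := by
        rw [← Real.rpow_natCast, ← Real.rpow_mul hβ.le]
        nth_rewrite 2 [← Real.rpow_one β]
        rw [← Real.rpow_sub hβ]
        congr 1
        push_cast
        ring
  have hp : 0 < β ^ (2 * η) := Real.rpow_pos_of_pos hβ _
  have hz1 : Real.exp (-(n * (β / 2) / (6 * (L : ℝ) ^ 2))) ≤
      Real.exp (-(1 / 12) * β ^ (2 * η)) := by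
    apply Real.exp_le_exp.2
    have h5 : 1 / 12 * β ^ (2 * η) ≤ n * (β / 2) / (6 * (L : ℝ) ^ 2) := by
      rw [le_div_iff₀ (by positivity)]
      have h6 : β ^ (2 * η) * (L : ℝ) ^ 2 ≤ β := by
        have := mul_le_mul_of_nonneg_left hL2 hp.le
        rwa [mul_div_cancel₀ β hp.ne'] at this
      nlinarith
    linarith
  have hz2 : Real.exp (-(n * (β / 2) / (6 * (L : ℝ) ^ 2))) ≤ 1 / 2 := by
    refine hz1.trans ?_
    have h5 : 1 ≤ β ^ (3 : ℝ) := Real.one_le_rpow hβ1 (by norm_num)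
    have h6 := Real.exp_pos (-(1 / 12) * β ^ (2 * η))
    nlinarith
  have h := log_Zt_le_crude (n := n) hn hL (β := β / 2) (by positivity) hz2
  refine h.trans ?_
  have h5 : Real.log (2 * ((n : ℝ) * (L : ℝ) ^ 3 + 1)) ≤ Real.log (4 * n) + 3 * Real.log β := by
    have h6 : 2 * ((n : ℝ) * (L : ℝ) ^ 3 + 1) ≤ 4 * n * β ^ (3 : ℝ) := by
      have h7 : 1 ≤ β ^ (3 : ℝ) := Real.one_le_rpow hβ1 (by norm_num)
      have h8 : (n : ℝ) * (L : ℝ) ^ 3 ≤ n * β ^ (3 : ℝ) :=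
        mul_le_mul_of_nonneg_left hL3 (by positivity)
      have h9 : 1 ≤ (n : ℝ) * β ^ (3 : ℝ) := by nlinarith
      linarith
    have h7 := Real.log_le_log (by positivity) h6
    rwa [Real.log_mul (x := 4 * (n : ℝ)) (by positivity) (by positivity), Real.log_rpow hβ] at h7
  have h6 : 2 * (L : ℝ) ^ 3 * Real.exp (-(n * (β / 2) / (6 * (L : ℝ) ^ 2))) ≤ 1 / 2 := by
    refine le_trans ?_ h2
    rw [mul_assoc]
    refine mul_le_mul_of_nonneg_left ?_ (by norm_num)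
    exact mul_le_mul hL3 hz1 (Real.exp_pos _).le (by positivity)
  have h7 : Real.log (4 * n) + 3 * Real.log β ≤ 1 / 2 * β ^ η := by
    rwa [div_le_iff₀ (by linarith)] at h3
  linarith

/-- Choice of the cube. -/
theorem exists_cube {n : ℕ} (hn : 1 ≤ n) {κ η : ℝ} (hκ : 0 < κ) (hη : 0 < η) (hη2 : η < 1 / 2) :
    ∀ᶠ β : ℝ in atTop, ∃ L : ℕ, 0 < L ∧ β ^ (1 / 2 + κ + η) / 2 ≤ L ∧
      Real.log (Zt n (cube L) (β / 2) 0) ≤ 8 * β ^ (3 * κ + 7 * η) := by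
  have hcr := crude_log hn hη (by linarith)
  have l1 : ∀ᶠ β : ℝ in atTop, 2 ≤ β ^ (1 / 2 - η) :=
    (tendsto_rpow_atTop (by linarith)).eventually_ge_atTop 2
  filter_upwards [hcr, l1, eventually_ge_atTop 1] with β hcr h2X hβ1
  have hβ0 : 0 < β := by linarith
  have pp : ∀ a : ℝ, 0 < β ^ a := fun a => Real.rpow_pos_of_pos hβ0 a
  set X : ℝ := β ^ (1 / 2 - η) with hX
  set Y : ℝ := β ^ (κ + 2 * η) with hY
  have hX0 : 0 < X := pp _
  have hY1 : 1 ≤ Y := Real.one_le_rpow hβ1 (by linarith)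
  obtain ⟨L0, hL0a, hL0b⟩ : ∃ L0 : ℕ, (L0 : ℝ) ≤ X ∧ X / 2 ≤ L0 := by
    refine ⟨⌊X⌋₊, Nat.floor_le hX0.le, ?_⟩
    have := Nat.lt_floor_add_one X
    linarith
  have hL0pos : 0 < L0 := by
    have : (0 : ℝ) < L0 := by linarith
    exact_mod_cast this
  obtain ⟨q, hqa, hqb⟩ : ∃ q : ℕ, Y ≤ q ∧ (q : ℝ) ≤ 2 * Y := by
    refine ⟨⌈Y⌉₊, Nat.le_ceil Y, ?_⟩
    have := (Nat.ceil_lt_add_one (by linarith : 0 ≤ Y)).le
    linarith
  have hqpos : 0 < q := by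
    have : (0 : ℝ) < q := by linarith
    exact_mod_cast this
  refine ⟨q * L0, Nat.mul_pos hqpos hL0pos, ?_, ?_⟩
  · have hXY : X * Y = β ^ (1 / 2 + κ + η) := by
      rw [hX, hY, ← Real.rpow_add hβ0]; congr 1; ring
    rw [Nat.cast_mul, ← hXY]
    have := mul_le_mul hqa hL0b (by positivity) (by positivity)
    linarith
  · have hYA : (2 * Y) ^ 3 * β ^ η = 8 * β ^ (3 * κ + 7 * η) := by
      rw [hY, mul_pow, ← Real.rpow_natCast (β ^ (κ + 2 * η)) 3, ← Real.rpow_mul hβ0.le, mul_assoc,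
        ← Real.rpow_add hβ0]
      norm_num
      congr 1
      ring
    have h1 := log_Zt_cube_mul (n := n) (β := β / 2) (t := 0) (by positivity) le_rfl q L0 hL0pos
    have h2 := hcr L0 hL0pos hL0a
    refine h1.trans ?_
    calc (q : ℝ) ^ 3 * Real.log (Zt n (cube L0) (β / 2) 0) ≤ (q : ℝ) ^ 3 * β ^ η :=
          mul_le_mul_of_nonneg_left h2 (by positivity)
      _ ≤ (2 * Y) ^ 3 * β ^ η :=
          mul_le_mul_of_nonneg_right (pow_le_pow_left₀ (by positivity) hqb 3) (pp _).le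
      _ = _ := hYA

theorem bJ_param {n : ℕ} (hn : 1 ≤ n) {β A : ℝ} (hβ0 : 0 < β) (hA1 : 1 ≤ A) (hAβ : A ≤ β) :
    H.bJ (2 * n / (2 * A / β)) ≤ 449 * Real.sqrt (A / β) := by
  have hnR : (1 : ℝ) ≤ n := by exact_mod_cast hn
  have hA0 : 0 < A := by linarith
  have hs0 : 0 < Real.sqrt (A / β) := Real.sqrt_pos.2 (by positivity)
  have haβ : β / A ≤ 2 * n / (2 * A / β) := by
    have : 2 * (n : ℝ) / (2 * A / β) = n * (β / A) := by field_simp
    rw [this]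
    have h0 : 0 ≤ β / A := by positivity
    nlinarith
  have hβA : 1 ≤ β / A := by rwa [one_le_div hA0]
  generalize 2 * (n : ℝ) / (2 * A / β) = a at haβ
  have ha1 : 1 ≤ a := hβA.trans haβ
  have h1 := bJ_upper ha1
  have h2 : 448 / a ≤ 448 := div_le_self (by norm_num) ha1
  have h3 : Real.sqrt (β / A) ≤ Real.sqrt (2 * Real.pi * a) := by
    refine Real.sqrt_le_sqrt (haβ.trans ?_)
    have : 1 ≤ 2 * Real.pi := by linarith [Real.pi_gt_three]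
    nlinarith
  have h4 : Real.sqrt (β / A) * H.bJ a ≤ 449 := by
    refine (mul_le_mul_of_nonneg_right h3 (H.bJ_nonneg a)).trans ?_
    linarith
  have h5 : Real.sqrt (A / β) * Real.sqrt (β / A) = 1 := by
    rw [← Real.sqrt_mul (by positivity), show A / β * (β / A) = 1 by field_simp, Real.sqrt_one]
  calc H.bJ a = Real.sqrt (A / β) * Real.sqrt (β / A) * H.bJ a := by rw [h5, one_mul]
    _ = Real.sqrt (A / β) * (Real.sqrt (β / A) * H.bJ a) := by ring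
    _ ≤ Real.sqrt (A / β) * 449 := mul_le_mul_of_nonneg_left h4 hs0.le
    _ = _ := by ring

/-- Consequences of the lower bound on the side. -/
theorem side_bounds {κ η β : ℝ} {L : ℕ} (hκ : 0 < κ) (hη : 0 < η) (hβ1 : 1 ≤ β) (hL : 0 < L)
    (hLge : β ^ (1 / 2 + κ + η) / 2 ≤ L) :
    β / 4 ≤ (L : ℝ) ^ 2 ∧ Real.sqrt β / L ≤ 2 * β ^ (-κ) ∧ β / (L : ℝ) ^ 2 ≤ 4 * β ^ (-κ) ∧
      Real.sqrt β ^ 3 / (L : ℝ) ^ 3 ≤ 8 * β ^ (-(3 * κ) - 3 * η) := by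
  have hβ0 : 0 < β := by linarith
  have hLR : (0 : ℝ) < L := by exact_mod_cast hL
  have pw : ∀ {a b : ℝ}, a ≤ b → β ^ a ≤ β ^ b := fun h =>
    Real.rpow_le_rpow_of_exponent_le hβ1 h
  have pp : ∀ a : ℝ, 0 < β ^ a := fun a => Real.rpow_pos_of_pos hβ0 a
  have hq0 := pp (1 / 2 + κ + η)
  have h2 : (β ^ (1 / 2 + κ + η) / 2) ^ 2 = β ^ (1 + 2 * κ + 2 * η) / 4 := by
    rw [div_pow, ← Real.rpow_natCast, ← Real.rpow_mul hβ0.le]
    norm_num
    congr 1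
    ring
  have h1 : β ^ (1 + 2 * κ + 2 * η) / 4 ≤ (L : ℝ) ^ 2 := by
    rw [← h2]
    exact pow_le_pow_left₀ (by positivity) hLge 2
  refine ⟨?_, ?_, ?_, ?_⟩
  · have h3 : β ≤ β ^ (1 + 2 * κ + 2 * η) := by
      nth_rewrite 1 [← Real.rpow_one β]
      exact pw (by linarith)
    linarith
  · rw [div_le_iff₀ hLR, Real.sqrt_eq_rpow]
    have h2 : β ^ (-κ) * β ^ (1 / 2 + κ + η) = β ^ (1 / 2 + η) := by
      rw [← Real.rpow_add hβ0]; congr 1; ring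
    have h3 : β ^ (1 / 2 : ℝ) ≤ β ^ (1 / 2 + η) := pw (by linarith)
    have h4 := mul_le_mul_of_nonneg_left hLge (pp (-κ)).le
    nlinarith
  · rw [div_le_iff₀ (by positivity)]
    have h4 : β ^ (-κ) * β ^ (1 + 2 * κ + 2 * η) = β ^ (1 + κ + 2 * η) := by
      rw [← Real.rpow_add hβ0]; congr 1; ring
    have h5 : β ≤ β ^ (1 + κ + 2 * η) := by
      nth_rewrite 1 [← Real.rpow_one β]
      exact pw (by linarith)
    have h6 := mul_le_mul_of_nonneg_left h1 (pp (-κ)).le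
    nlinarith
  · have hsβ : Real.sqrt β ^ 3 = β ^ (3 / 2 : ℝ) := by
      rw [Real.sqrt_eq_rpow, ← Real.rpow_natCast, ← Real.rpow_mul hβ0.le]
      norm_num
    rw [div_le_iff₀ (by positivity), hsβ]
    have h1 : (β ^ (1 / 2 + κ + η) / 2) ^ 3 ≤ (L : ℝ) ^ 3 :=
      pow_le_pow_left₀ (by positivity) hLge 3
    have h2 : (β ^ (1 / 2 + κ + η) / 2) ^ 3 = β ^ (3 / 2 + 3 * κ + 3 * η) / 8 := by
      rw [div_pow, ← Real.rpow_natCast, ← Real.rpow_mul hβ0.le]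
      norm_num
      congr 1
      ring
    rw [h2] at h1
    have h3 : β ^ (-(3 * κ) - 3 * η) * β ^ (3 / 2 + 3 * κ + 3 * η) = β ^ (3 / 2 : ℝ) := by
      rw [← Real.rpow_add hβ0]; congr 1; ring
    have h4 := mul_le_mul_of_nonneg_left h1 (pp (-(3 * κ) - 3 * η)).le
    nlinarith

/-- The interaction error. -/
theorem interaction_error {κ η β A P N W : ℝ} (hη : 43 * η ≤ 1 - 21 * κ)
    (hβ1 : 1 ≤ β) (hA : A = 8 * β ^ (3 * κ + 7 * η))
    (hP : P ≤ 8 * β ^ (-(3 * κ) - 3 * η)) (hN0 : 0 ≤ N) (hN : N ≤ 2 * (A * β ^ κ)) (hW0 : 0 ≤ W)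
    (hW : W ≤ 899 * Real.sqrt (A / β)) :
    P * (β * (12 * Real.exp 2 * (N ^ 2 * W ^ 3))) ≤
      8 * (12 * Real.exp 2 * (4 * 8 ^ 2) * (899 ^ 3 * Real.sqrt 8 ^ 3)) * β ^ (-κ) := by
  have hβ0 : 0 < β := by linarith
  have pw : ∀ {a b : ℝ}, a ≤ b → β ^ a ≤ β ^ b := fun h =>
    Real.rpow_le_rpow_of_exponent_le hβ1 h
  have pp : ∀ a : ℝ, 0 < β ^ a := fun a => Real.rpow_pos_of_pos hβ0 a
  have h1 : N ^ 2 ≤ (2 * (A * β ^ κ)) ^ 2 := pow_le_pow_left₀ hN0 hN 2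
  have h1' : W ^ 3 ≤ (899 * Real.sqrt (A / β)) ^ 3 := pow_le_pow_left₀ hW0 hW 3
  have h2 : N ^ 2 * W ^ 3 ≤ (2 * (A * β ^ κ)) ^ 2 * (899 * Real.sqrt (A / β)) ^ 3 :=
    mul_le_mul h1 h1' (by positivity) (by positivity)
  have h3 : Real.sqrt (A / β) ^ 3 = Real.sqrt 8 ^ 3 * β ^ ((9 * κ + 21 * η - 3) / 2) := by
    have e1 : A / β = 8 * β ^ (3 * κ + 7 * η - 1) := by
      rw [hA, Real.rpow_sub hβ0, Real.rpow_one]; ring
    rw [e1, Real.sqrt_mul (by norm_num), mul_pow, Real.sqrt_eq_rpow (β ^ _),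
      ← Real.rpow_mul hβ0.le, ← Real.rpow_natCast (β ^ _), ← Real.rpow_mul hβ0.le]
    congr 2
    push_cast
    ring
  have q1 := pp (-(3 * κ) - 3 * η)
  have h4 : P * (β * (12 * Real.exp 2 * (N ^ 2 * W ^ 3))) ≤
      8 * β ^ (-(3 * κ) - 3 * η) * (β * (12 * Real.exp 2 *
        ((2 * (A * β ^ κ)) ^ 2 * (899 * Real.sqrt (A / β)) ^ 3))) := by
    refine mul_le_mul hP ?_ (by positivity) (by positivity)
    exact mul_le_mul_of_nonneg_left (mul_le_mul_of_nonneg_left h2 (by positivity)) hβ0.le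
  refine h4.trans ?_
  have h5 : 8 * β ^ (-(3 * κ) - 3 * η) * (β * (12 * Real.exp 2 *
        ((2 * (A * β ^ κ)) ^ 2 * (899 * Real.sqrt (A / β)) ^ 3))) =
      8 * (12 * Real.exp 2 * (4 * 8 ^ 2) * (899 ^ 3 * Real.sqrt 8 ^ 3)) *
      (β ^ (-(3 * κ) - 3 * η) * β * (β ^ (3 * κ + 7 * η)) ^ 2 * (β ^ κ) ^ 2 *
        β ^ ((9 * κ + 21 * η - 3) / 2)) := by
    rw [mul_pow 899, h3, hA]
    ring
  rw [h5]
  refine mul_le_mul_of_nonneg_left ?_ (by positivity)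
  have h6 : β ^ (-(3 * κ) - 3 * η) * β * (β ^ (3 * κ + 7 * η)) ^ 2 * (β ^ κ) ^ 2 *
        β ^ ((9 * κ + 21 * η - 3) / 2) =
      β ^ (-(3 * κ) - 3 * η + 1 + (3 * κ + 7 * η) * 2 + κ * 2 + (9 * κ + 21 * η - 3) / 2) := by
    have g : ∀ u v w : ℝ, β ^ v * β * (β ^ u) ^ 2 * (β ^ κ) ^ 2 * β ^ w =
        β ^ (v + 1 + u * 2 + κ * 2 + w) := by
      intro u v w
      rw [Real.rpow_add hβ0, Real.rpow_add hβ0, Real.rpow_add hβ0, Real.rpow_add hβ0,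
        Real.rpow_one, Real.rpow_mul hβ0.le u 2, Real.rpow_mul hβ0.le κ 2, Real.rpow_two,
        Real.rpow_two]
    exact g _ _ _
  rw [h6]
  refine pw ?_
  linarith

/-- (D6) Upper bound for the reduced pressure, uniformly in the field. -/
theorem gRed_upper {n : ℕ} (hn : 1 ≤ n) {κ : ℝ} (hκ : 0 < κ) (hκ2 : κ < 1 / 21) :
    ∃ C β₀ : ℝ, ∀ β : ℝ, β₀ ≤ β → ∀ t : ℝ, β ^ (-κ) ≤ t →
      Real.sqrt β ^ 3 * gRed n β (t / β) ≤ FS ((n : ℝ) / 2) t + C * β ^ (-κ) := by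
  have hnR : (1 : ℝ) ≤ n := by exact_mod_cast hn
  obtain ⟨C, hC0, hC⟩ := bosSer_le hn
  obtain ⟨η, hη, hη2, hη3⟩ : ∃ η : ℝ, 0 < η ∧ η ≤ 1 / 43 ∧ 43 * η ≤ 1 - 21 * κ :=
    ⟨(1 - 21 * κ) / 43, by linarith, by linarith, by linarith⟩
  have l2 : ∀ᶠ β : ℝ in atTop, 8 ≤ β ^ (1 - 3 * κ - 7 * η) :=
    (tendsto_rpow_atTop (by linarith)).eventually_ge_atTop 8
  obtain ⟨β₀, hβ₀⟩ := eventually_atTop.1
    ((exists_cube hn hκ hη (by linarith)).and (l2.and (eventually_ge_atTop 448)))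
  refine ⟨8 * Real.log 3 + 8 * (12 * Real.exp 2 * (4 * 8 ^ 2) * (899 ^ 3 * Real.sqrt 8 ^ 3)) +
    C * 7 + 8, β₀, fun β hβ t ht => ?_⟩
  obtain ⟨⟨L, hLpos, hLge, hz1⟩, h8, h448⟩ := hβ₀ β hβ
  have hβ0 : 0 < β := by linarith
  have hβ1 : 1 ≤ β := by linarith
  have pw : ∀ {a b : ℝ}, a ≤ b → β ^ a ≤ β ^ b := fun h =>
    Real.rpow_le_rpow_of_exponent_le hβ1 h
  have pp : ∀ a : ℝ, 0 < β ^ a := fun a => Real.rpow_pos_of_pos hβ0 a
  have ht0 : 0 < t := lt_of_lt_of_le (pp _) ht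
  have hLR : (0 : ℝ) < L := by exact_mod_cast hLpos
  obtain ⟨A, hA⟩ : ∃ A : ℝ, A = 8 * β ^ (3 * κ + 7 * η) := ⟨_, rfl⟩
  rw [← hA] at hz1
  have hA8 : 8 ≤ A := by
    have : 1 ≤ β ^ (3 * κ + 7 * η) := Real.one_le_rpow hβ1 (by linarith)
    rw [hA]; linarith
  have hz2 : Real.log (Zt n (cube L) β 0) ≤ A :=
    (Real.log_le_log (Zt_pos β 0) (Zt_anti (by linarith) le_rfl)).trans hz1
  have hAβ : A ≤ β := by
    have h1 : β ^ (3 * κ + 7 * η) * β ^ (1 - 3 * κ - 7 * η) = β := by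
      rw [← Real.rpow_add hβ0]
      nth_rewrite 2 [← Real.rpow_one β]
      congr 1; ring
    calc A = β ^ (3 * κ + 7 * η) * 8 := by rw [hA]; ring
      _ ≤ β ^ (3 * κ + 7 * η) * β ^ (1 - 3 * κ - 7 * η) :=
        mul_le_mul_of_nonneg_left h8 (pp _).le
      _ = β := h1
  obtain ⟨N1, hN1a, hN1b⟩ : ∃ N1 : ℕ, A ≤ t * N1 ∧ (N1 : ℝ) ≤ 2 * (A * β ^ κ) := by
    refine ⟨⌈A / t⌉₊, ?_, ?_⟩
    · have := Nat.le_ceil (A / t)
      rwa [div_le_iff₀ ht0, mul_comm] at this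
    · have h1 := (Nat.ceil_lt_add_one (by positivity : 0 ≤ A / t)).le
      have h2 : A / t ≤ A * β ^ κ := by
        rw [div_le_iff₀ ht0]
        have h3 : β ^ κ * β ^ (-κ) = 1 := by rw [← Real.rpow_add hβ0]; simp
        have h4 : A * β ^ κ * β ^ (-κ) ≤ A * β ^ κ * t :=
          mul_le_mul_of_nonneg_left ht (mul_nonneg (by linarith) (pp _).le)
        calc A = A * β ^ κ * β ^ (-κ) := by rw [mul_assoc, h3, mul_one]
          _ ≤ _ := h4
      have h5 : 1 ≤ A * β ^ κ := by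
        have := Real.one_le_rpow hβ1 hκ.le
        nlinarith
      linarith
  have hup := logZt_upper hn hLpos (β := β) (t := t) (E1 := 2 * A / β) hβ0.le ht0
    (by positivity) N1 (hz1.trans (le_of_eq (by field_simp))) (hz2.trans hN1a)
  obtain ⟨sb1, sb2, sb3, sb4⟩ := side_bounds hκ hη hβ1 hLpos hLge
  have hbJ := bJ_param hn hβ0 (by linarith) hAβ
  have hLinv : 1 / (L : ℝ) ≤ Real.sqrt (A / β) := by
    refine Real.le_sqrt_of_sq_le ?_
    rw [div_pow, one_pow, div_le_div_iff₀ (by positivity) hβ0, one_mul]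
    nlinarith
  have hP0 : 0 < Real.sqrt β ^ 3 / (L : ℝ) ^ 3 := by positivity
  have piece2 := interaction_error hη3 hβ1 hA sb4 (Nat.cast_nonneg N1) hN1b
    (W := 1 / (L : ℝ) + 2 * H.bJ (2 * n / (2 * A / β)))
    (by have := H.bJ_nonneg (2 * n / (2 * A / β)); positivity) (by linarith)
  have hPκ : Real.sqrt β ^ 3 / (L : ℝ) ^ 3 ≤ 8 * β ^ (-κ) :=
    sb4.trans (mul_le_mul_of_nonneg_left (pw (by linarith)) (by norm_num))
  have piece3 := hC β h448 L hLpos t ht0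
  have g1 : 1 / β ≤ β ^ (-κ) := by
    rw [one_div, ← Real.rpow_neg_one]
    exact pw (by linarith)
  have g4 : Real.sqrt β ^ 3 / (L : ℝ) ^ 3 / t ≤ 8 * β ^ (-κ) := by
    rw [div_le_iff₀ ht0]
    have h2 : 8 * β ^ (-(3 * κ) - 3 * η) ≤ 8 * β ^ (-κ) * β ^ (-κ) := by
      rw [mul_assoc, ← Real.rpow_add hβ0]
      exact mul_le_mul_of_nonneg_left (pw (by linarith)) (by norm_num)
    have h3 : 8 * β ^ (-κ) * β ^ (-κ) ≤ 8 * β ^ (-κ) * t :=
      mul_le_mul_of_nonneg_left ht (by have := pp (-κ); positivity)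
    linarith
  have g5 : C * (1 / β + Real.sqrt β / L + β / (L : ℝ) ^ 2) ≤ C * (7 * β ^ (-κ)) :=
    mul_le_mul_of_nonneg_left (by linarith) hC0
  have hred := gRed_le (n := n) (β := β) (h := t / β) hβ0 (by positivity) hLpos
  rw [mul_div_cancel₀ t hβ0.ne'] at hred
  set P : ℝ := Real.sqrt β ^ 3 / (L : ℝ) ^ 3 with hP
  have piece1 : P * Real.log 3 ≤ 8 * Real.log 3 * β ^ (-κ) := by
    have h1 : 0 ≤ Real.log 3 := Real.log_nonneg (by norm_num)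
    have := mul_le_mul_of_nonneg_right hPκ h1
    linarith
  have h1 := mul_le_mul_of_nonneg_left hred (a := Real.sqrt β ^ 3) (by positivity)
  have h2 : Real.sqrt β ^ 3 * (Real.log (Zt n (cube L) β t) / (L : ℝ) ^ 3) =
      P * Real.log (Zt n (cube L) β t) := by rw [hP]; ring
  rw [h2] at h1
  have h3 := mul_le_mul_of_nonneg_left hup hP0.le
  rw [mul_add, mul_add] at h3
  generalize 8 * (12 * Real.exp 2 * (4 * 8 ^ 2) * (899 ^ 3 * Real.sqrt 8 ^ 3)) = K at piece2 ⊢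
  have h4 : (8 * Real.log 3 + K + C * 7 + 8) * β ^ (-κ) = 8 * Real.log 3 * β ^ (-κ) +
      K * β ^ (-κ) + C * (7 * β ^ (-κ)) + 8 * β ^ (-κ) := by ring
  rw [h4]
  linarith

end Vale.Agent.P361.B
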