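import Vale.Agent.P361.B.Boson

set_option linter.unusedSectionVars false

/-!
Part B: comparison with free bosons, spectral side.
-/

namespace Vale.Agent.P361.B

open Finset Filter Topology

variable {V : Type*} [Fintype V] [DecidableEq V]
variable {n N : ℕ} {adj : V → V → Prop} [DecidableRel adj] {e : V → V → ℝ} {lam : V → ℝ}
variable {E : ℝ} {ψ : (V → ℕ) → ℝ}

/-- Tensor basis. -/
noncomputable def tens (e : V → V → ℝ) {N : ℕ} (k x : Fin N → V) : ℝ := ∏ i, e (k i) (x i)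

lemma tens_compl (hS : Spec adj e lam) (x y : Fin N → V) :
    ∑ k : Fin N → V, tens e k x * tens e k y = if x = y then 1 else 0 := by
  unfold tens
  simp only [← Finset.prod_mul_distrib]
  have h := Finset.prod_univ_sum (fun _ : Fin N => (Finset.univ : Finset V))
    (fun i v => e v (x i) * e v (y i))
  rw [Fintype.piFinset_univ] at h
  rw [← h]
  simp only [hS.compl]
  by_cases hxy : x = y
  · subst hxy; simp
  · rw [if_neg hxy]
    obtain ⟨i, hi⟩ := Function.ne_iff.1 hxy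
    exact Finset.prod_eq_zero (Finset.mem_univ i) (if_neg hi)

lemma tens_orth (hS : Spec adj e lam) (k l : Fin N → V) :
    ∑ x : Fin N → V, tens e k x * tens e l x = if k = l then 1 else 0 := by
  unfold tens
  simp only [← Finset.prod_mul_distrib]
  have h := Finset.prod_univ_sum (fun _ : Fin N => (Finset.univ : Finset V))
    (fun i v => e (k i) v * e (l i) v)
  rw [Fintype.piFinset_univ] at h
  rw [← h]
  simp only [hS.orth]
  by_cases hkl : k = l
  · subst hkl; simp
  · rw [if_neg hkl]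
    obtain ⟨i, hi⟩ := Function.ne_iff.1 hkl
    exact Finset.prod_eq_zero (Finset.mem_univ i) (if_neg hi)

/-- Fourier coefficient. -/
noncomputable def four (e : V → V → ℝ) {N : ℕ} (F : (Fin N → V) → ℝ) (k : Fin N → V) : ℝ :=
  ∑ x, tens e k x * F x

lemma parseval (hS : Spec adj e lam) (F : (Fin N → V) → ℝ) :
    ∑ k, four e F k ^ 2 = ∑ x, F x ^ 2 := by
  have h1 : ∀ k, four e F k ^ 2 = ∑ x, ∑ y, F x * F y * (tens e k x * tens e k y) := by
    intro k
    rw [sq, four, Finset.sum_mul_sum]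
    exact Finset.sum_congr rfl fun x _ => Finset.sum_congr rfl fun y _ => by ring
  simp only [h1]
  rw [Finset.sum_comm]
  refine Finset.sum_congr rfl fun x _ => ?_
  rw [Finset.sum_comm]
  simp only [← Finset.mul_sum, tens_compl hS]
  rw [Finset.sum_eq_single x]
  · rw [if_pos rfl]; ring
  · intro y _ hy
    rw [if_neg (Ne.symm hy), mul_zero]
  · simp

lemma edge_spectral (hS : Spec adj e lam) (hadj : ∀ x y, adj x y → adj y x) (f : V → ℝ) :
    ∑ x, ∑ y, (if adj x y then (f x - f y) ^ 2 else 0) =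
      2 * ∑ k, lam k * (∑ x, e k x * f x) ^ 2 := by
  have hexp : ∀ x, f x = ∑ k, (∑ y, e k y * f y) * e k x := by
    intro x
    calc f x = ∑ y, f y * ∑ k, e k y * e k x := by simp only [hS.compl]; simp
      _ = _ := by
        simp only [Finset.mul_sum, Finset.sum_mul]
        rw [Finset.sum_comm]
        exact Finset.sum_congr rfl fun k _ => Finset.sum_congr rfl fun y _ => by ring
  have hlap : ∀ x, ∑ y, (if adj x y then f x - f y else 0) =
      ∑ k, lam k * (∑ y, e k y * f y) * e k x := by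
    intro x
    have h1 : ∀ y, (if adj x y then f x - f y else 0) =
        ∑ k, -((∑ y, e k y * f y) * (if adj x y then e k y - e k x else 0)) := by
      intro y
      split_ifs
      · conv_lhs => rw [hexp x, hexp y]
        rw [← Finset.sum_sub_distrib]
        exact Finset.sum_congr rfl fun k _ => by ring
      · simp
    simp only [h1]
    rw [Finset.sum_comm]
    refine Finset.sum_congr rfl fun k _ => ?_
    rw [Finset.sum_neg_distrib, ← Finset.mul_sum, hS.eig]
    ring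
  have hsq : ∑ x, ∑ y, (if adj x y then (f x - f y) ^ 2 else 0) =
      2 * ∑ x, f x * ∑ y, (if adj x y then f x - f y else 0) := by
    have h1 : ∑ x, ∑ y, (if adj x y then (f x - f y) ^ 2 else 0) =
        ∑ x, ∑ y, (if adj x y then f x * (f x - f y) else 0) +
        ∑ x, ∑ y, (if adj x y then f y * (f y - f x) else 0) := by
      rw [← Finset.sum_add_distrib]
      refine Finset.sum_congr rfl fun x _ => ?_
      rw [← Finset.sum_add_distrib]
      refine Finset.sum_congr rfl fun y _ => ?_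
      split_ifs <;> ring
    have h2 : ∑ x, ∑ y, (if adj x y then f y * (f y - f x) else 0) =
        ∑ x, ∑ y, (if adj x y then f x * (f x - f y) else 0) := by
      rw [Finset.sum_comm]
      refine Finset.sum_congr rfl fun y _ => Finset.sum_congr rfl fun x _ => ?_
      by_cases hxy : adj x y
      · rw [if_pos hxy, if_pos (hadj _ _ hxy)]
      · rw [if_neg hxy, if_neg fun h' => hxy (hadj _ _ h')]
    rw [h1, h2, ← two_mul]
    congr 1
    refine Finset.sum_congr rfl fun x _ => ?_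
    rw [Finset.mul_sum]
    exact Finset.sum_congr rfl fun y _ => by split_ifs <;> ring
  rw [hsq]
  congr 1
  simp only [hlap]
  set c : V → ℝ := fun k => ∑ y, e k y * f y with hc
  calc ∑ x, f x * ∑ k, lam k * c k * e k x = ∑ x, ∑ k, lam k * c k * (e k x * f x) := by
        refine Finset.sum_congr rfl fun x _ => ?_
        rw [Finset.mul_sum]
        exact Finset.sum_congr rfl fun k _ => by ring
    _ = ∑ k, ∑ x, lam k * c k * (e k x * f x) := Finset.sum_comm
    _ = ∑ k, lam k * c k ^ 2 := by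
        refine Finset.sum_congr rfl fun k _ => ?_
        rw [← Finset.mul_sum, sq, mul_assoc]

/-- Wave function of labelled particles. -/
noncomputable def wf (N : ℕ) (ψ : (V → ℕ) → ℝ) (x : Fin N → V) : ℝ :=
  ψ (occ x) / Real.sqrt (cnt N (occ x))

lemma wf_perm (ψ : (V → ℕ) → ℝ) (x : Fin N → V) (p : Equiv.Perm (Fin N)) :
    wf N ψ (x ∘ p) = wf N ψ x := by
  rw [wf, occ_perm, wf]

lemma cnt_occ_pos (x : Fin N → V) : (0 : ℝ) < cnt N (occ x) := by
  exact_mod_cast cnt_pos N (occ x) (sum_occ x)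

lemma wf_inner {ψ₁ ψ₂ : (V → ℕ) → ℝ} (h1 : ∀ ζ, ζ ∉ occBox V n → ψ₁ ζ = 0)
    (h2 : ∀ ζ, ∑ v, ζ v ≠ N → ψ₁ ζ = 0) :
    ∑ x, wf N ψ₁ x * wf N ψ₂ x = ∑ ζ ∈ occBox V n, ψ₁ ζ * ψ₂ ζ := by
  rw [← fiber_sum n N (fun ζ => ψ₁ ζ * ψ₂ ζ) (fun ζ hζ => by simp only [h1 ζ hζ, zero_mul])
    (fun ζ hζ => by simp only [h2 ζ hζ, zero_mul])]
  refine Finset.sum_congr rfl fun x _ => ?_
  have h3 := cnt_occ_pos x
  rw [wf, wf, div_mul_div_comm, Real.mul_self_sqrt h3.le]

lemma four_perm (hS : Spec adj e lam) (F : (Fin N → V) → ℝ)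
    (hF : ∀ x (p : Equiv.Perm (Fin N)), F (x ∘ p) = F x) (k : Fin N → V)
    (p : Equiv.Perm (Fin N)) : four e F (k ∘ p) = four e F k := by
  unfold four
  rw [← (Equiv.arrowCongr p.symm (Equiv.refl V)).sum_comp]
  refine Finset.sum_congr rfl fun x _ => ?_
  have e1 : (Equiv.arrowCongr p.symm (Equiv.refl V)) x = x ∘ p := by
    ext j; simp [Equiv.arrowCongr]
  rw [e1]
  have e2 : tens e (k ∘ p) (x ∘ p) = tens e k x :=
    Equiv.prod_comp p (fun i => e (k i) (x i))
  rw [e2, hF]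

lemma four_occ (hS : Spec adj e lam) (F : (Fin N → V) → ℝ)
    (hF : ∀ x (p : Equiv.Perm (Fin N)), F (x ∘ p) = F x) {k l : Fin N → V} (h : occ k = occ l) :
    four e F k = four e F l := by
  obtain ⟨p, hp⟩ := exists_perm h
  rw [← hp, four_perm hS F hF]

lemma four_cons (F : (Fin (N + 1) → V) → ℝ) (v : V) (k : Fin N → V) :
    four e F (Fin.cons v k) = four e (fun x => ∑ w, e v w * F (Fin.cons w x)) k := by
  unfold four
  rw [← (Fin.consEquiv fun _ => V).sum_comp, Fintype.sum_prod_type, Finset.sum_comm]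
  refine Finset.sum_congr rfl fun x _ => ?_
  rw [Finset.mul_sum]
  refine Finset.sum_congr rfl fun w _ => ?_
  change tens e (Fin.cons v k : Fin (N + 1) → V) (Fin.cons w x : Fin (N + 1) → V) *
    F (Fin.cons w x) = _
  rw [tens, Fin.prod_univ_succ]
  simp only [Fin.cons_zero, Fin.cons_succ]
  rw [tens]; ring

lemma hop_sum (ψ : (V → ℕ) → ℝ) (h1 : ∀ ζ, ζ ∉ occBox V n → ψ ζ = 0)
    (h2 : ∀ ζ, ∑ v, ζ v ≠ N + 1 → ψ ζ = 0) (v w : V) :
    ∑ σ ∈ occBox V n, (Real.sqrt ((σ v : ℝ) + 1) * ψ (σ + Pi.single v 1) -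
      Real.sqrt ((σ w : ℝ) + 1) * ψ (σ + Pi.single w 1)) ^ 2 =
    (N + 1 : ℝ) * ∑ x : Fin N → V, (wf (N + 1) ψ (Fin.cons v x) -
      wf (N + 1) ψ (Fin.cons w x)) ^ 2 := by
  have hout : ∀ ζ : V → ℕ, ζ ∉ occBox V n → ∀ v, ψ (ζ + Pi.single v 1) = 0 := by
    intro ζ hζ v
    apply h1
    rw [mem_occBox] at hζ ⊢
    push Not at hζ ⊢
    obtain ⟨x, hx⟩ := hζ
    refine ⟨x, ?_⟩
    rw [Pi.add_apply]; omega
  have hsec : ∀ ζ : V → ℕ, ∑ u, ζ u ≠ N → ∀ v, ψ (ζ + Pi.single v 1) = 0 := by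
    intro ζ hζ v
    apply h2
    simp only [Pi.add_apply, Finset.sum_add_distrib]
    rw [Finset.sum_pi_single']
    simp [hζ]
  refine (fiber_sum n N (fun σ => (Real.sqrt ((σ v : ℝ) + 1) * ψ (σ + Pi.single v 1) -
      Real.sqrt ((σ w : ℝ) + 1) * ψ (σ + Pi.single w 1)) ^ 2)
      (fun ζ hζ => by simp only [hout ζ hζ]; simp)
      (fun ζ hζ => by simp only [hsec ζ hζ]; simp)).symm.trans ?_
  rw [Finset.mul_sum]
  refine Finset.sum_congr rfl fun x _ => ?_
  have hc := cnt_occ_pos x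
  have hwf : ∀ u, Real.sqrt (N + 1 : ℝ) * wf (N + 1) ψ (Fin.cons u x) =
      Real.sqrt ((occ x u : ℝ) + 1) * ψ (occ x + Pi.single u 1) / Real.sqrt (cnt N (occ x)) := by
    intro u
    rw [wf, occ_cons]
    have hc2 : (0 : ℝ) < cnt (N + 1) (occ x + Pi.single u 1) := by
      rw [← occ_cons]; exact cnt_occ_pos _
    have h3 : (cnt (N + 1) (occ x + Pi.single u 1) : ℝ) * ((occ x u : ℝ) + 1) =
        ((N : ℝ) + 1) * cnt N (occ x) := by exact_mod_cast cnt_succ N (occ x) u
    have h4 : Real.sqrt (cnt (N + 1) (occ x + Pi.single u 1)) * Real.sqrt ((occ x u : ℝ) + 1) =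
        Real.sqrt ((N : ℝ) + 1) * Real.sqrt (cnt N (occ x)) := by
      rw [← Real.sqrt_mul hc2.le, h3, Real.sqrt_mul (by positivity)]
    have h5 : 0 < Real.sqrt (cnt (N + 1) (occ x + Pi.single u 1)) := Real.sqrt_pos.2 hc2
    have h6 : 0 < Real.sqrt (cnt N (occ x)) := Real.sqrt_pos.2 hc
    rw [mul_div_assoc', div_eq_div_iff h5.ne' h6.ne']
    calc _ = (Real.sqrt ((N : ℝ) + 1) * Real.sqrt (cnt N (occ x))) * ψ (occ x + Pi.single u 1) := by
          ring
      _ = _ := by rw [← h4]; ring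
  have h7 : (N + 1 : ℝ) * (wf (N + 1) ψ (Fin.cons v x) - wf (N + 1) ψ (Fin.cons w x)) ^ 2 =
      (Real.sqrt (N + 1 : ℝ) * wf (N + 1) ψ (Fin.cons v x) -
        Real.sqrt (N + 1 : ℝ) * wf (N + 1) ψ (Fin.cons w x)) ^ 2 := by
    rw [← mul_sub, mul_pow, Real.sq_sqrt (by positivity)]
  rw [h7, hwf, hwf, ← sub_div, div_pow, Real.sq_sqrt hc.le]

/-- One-particle energies summed. -/
noncomputable def bosE (n : ℕ) (lam : V → ℝ) (m : V → ℕ) : ℝ := (n : ℝ) / 2 * ∑ v, lam v * m v

lemma sum_lam_occ (k : Fin N → V) : ∑ v, lam v * (occ k v : ℝ) = ∑ i, lam (k i) := by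
  unfold occ
  push_cast
  simp only [Finset.mul_sum]
  rw [Finset.sum_comm]
  refine Finset.sum_congr rfl fun i _ => ?_
  simp

theorem kform_eq (hS : Spec adj e lam) (hadj : ∀ x y, adj x y → adj y x)
    (h1 : ∀ ζ, ζ ∉ occBox V n → ψ ζ = 0) (h2 : ∀ ζ, ∑ v, ζ v ≠ N → ψ ζ = 0) :
    kform n adj ψ = ∑ k : Fin N → V, bosE n lam (occ k) * four e (wf N ψ) k ^ 2 := by
  rcases N with _ | N
  · have h3 : ∀ (σ : V → ℕ) v, ψ (σ + Pi.single v 1) = 0 := by
      intro σ v
      apply h2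
      simp only [Pi.add_apply, Finset.sum_add_distrib]
      rw [Finset.sum_pi_single']
      simp
    have h4 : kform n adj ψ = 0 := by
      unfold kform
      simp [h3]
    rw [h4]
    symm
    refine Finset.sum_eq_zero fun k _ => ?_
    rw [bosE, sum_lam_occ]; simp
  · unfold kform
    have h3 : ∀ v w, (if adj v w then ∑ σ ∈ occBox V n,
        (Real.sqrt ((σ v : ℝ) + 1) * ψ (σ + Pi.single v 1) -
          Real.sqrt ((σ w : ℝ) + 1) * ψ (σ + Pi.single w 1)) ^ 2 else 0) =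
        (N + 1 : ℝ) * ∑ x : Fin N → V, (if adj v w then (wf (N + 1) ψ (Fin.cons v x) -
          wf (N + 1) ψ (Fin.cons w x)) ^ 2 else 0) := by
      intro v w
      split_ifs
      · exact hop_sum ψ h1 h2 v w
      · simp
    simp only [h3]
    have h4 : ∑ v, ∑ w, (N + 1 : ℝ) * ∑ x : Fin N → V, (if adj v w then
        (wf (N + 1) ψ (Fin.cons v x) - wf (N + 1) ψ (Fin.cons w x)) ^ 2 else 0) =
        (N + 1 : ℝ) * ∑ x : Fin N → V, ∑ v, ∑ w, (if adj v w then
        (wf (N + 1) ψ (Fin.cons v x) - wf (N + 1) ψ (Fin.cons w x)) ^ 2 else 0) := by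
      have h5 := sum_swap3 (Finset.univ : Finset (Fin N → V)) (fun _ => (N + 1 : ℝ))
        (fun v w x => if adj v w then
          (wf (N + 1) ψ (Fin.cons v x) - wf (N + 1) ψ (Fin.cons w x)) ^ 2 else 0)
      simp only [← Finset.mul_sum] at h5 ⊢
      exact h5
    rw [h4]
    have h6 : ∀ x : Fin N → V, ∑ v, ∑ w, (if adj v w then
        (wf (N + 1) ψ (Fin.cons v x) - wf (N + 1) ψ (Fin.cons w x)) ^ 2 else 0) =
        2 * ∑ k, lam k * (∑ v, e k v * wf (N + 1) ψ (Fin.cons v x)) ^ 2 := fun x =>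
      edge_spectral hS hadj (fun v => wf (N + 1) ψ (Fin.cons v x))
    simp only [h6]
    have h7 : ∑ x : Fin N → V, 2 * ∑ k, lam k *
        (∑ v, e k v * wf (N + 1) ψ (Fin.cons v x)) ^ 2 =
        2 * ∑ k : Fin (N + 1) → V, lam (k 0) * four e (wf (N + 1) ψ) k ^ 2 := by
      rw [← Finset.mul_sum, Finset.sum_comm]
      congr 1
      rw [← (Fin.consEquiv fun _ => V).sum_comp, Fintype.sum_prod_type]
      refine Finset.sum_congr rfl fun k0 _ => ?_
      have h8 := parseval hS (fun x : Fin N → V => ∑ v, e k0 v * wf (N + 1) ψ (Fin.cons v x))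
      rw [← Finset.mul_sum, ← h8, Finset.mul_sum]
      refine Finset.sum_congr rfl fun k _ => ?_
      change _ = lam ((Fin.cons k0 k : Fin (N + 1) → V) 0) *
        four e (wf (N + 1) ψ) (Fin.cons k0 k) ^ 2
      rw [four_cons, Fin.cons_zero]
    rw [h7]
    have h9 : ∀ i : Fin (N + 1), ∑ k : Fin (N + 1) → V, lam (k i) * four e (wf (N + 1) ψ) k ^ 2 =
        ∑ k : Fin (N + 1) → V, lam (k 0) * four e (wf (N + 1) ψ) k ^ 2 := by
      intro i
      rw [← (Equiv.arrowCongr (Equiv.swap 0 i) (Equiv.refl V)).sum_comp]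
      refine Finset.sum_congr rfl fun k _ => ?_
      have e1 : (Equiv.arrowCongr (Equiv.swap 0 i) (Equiv.refl V)) k = k ∘ Equiv.swap 0 i := by
        ext j; simp [Equiv.arrowCongr]
      rw [e1, four_perm hS _ (wf_perm ψ)]
      simp
    have h10 : ∑ k : Fin (N + 1) → V, bosE n lam (occ k) * four e (wf (N + 1) ψ) k ^ 2 =
        (n : ℝ) / 2 * ∑ i : Fin (N + 1), ∑ k : Fin (N + 1) → V,
          lam (k i) * four e (wf (N + 1) ψ) k ^ 2 := by
      rw [Finset.sum_comm, Finset.mul_sum]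
      refine Finset.sum_congr rfl fun k _ => ?_
      rw [bosE, sum_lam_occ, ← Finset.sum_mul]
      ring
    rw [h10]
    simp only [h9]
    rw [Finset.sum_const, Finset.card_univ, Fintype.card_fin, nsmul_eq_mul]
    push_cast
    ring

end Vale.Agent.P361.B
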