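import Vale.Agent.P361.B.Sub

/-!
Part B, step D2: crude bound on the partition function of a cube.
-/

namespace Vale.Agent.P361.B

open Matrix Finset Filter Topology
open scoped ComplexOrder Kronecker

set_option linter.unusedSectionVars false

section Ladder

variable {n : ℕ} {Λ : Finset Site}

/-- Total lowering operator. -/
noncomputable def jM (n : ℕ) (Λ : Finset Site) : Matrix (Λ → Fin (n + 1)) (Λ → Fin (n + 1)) ℂ :=
  ∑ x : Λ, H.oM n x

/-- Total raising operator. -/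
noncomputable def jP (n : ℕ) (Λ : Finset Site) : Matrix (Λ → Fin (n + 1)) (Λ → Fin (n + 1)) ℂ :=
  ∑ x : Λ, H.oP n x

/-- Total number of lowered spins of a configuration. -/
def cntS (σ : Λ → Fin (n + 1)) : ℕ := ∑ x, (σ x : ℕ)

theorem siteOp_diagonal (x : Λ) (f : Fin (n + 1) → ℂ) :
    siteOp x (diagonal f) = diagonal (fun σ : Λ → Fin (n + 1) => f (σ x)) := by
  ext σ τ
  refine (H.siteOp_apply x (diagonal f) σ τ).trans ?_
  by_cases h : σ = τ
  · subst h; simp
  · rw [Matrix.diagonal_apply_ne _ h]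
    obtain ⟨y, hy⟩ := Function.ne_iff.1 h
    by_cases hyx : y = x
    · subst hyx
      rw [Matrix.diagonal_apply_ne f hy, zero_mul]
    · have h0 : ∏ y ∈ Finset.univ.erase x,
          (1 : Matrix (Fin (n + 1)) (Fin (n + 1)) ℂ) (σ y) (τ y) = 0 :=
        Finset.prod_eq_zero (i := y) (by simp [hyx]) (Matrix.one_apply_ne hy)
      rw [h0, mul_zero]

/-- Local number operator. -/
noncomputable def eta (n : ℕ) {Λ : Finset Site} (x : Λ) :
    Matrix (Λ → Fin (n + 1)) (Λ → Fin (n + 1)) ℂ :=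
  diagonal (fun σ : Λ → Fin (n + 1) => ((σ x : ℕ) : ℂ))

theorem eta_eq (x : Λ) : eta n x = ((n : ℂ) / 2) • (1 : Matrix _ _ ℂ) - H.oZ n x := by
  have h : ((n : ℂ) / 2) • (1 : Matrix (Λ → Fin (n + 1)) (Λ → Fin (n + 1)) ℂ) - H.oZ n x =
      siteOp x (((n : ℂ) / 2) • (1 : Matrix (Fin (n + 1)) (Fin (n + 1)) ℂ) - spinZ n) := by
    rw [H.siteOp_sub, H.siteOp_smul, H.siteOp_one]
  rw [h, eta]
  have h2 : ((n : ℂ) / 2) • (1 : Matrix (Fin (n + 1)) (Fin (n + 1)) ℂ) - spinZ n =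
      diagonal (fun j : Fin (n + 1) => ((j : ℕ) : ℂ)) := by
    rw [spinZ, ← Matrix.diagonal_one, ← Matrix.diagonal_smul, Matrix.diagonal_sub]
    congr 1
    ext j
    simp
  rw [h2, siteOp_diagonal]

theorem numOp_eq_sum : numOp n Λ = ∑ x : Λ, eta n x := by
  unfold numOp
  exact Finset.sum_congr rfl fun x _ => (eta_eq x).symm

theorem numOp_eq_diagonal : numOp n Λ = diagonal (fun σ : Λ → Fin (n + 1) => ((cntS σ : ℕ) : ℂ)) := by
  rw [numOp_eq_sum]
  ext σ τ
  rw [Matrix.sum_apply]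
  by_cases h : σ = τ
  · subst h
    simp [eta, cntS]
  · simp [eta, h]

theorem jM_eq_mode : jM n Λ = H.modeOp n (fun _ : Λ => (1 : ℂ)) := by
  simp [jM, H.modeOp]

theorem jM_conj : (jM n Λ)ᴴ = jP n Λ := by
  rw [jM, Matrix.conjTranspose_sum]
  exact Finset.sum_congr rfl fun x _ => H.oM_conj x

theorem mag_eq_num : magnetization n Λ = ((n : ℂ) / 2 * (Λ.card : ℂ)) •
    (1 : Matrix (Λ → Fin (n + 1)) (Λ → Fin (n + 1)) ℂ) - numOp n Λ := by
  rw [H.magnetization_eq, numOp, Finset.sum_sub_distrib, Finset.sum_const, Finset.card_univ,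
    Fintype.card_coe]
  rw [← Nat.cast_smul_eq_nsmul ℂ, smul_smul, mul_comm ((n : ℂ) / 2)]
  abel

theorem num_jM : numOp n Λ * jM n Λ = jM n Λ * numOp n Λ + jM n Λ := by
  have h := H.comm_mag_mode (n := n) (Λ := Λ) (fun _ => 1)
  rw [← jM_eq_mode, mag_eq_num] at h
  simp only [sub_mul, mul_sub, smul_mul_assoc, mul_smul_comm, Matrix.one_mul, Matrix.mul_one] at h
  rw [sub_eq_iff_eq_add] at h
  have h2 : numOp n Λ * jM n Λ = ((n : ℂ) / 2 * (Λ.card : ℂ)) • jM n Λ -
      (((n : ℂ) / 2 * (Λ.card : ℂ)) • jM n Λ - numOp n Λ * jM n Λ) := by abel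
  rw [h2, h]
  abel

theorem jP_jM : jP n Λ * jM n Λ = jM n Λ * jP n Λ + (((n * Λ.card : ℕ) : ℂ) •
    (1 : Matrix (Λ → Fin (n + 1)) (Λ → Fin (n + 1)) ℂ) - (2 : ℂ) • numOp n Λ) := by
  have h := H.comm_mode_mode (n := n) (Λ := Λ) (fun _ => 1)
  rw [← jM_eq_mode, jM_conj] at h
  rw [sub_eq_iff_eq_add] at h
  rw [h]
  have h2 : ∑ x : Λ, ((2 * Complex.normSq 1 : ℝ) : ℂ) • H.oZ n x =
      (2 : ℂ) • magnetization n Λ := by
    rw [H.magnetization_eq, Finset.smul_sum]
    simp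
  rw [h2, mag_eq_num]
  push_cast
  module

/-- `∑_{x ≠ y} (S² - S_x·S_y)`. -/
noncomputable def casX (n : ℕ) (Λ : Finset Site) :
    Matrix (Λ → Fin (n + 1)) (Λ → Fin (n + 1)) ℂ :=
  ∑ x : Λ, ∑ y : Λ, if x = y then 0 else
    ((((n : ℂ) / 2) ^ 2) • (1 : Matrix _ _ ℂ) - H.dotOp n x y)

theorem lower_raise_eta (x : Λ) : H.oM n x * H.oP n x =
    ((n : ℂ) + 1) • eta n x - eta n x * eta n x := by
  rw [H.siteOp_mul, H.lower_raise, siteOp_diagonal, eta, Matrix.diagonal_mul_diagonal,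
    ← Matrix.diagonal_smul, Matrix.diagonal_sub]
  congr 1
  ext σ
  simp
  ring

theorem pair_eta {x y : Λ} :
    ((((n : ℂ) / 2) ^ 2) • (1 : Matrix (Λ → Fin (n + 1)) (Λ → Fin (n + 1)) ℂ) - H.dotOp n x y) =
      ((n : ℂ) / 2) • (eta n x + eta n y) - eta n x * eta n y -
        (1 / 2 : ℂ) • (H.oP n x * H.oM n y + H.oM n x * H.oP n y) := by
  have hz : ∀ z : Λ, H.oZ n z = ((n : ℂ) / 2) • (1 : Matrix _ _ ℂ) - eta n z := by
    intro z; rw [eta_eq]; abel
  rw [H.dotOp_eq, hz x, hz y]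
  simp only [sub_mul, mul_sub, smul_mul_assoc, mul_smul_comm, Matrix.one_mul, Matrix.mul_one]
  module

theorem casX_eq : casX n Λ = numOp n Λ * ((((n * Λ.card : ℕ) : ℂ) + 1) • (1 : Matrix _ _ ℂ)
    - numOp n Λ) - jM n Λ * jP n Λ := by
  have e0 : casX n Λ = ∑ x : Λ, ∑ y : Λ, if x = y then 0 else
      (((n : ℂ) / 2) • (eta n x + eta n y) - eta n x * eta n y -
        (1 / 2 : ℂ) • (H.oM n y * H.oP n x + H.oM n x * H.oP n y)) := by
    unfold casX
    refine Finset.sum_congr rfl fun x _ => Finset.sum_congr rfl fun y _ => ?_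
    split_ifs with h
    · rfl
    · rw [pair_eta, H.siteOp_comm h (spinLower n)ᴴ (spinLower n)]
  have e1 : ∀ x y : Λ, (if x = y then 0 else
      (((n : ℂ) / 2) • (eta n x + eta n y) - eta n x * eta n y -
        (1 / 2 : ℂ) • (H.oM n y * H.oP n x + H.oM n x * H.oP n y))) =
      (((n : ℂ) / 2) • (eta n x + eta n y) - eta n x * eta n y -
        (1 / 2 : ℂ) • (H.oM n y * H.oP n x + H.oM n x * H.oP n y)) -
      (if x = y then ((n : ℂ) • eta n x - eta n x * eta n x - H.oM n x * H.oP n x) else 0) := by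
    intro x y
    split_ifs with h
    · subst h
      module
    · rw [sub_zero]
  rw [e0, Finset.sum_congr rfl fun x _ => Finset.sum_congr rfl fun y _ => e1 x y]
  simp only [Finset.sum_sub_distrib, Finset.sum_ite_eq, Finset.mem_univ, if_true,
    lower_raise_eta, smul_add, Finset.sum_add_distrib, Finset.sum_const, Finset.card_univ,
    Fintype.card_coe, ← Finset.smul_sum, ← numOp_eq_sum]
  have e2 : ∑ x : Λ, ∑ y : Λ, eta n x * eta n y = numOp n Λ * numOp n Λ := by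
    rw [numOp_eq_sum, Finset.sum_mul_sum]
  have e3 : ∑ x : Λ, ∑ y : Λ, H.oM n x * H.oP n y = jM n Λ * jP n Λ := by
    rw [jM, jP, Finset.sum_mul_sum]
  have e4 : ∑ x : Λ, ∑ y : Λ, H.oM n y * H.oP n x = jM n Λ * jP n Λ := by
    rw [Finset.sum_comm, e3]
  rw [e2, e3, e4]
  simp only [← Nat.cast_smul_eq_nsmul ℂ]
  rw [Matrix.mul_sub, Matrix.mul_smul, Matrix.mul_one]
  push_cast
  module

theorem casX_eq' : casX n Λ = (numOp n Λ + 1) * (((n * Λ.card : ℕ) : ℂ) • (1 : Matrix _ _ ℂ)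
    - numOp n Λ) - jP n Λ * jM n Λ := by
  rw [jP_jM, casX_eq]
  simp only [Matrix.mul_sub, Matrix.add_mul, Matrix.mul_smul, Matrix.mul_one, Matrix.one_mul]
  module

theorem casX_comm_jM : casX n Λ * jM n Λ = jM n Λ * casX n Λ := by
  have h1 := num_jM (n := n) (Λ := Λ)
  have h2 : casX n Λ * jM n Λ = numOp n Λ * ((((n * Λ.card : ℕ) : ℂ) + 1) • (1 : Matrix _ _ ℂ)
    - numOp n Λ) * jM n Λ - jM n Λ * jP n Λ * jM n Λ := by
    rw [casX_eq, Matrix.sub_mul]
  have h3 : jM n Λ * casX n Λ = jM n Λ * ((numOp n Λ + 1) * (((n * Λ.card : ℕ) : ℂ) •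
      (1 : Matrix _ _ ℂ) - numOp n Λ)) - jM n Λ * jP n Λ * jM n Λ := by
    rw [casX_eq', Matrix.mul_sub, Matrix.mul_assoc]
  rw [h2, h3]
  congr 1
  have h4 : ((((n * Λ.card : ℕ) : ℂ) + 1) • (1 : Matrix _ _ ℂ) - numOp n Λ) * jM n Λ =
      jM n Λ * (((n * Λ.card : ℕ) : ℂ) • (1 : Matrix _ _ ℂ) - numOp n Λ) := by
    rw [Matrix.sub_mul, h1]
    simp only [Matrix.mul_sub, Matrix.smul_mul, Matrix.mul_smul, Matrix.mul_one, Matrix.one_mul]
    module
  rw [Matrix.mul_assoc, h4, ← Matrix.mul_assoc, h1]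
  simp only [Matrix.mul_sub, Matrix.add_mul, Matrix.mul_add, Matrix.mul_smul, Matrix.mul_one,
    Matrix.one_mul, Matrix.mul_assoc]

end Ladder

section Sectors

variable {n : ℕ} {Λ : Finset Site}

/-- Projection on the sector with `j` lowered spins. -/
noncomputable def pj (n : ℕ) (Λ : Finset Site) (j : ℕ) :
    Matrix (Λ → Fin (n + 1)) (Λ → Fin (n + 1)) ℂ :=
  diagonal (fun σ : Λ → Fin (n + 1) => if cntS σ = j then 1 else 0)

theorem pj_num (j : ℕ) : pj n Λ j * numOp n Λ = (j : ℂ) • pj n Λ j := by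
  rw [pj, numOp_eq_diagonal, Matrix.diagonal_mul_diagonal, ← Matrix.diagonal_smul]
  congr 1
  ext σ
  simp only [Pi.smul_apply, smul_eq_mul]
  split_ifs with h
  · rw [h]; ring
  · simp

theorem jM_apply_ne {σ τ : Λ → Fin (n + 1)} (h : jM n Λ σ τ ≠ 0) : cntS σ = cntS τ + 1 := by
  have h1 := num_jM (n := n) (Λ := Λ)
  rw [numOp_eq_diagonal] at h1
  have h2 := congrFun (congrFun h1 σ) τ
  rw [Matrix.diagonal_mul, Matrix.add_apply, Matrix.mul_diagonal] at h2
  have h3 : (((cntS σ : ℕ) : ℂ) - ((cntS τ : ℕ) : ℂ) - 1) * jM n Λ σ τ = 0 := by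
    linear_combination h2
  rcases mul_eq_zero.1 h3 with h4 | h4
  · have h5 : ((cntS σ : ℕ) : ℂ) = ((cntS τ + 1 : ℕ) : ℂ) := by
      push_cast; linear_combination h4
    exact_mod_cast h5
  · exact absurd h4 h

theorem pj_jM (j : ℕ) : pj n Λ (j + 1) * jM n Λ = jM n Λ * pj n Λ j := by
  ext σ τ
  rw [pj, pj, Matrix.diagonal_mul, Matrix.mul_diagonal]
  by_cases h : jM n Λ σ τ = 0
  · rw [h]; simp
  · have h1 := jM_apply_ne h
    by_cases h2 : cntS τ = j
    · rw [if_pos (by omega), if_pos h2]; ring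
    · rw [if_neg (by omega), if_neg h2]; ring

theorem p0_jM : pj n Λ 0 * jM n Λ = 0 := by
  ext σ τ
  rw [pj, Matrix.diagonal_mul, Matrix.zero_apply]
  by_cases h : jM n Λ σ τ = 0
  · rw [h]; simp
  · have h1 := jM_apply_ne h
    rw [if_neg (by omega)]; ring

theorem pj_casX_succ (j : ℕ) : pj n Λ (j + 1) * casX n Λ =
    (((j : ℂ) + 1) * ((n * Λ.card : ℕ) - (j : ℂ))) • pj n Λ (j + 1) -
      jM n Λ * pj n Λ j * jP n Λ := by
  rw [casX_eq, Matrix.mul_sub, ← Matrix.mul_assoc, pj_num, Matrix.smul_mul, Matrix.mul_sub,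
    Matrix.mul_smul, Matrix.mul_one, pj_num, ← Matrix.mul_assoc, pj_jM]
  push_cast
  module

theorem pj_casX (j : ℕ) : pj n Λ j * casX n Λ =
    (((j : ℂ) + 1) * ((n * Λ.card : ℕ) - (j : ℂ))) • pj n Λ j -
      pj n Λ j * (jP n Λ * jM n Λ) := by
  rw [casX_eq', Matrix.mul_sub, ← Matrix.mul_assoc (pj n Λ j) (numOp n Λ + 1), Matrix.mul_add,
    pj_num, Matrix.mul_one, Matrix.add_mul, Matrix.smul_mul, Matrix.mul_sub,
    Matrix.mul_smul, Matrix.mul_one, pj_num]
  push_cast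
  module

theorem p0_casX : pj n Λ 0 * casX n Λ = 0 := by
  rw [casX_eq, Matrix.mul_sub, ← Matrix.mul_assoc, pj_num, ← Matrix.mul_assoc, p0_jM]
  simp

theorem casX_pow_comm (k : ℕ) : casX n Λ ^ k * jM n Λ = jM n Λ * casX n Λ ^ k := by
  induction k with
  | zero => simp
  | succ k ih => rw [pow_succ, Matrix.mul_assoc, casX_comm_jM, ← Matrix.mul_assoc, ih,
      Matrix.mul_assoc]

theorem trace_move {m : Type*} [Fintype m] [DecidableEq m] (A P B Y : Matrix m m ℂ)
    (h : Y * A = A * Y) : trace (A * P * B * Y) = trace (P * (B * A) * Y) := by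
  calc trace (A * P * B * Y) = trace (A * (P * B * Y)) := by simp only [Matrix.mul_assoc]
    _ = trace (P * B * Y * A) := Matrix.trace_mul_comm _ _
    _ = trace (P * B * (Y * A)) := by simp only [Matrix.mul_assoc]
    _ = trace (P * B * (A * Y)) := by rw [h]
    _ = trace (P * (B * A) * Y) := by simp only [Matrix.mul_assoc]

theorem trace_step {m : Type*} [Fintype m] [DecidableEq m] (P X R : Matrix m m ℂ) (c : ℂ)
    (h : P * X = c • P - R) (k : ℕ) :
    trace (P * X ^ (k + 1)) = c * trace (P * X ^ k) - trace (R * X ^ k) := by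
  rw [pow_succ', ← Matrix.mul_assoc, h, Matrix.sub_mul, Matrix.trace_sub,
      Matrix.smul_mul, Matrix.trace_smul, smul_eq_mul]

/-- Trace recursion. -/
theorem trace_pj_pow_succ (j k : ℕ) :
    trace (pj n Λ (j + 1) * casX n Λ ^ (k + 1)) - trace (pj n Λ j * casX n Λ ^ (k + 1)) =
      (((j : ℂ) + 1) * ((n * Λ.card : ℕ) - (j : ℂ))) *
      (trace (pj n Λ (j + 1) * casX n Λ ^ k) - trace (pj n Λ j * casX n Λ ^ k)) := by
  have h1 := trace_step _ _ _ _ (pj_casX_succ (n := n) (Λ := Λ) j) k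
  have h2 := trace_step _ _ _ _ (pj_casX (n := n) (Λ := Λ) j) k
  rw [trace_move _ _ _ _ (casX_pow_comm k)] at h1
  rw [h1, h2]
  ring

theorem trace_pj_pow (j k : ℕ) :
    trace (pj n Λ (j + 1) * casX n Λ ^ k) - trace (pj n Λ j * casX n Λ ^ k) =
      (((j : ℂ) + 1) * ((n * Λ.card : ℕ) - (j : ℂ))) ^ k *
      (trace (pj n Λ (j + 1)) - trace (pj n Λ j)) := by
  induction k with
  | zero => simp
  | succ k ih => rw [trace_pj_pow_succ, ih, pow_succ]; ring

theorem hasSum_trace_exp (P X : Matrix (Λ → Fin (n + 1)) (Λ → Fin (n + 1)) ℂ) (a : ℂ) :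
    HasSum (fun k : ℕ => ((k.factorial : ℂ)⁻¹) * (a ^ k * trace (P * X ^ k)))
      (trace (P * NormedSpace.exp (a • X))) := by
  have hs : HasSum (fun k : ℕ => ((k.factorial : ℂ)⁻¹) • (a • X) ^ k)
      (NormedSpace.exp (a • X)) := by
    open scoped Matrix.Norms.Operator in
    exact NormedSpace.exp_series_hasSum_exp' (𝕂 := ℂ) (a • X)
  have hcont : Continuous fun M : Matrix (Λ → Fin (n + 1)) (Λ → Fin (n + 1)) ℂ =>
      trace (P * M) := (continuous_const.matrix_mul continuous_id).matrix_trace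
  have h := hs.map (AddMonoidHom.mk' (fun M : Matrix (Λ → Fin (n + 1)) (Λ → Fin (n + 1)) ℂ =>
    trace (P * M)) (fun A B => by rw [Matrix.mul_add, Matrix.trace_add])) hcont
  have e : ((AddMonoidHom.mk' (fun M : Matrix (Λ → Fin (n + 1)) (Λ → Fin (n + 1)) ℂ =>
      trace (P * M)) (fun A B => by rw [Matrix.mul_add, Matrix.trace_add])) ∘
      fun k : ℕ => ((k.factorial : ℂ)⁻¹) • (a • X) ^ k) =
      fun k : ℕ => ((k.factorial : ℂ)⁻¹) * (a ^ k * trace (P * X ^ k)) := by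
    ext1 k
    simp only [Function.comp, AddMonoidHom.mk'_apply, smul_pow]
    rw [Matrix.mul_smul, Matrix.mul_smul, Matrix.trace_smul, Matrix.trace_smul, smul_eq_mul,
      smul_eq_mul]
  rw [e] at h
  exact h

theorem hasSum_congr_fun {f g : ℕ → ℂ} {a : ℂ} (h : HasSum f a) (hfg : ∀ k, f k = g k) :
    HasSum g a := by
  rwa [show g = f from funext fun k => (hfg k).symm]

theorem trace_pj_exp (j : ℕ) (a : ℂ) :
    trace (pj n Λ (j + 1) * NormedSpace.exp (a • casX n Λ)) -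
      trace (pj n Λ j * NormedSpace.exp (a • casX n Λ)) =
      Complex.exp (a * (((j : ℂ) + 1) * ((n * Λ.card : ℕ) - (j : ℂ)))) *
      (trace (pj n Λ (j + 1)) - trace (pj n Λ j)) := by
  have h1 := (hasSum_trace_exp (pj n Λ (j + 1)) (casX n Λ) a).sub
    (hasSum_trace_exp (pj n Λ j) (casX n Λ) a)
  have h2 : HasSum (fun k : ℕ => ((k.factorial : ℂ)⁻¹) *
      ((a * (((j : ℂ) + 1) * ((n * Λ.card : ℕ) - (j : ℂ)))) ^ k))
      (Complex.exp (a * (((j : ℂ) + 1) * ((n * Λ.card : ℕ) - (j : ℂ))))) := by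
    rw [Complex.exp_eq_exp_ℂ]
    have := NormedSpace.exp_series_hasSum_exp' (𝕂 := ℂ)
      (a * (((j : ℂ) + 1) * ((n * Λ.card : ℕ) - (j : ℂ))))
    simpa only [smul_eq_mul] using this
  have h3 := h2.mul_right (trace (pj n Λ (j + 1)) - trace (pj n Λ j))
  refine h1.unique ?_
  refine hasSum_congr_fun h3 ?_
  intro k
  have h4 := trace_pj_pow (n := n) (Λ := Λ) j k
  rw [mul_pow]
  linear_combination (-((k.factorial : ℂ)⁻¹ * a ^ k)) * h4

theorem trace_p0_exp (a : ℂ) :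
    trace (pj n Λ 0 * NormedSpace.exp (a • casX n Λ)) = trace (pj n Λ 0) := by
  have h1 := hasSum_trace_exp (pj n Λ 0) (casX n Λ) a
  have h2 : HasSum (fun k : ℕ => ((k.factorial : ℂ)⁻¹) * (a ^ k *
      trace (pj n Λ 0 * casX n Λ ^ k))) (trace (pj n Λ 0)) := by
    have h3 := hasSum_single (f := fun k : ℕ => ((k.factorial : ℂ)⁻¹) * (a ^ k *
      trace (pj n Λ 0 * casX n Λ ^ k))) 0 (fun k hk => by
        obtain ⟨k', rfl⟩ := Nat.exists_eq_succ_of_ne_zero hk
        simp only [Nat.succ_eq_add_one]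
        rw [pow_succ' (casX n Λ), ← Matrix.mul_assoc, p0_casX]
        simp)
    simpa using h3
  exact h1.unique h2

/-- Dimension of the sector. -/
def dimS (n : ℕ) (Λ : Finset Site) (j : ℕ) : ℕ :=
  (Finset.univ.filter fun σ : Λ → Fin (n + 1) => cntS σ = j).card

theorem trace_pj (j : ℕ) : trace (pj n Λ j) = (dimS n Λ j : ℂ) := by
  rw [pj, Matrix.trace_diagonal, dimS, Finset.card_filter]
  push_cast
  rfl

/-- Eigenvalue `c_j = j (2S|Λ| + 1 - j)`. -/
noncomputable def cj (n : ℕ) (Λ : Finset Site) (j : ℕ) : ℝ :=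
  (j : ℝ) * ((n : ℝ) * Λ.card + 1 - j)

theorem trace_pj_exp_le (j : ℕ) (s : ℝ) :
    (trace (pj n Λ j * NormedSpace.exp (((-s : ℝ) : ℂ) • casX n Λ))).re ≤
      ∑ i ∈ Finset.range (j + 1), Real.exp (-s * cj n Λ i) * dimS n Λ i := by
  induction j with
  | zero =>
    rw [trace_p0_exp, trace_pj]
    simp [cj]
  | succ j ih =>
    rw [Finset.sum_range_succ]
    have h := congrArg Complex.re (trace_pj_exp (n := n) (Λ := Λ) j ((-s : ℝ) : ℂ))
    rw [Complex.sub_re] at h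
    have e1 : Complex.exp (((-s : ℝ) : ℂ) * (((j : ℂ) + 1) * ((n * Λ.card : ℕ) - (j : ℂ)))) =
        ((Real.exp (-s * cj n Λ (j + 1)) : ℝ) : ℂ) := by
      rw [Complex.ofReal_exp]
      congr 1
      unfold cj
      push_cast
      ring
    rw [e1, trace_pj, trace_pj] at h
    have e2 : (((Real.exp (-s * cj n Λ (j + 1)) : ℝ) : ℂ) *
        ((dimS n Λ (j + 1) : ℂ) - (dimS n Λ j : ℂ))).re =
        Real.exp (-s * cj n Λ (j + 1)) * ((dimS n Λ (j + 1) : ℝ) - (dimS n Λ j : ℝ)) := by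
      rw [Complex.re_ofReal_mul]
      simp
    rw [e2] at h
    have h3 : 0 ≤ Real.exp (-s * cj n Λ (j + 1)) * (dimS n Λ j : ℝ) := by positivity
    linarith

theorem cntS_le (σ : Λ → Fin (n + 1)) : cntS σ ≤ n * Λ.card := by
  unfold cntS
  calc ∑ x, (σ x : ℕ) ≤ ∑ _x : Λ, n := Finset.sum_le_sum fun x _ => Nat.lt_succ_iff.1 (σ x).2
    _ = n * Λ.card := by simp [mul_comm]

theorem sum_pj : ∑ j ∈ Finset.range (n * Λ.card + 1), pj n Λ j = 1 := by
  ext σ τ
  rw [Matrix.sum_apply]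
  by_cases h : σ = τ
  · subst h
    simp only [pj, Matrix.diagonal_apply_eq, Matrix.one_apply_eq]
    rw [Finset.sum_ite_eq, if_pos]
    rw [Finset.mem_range]
    have := cntS_le σ
    omega
  · simp [pj, h]

theorem sum_dim_eq (f : ℕ → ℝ) {K : ℕ} (hK : n * Λ.card ≤ K) :
    ∑ i ∈ Finset.range (K + 1), f i * dimS n Λ i =
      ∑ σ : Λ → Fin (n + 1), f (cntS σ) := by
  have h1 : ∀ i, f i * dimS n Λ i = ∑ σ : Λ → Fin (n + 1), if cntS σ = i then f i else 0 := by
    intro i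
    rw [dimS, ← Finset.sum_filter, Finset.sum_const, nsmul_eq_mul, mul_comm]
  simp only [h1]
  rw [Finset.sum_comm]
  refine Finset.sum_congr rfl fun σ _ => ?_
  rw [Finset.sum_ite_eq, if_pos]
  rw [Finset.mem_range]
  have := cntS_le σ
  omega

theorem trace_exp_casX_le (s : ℝ) :
    (trace (NormedSpace.exp (((-s : ℝ) : ℂ) • casX n Λ))).re ≤
      ((n : ℝ) * Λ.card + 1) * ∑ σ : Λ → Fin (n + 1), Real.exp (-s * cj n Λ (cntS σ)) := by
  have h1 : (trace (NormedSpace.exp (((-s : ℝ) : ℂ) • casX n Λ))).re =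
      ∑ j ∈ Finset.range (n * Λ.card + 1),
        (trace (pj n Λ j * NormedSpace.exp (((-s : ℝ) : ℂ) • casX n Λ))).re := by
    rw [← Complex.re_sum, ← Matrix.trace_sum, ← Finset.sum_mul, sum_pj, Matrix.one_mul]
  rw [h1]
  calc ∑ j ∈ Finset.range (n * Λ.card + 1),
        (trace (pj n Λ j * NormedSpace.exp (((-s : ℝ) : ℂ) • casX n Λ))).re ≤
      ∑ _j ∈ Finset.range (n * Λ.card + 1),
        ∑ σ : Λ → Fin (n + 1), Real.exp (-s * cj n Λ (cntS σ)) := by
        refine Finset.sum_le_sum fun j hj => (trace_pj_exp_le j s).trans ?_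
        rw [← sum_dim_eq (fun i => Real.exp (-s * cj n Λ i)) le_rfl]
        refine Finset.sum_le_sum_of_subset_of_nonneg ?_ fun i _ _ => by positivity
        intro i hi
        rw [Finset.mem_range] at hi hj ⊢
        omega
    _ = _ := by
        rw [Finset.sum_const, Finset.card_range, nsmul_eq_mul]
        push_cast
        rfl

/-- Bound of the configuration sum by a product. -/
theorem sum_exp_cj_le {s : ℝ} (hs : 0 ≤ s) {z : ℝ}
    (hz : z = Real.exp (-s * ((n : ℝ) * Λ.card / 2))) :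
    ∑ σ : Λ → Fin (n + 1), Real.exp (-s * cj n Λ (cntS σ)) ≤
      2 * (∑ j ∈ Finset.range (n + 1), z ^ j) ^ Λ.card := by
  have hz0 : 0 < z := by rw [hz]; exact Real.exp_pos _
  have hprod : ∑ σ : Λ → Fin (n + 1), z ^ (cntS σ) = (∑ j ∈ Finset.range (n + 1), z ^ j) ^ Λ.card := by
    have h1 : ∀ σ : Λ → Fin (n + 1), z ^ (cntS σ) = ∏ x, z ^ ((σ x : Fin (n + 1)) : ℕ) := by
      intro σ
      rw [cntS, Finset.prod_pow_eq_pow_sum]
    simp only [h1]
    rw [Finset.sum_range (fun j => z ^ j)]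
    have h2 := Finset.prod_univ_sum (fun _ : Λ => (Finset.univ : Finset (Fin (n + 1))))
      (fun (_ : Λ) (j : Fin (n + 1)) => z ^ (j : ℕ))
    rw [Fintype.piFinset_univ, Finset.prod_const, Finset.card_univ, Fintype.card_coe] at h2
    exact h2.symm
  have hrev : ∑ σ : Λ → Fin (n + 1), z ^ (n * Λ.card - cntS σ) =
      ∑ σ : Λ → Fin (n + 1), z ^ (cntS σ) := by
    rw [← Equiv.sum_comp (Equiv.arrowCongr (Equiv.refl Λ) (Fin.revPerm (n := n + 1)))
      (fun σ => z ^ (cntS σ))]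
    refine Finset.sum_congr rfl fun σ _ => ?_
    congr 1
    have h3 : cntS (Equiv.arrowCongr (Equiv.refl Λ) (Fin.revPerm (n := n + 1)) σ) + cntS σ =
        n * Λ.card := by
      unfold cntS
      rw [← Finset.sum_add_distrib]
      have : ∀ x : Λ, ((Equiv.arrowCongr (Equiv.refl Λ) (Fin.revPerm (n := n + 1)) σ x :
          Fin (n + 1)) : ℕ) + (σ x : ℕ) = n := by
        intro x
        have h4 : Equiv.arrowCongr (Equiv.refl Λ) (Fin.revPerm (n := n + 1)) σ x =
          Fin.rev (σ x) := rfl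
        rw [h4, Fin.val_rev]
        have := (σ x).2
        omega
      simp only [this]
      simp [mul_comm]
    omega
  calc ∑ σ : Λ → Fin (n + 1), Real.exp (-s * cj n Λ (cntS σ)) ≤
      ∑ σ : Λ → Fin (n + 1), (z ^ (cntS σ) + z ^ (n * Λ.card - cntS σ)) := by
        refine Finset.sum_le_sum fun σ _ => ?_
        have hk := cntS_le σ
        generalize cntS σ = k at hk
        have hkR : (k : ℝ) ≤ (n : ℝ) * Λ.card := by exact_mod_cast hk
        have hk0 : (0 : ℝ) ≤ k := Nat.cast_nonneg k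
        rcases le_total (2 * (k : ℝ)) ((n : ℝ) * Λ.card) with h | h
        · refine le_trans ?_ (le_add_of_nonneg_right (by positivity))
          rw [hz, ← Real.exp_nat_mul, Real.exp_le_exp]
          unfold cj
          have h5 : (k : ℝ) * ((n : ℝ) * Λ.card / 2) ≤ (k : ℝ) * ((n : ℝ) * Λ.card + 1 - k) :=
            mul_le_mul_of_nonneg_left (by linarith) hk0
          nlinarith
        · refine le_trans ?_ (le_add_of_nonneg_left (by positivity))
          rw [hz, ← Real.exp_nat_mul, Real.exp_le_exp]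
          unfold cj
          rw [Nat.cast_sub hk]
          push_cast
          have h5 : ((n : ℝ) * Λ.card - k) * ((n : ℝ) * Λ.card / 2) ≤
              (k : ℝ) * ((n : ℝ) * Λ.card + 1 - k) := by
            have h6 : ((n : ℝ) * Λ.card - k) * ((n : ℝ) * Λ.card / 2) ≤
                ((n : ℝ) * Λ.card - k) * k :=
              mul_le_mul_of_nonneg_left (by linarith) (by linarith)
            nlinarith
          nlinarith
    _ = _ := by
        rw [Finset.sum_add_distrib, hrev, hprod]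
        ring

end Sectors

end Vale.Agent.P361.B
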