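import Vale.Agent.P361.B.Defs
import Vale.Agent.P361.B.Diag
import Vale.Agent.P361.B.LowPart

set_option linter.unusedSectionVars false

/-!
Part B: eigenvectors of `hT` with fixed number, in occupation number form.
-/

namespace Vale.Agent.P361.B

open Matrix Finset
open Vale.Agent.P361.H (oA oB dotOp schwA schwB siteOp_apply siteOp_comm fin_le isNN_ne isNN_symm)

variable {n : ℕ} {Λ : Finset Site}

/-- Extension by zero to all occupation numbers. -/
noncomputable def extF {n : ℕ} {Λ : Finset Site} (f : (Λ → Fin (n + 1)) → ℝ) (ζ : Λ → ℕ) : ℝ :=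
  if h : ∀ x, ζ x ≤ n then f (fun x => ⟨ζ x, Nat.lt_succ_of_le (h x)⟩) else 0

/-- Occupation numbers of a configuration. -/
def valF {n : ℕ} {Λ : Finset Site} (σ : Λ → Fin (n + 1)) (x : Λ) : ℕ := (σ x : ℕ)

lemma extF_valF (f : (Λ → Fin (n + 1)) → ℝ) (σ : Λ → Fin (n + 1)) : extF f (valF σ) = f σ := by
  unfold extF
  have h : ∀ x, valF σ x ≤ n := fun x => Nat.lt_succ_iff.1 (σ x).2
  rw [dif_pos h]
  rfl

lemma extF_out (f : (Λ → Fin (n + 1)) → ℝ) (ζ : Λ → ℕ) (h : ζ ∉ occBox Λ n) : extF f ζ = 0 := by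
  unfold extF
  rw [mem_occBox] at h
  rw [dif_neg h]

lemma sum_occBox (G : (Λ → ℕ) → ℝ) :
    ∑ ζ ∈ occBox Λ n, G ζ = ∑ σ : Λ → Fin (n + 1), G (valF σ) := by
  symm
  refine Finset.sum_bij' (fun σ _ => valF σ)
    (fun ζ hζ => fun x => ⟨ζ x, Nat.lt_succ_of_le (mem_occBox.1 hζ x)⟩) ?_ ?_ ?_ ?_ ?_
  · intro σ _
    rw [mem_occBox]
    exact fun x => Nat.lt_succ_iff.1 (σ x).2
  · intro ζ _; exact Finset.mem_univ _
  · intro σ _; rfl
  · intro ζ _; rfl
  · intro σ _; rfl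

lemma prod_one_self (x : Λ) (σ : Λ → Fin (n + 1)) :
    ∏ z ∈ Finset.univ.erase x, (1 : Matrix (Fin (n + 1)) (Fin (n + 1)) ℂ) (σ z) (σ z) = 1 :=
  Finset.prod_eq_one fun z _ => Matrix.one_apply_eq _

lemma prod_one_ne (x : Λ) (σ τ : Λ → Fin (n + 1)) (z : Λ) (hz : z ≠ x) (h : σ z ≠ τ z) :
    ∏ z ∈ Finset.univ.erase x, (1 : Matrix (Fin (n + 1)) (Fin (n + 1)) ℂ) (σ z) (τ z) = 0 :=
  Finset.prod_eq_zero (i := z) (Finset.mem_erase.2 ⟨hz, Finset.mem_univ z⟩) (Matrix.one_apply_ne h)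

lemma oB_apply (y : Λ) (σ τ : Λ → Fin (n + 1)) : oB n y σ τ = schwB n (σ y) (τ y) *
    ∏ z ∈ Finset.univ.erase y, (1 : Matrix (Fin (n + 1)) (Fin (n + 1)) ℂ) (σ z) (τ z) :=
  siteOp_apply y _ σ τ

lemma oA_apply (y : Λ) (σ τ : Λ → Fin (n + 1)) : oA n y σ τ = schwA n (σ y) (τ y) *
    ∏ z ∈ Finset.univ.erase y, (1 : Matrix (Fin (n + 1)) (Fin (n + 1)) ℂ) (σ z) (τ z) :=
  siteOp_apply y _ σ τ

lemma oB_mulVec (y : Λ) (f : (Λ → Fin (n + 1)) → ℝ) (σ : Λ → Fin (n + 1)) :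
    (oB n y *ᵥ fun τ => (f τ : ℂ)) σ =
      ((Real.sqrt ((valF σ y : ℝ) + 1) * extF f (valF σ + Pi.single y 1) : ℝ) : ℂ) := by
  rw [Matrix.mulVec, dotProduct]
  by_cases h : (σ y : ℕ) < n
  · set τ0 : Λ → Fin (n + 1) := Function.update σ y ⟨(σ y : ℕ) + 1, by omega⟩ with hτ0
    have hv : valF τ0 = valF σ + Pi.single y 1 := by
      ext x
      by_cases hx : x = y
      · subst hx; simp [hτ0, valF]
      · simp [hτ0, valF, hx]
    rw [← hv, extF_valF, Finset.sum_eq_single τ0]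
    · rw [oB_apply]
      have h1 : ∏ z ∈ Finset.univ.erase y, (1 : Matrix (Fin (n + 1)) (Fin (n + 1)) ℂ) (σ z) (τ0 z) =
          1 := by
        refine Finset.prod_eq_one fun z hz => ?_
        have : τ0 z = σ z := by simp [hτ0, Finset.ne_of_mem_erase hz]
        rw [this, Matrix.one_apply_eq]
      rw [h1, mul_one]
      have h2 : schwB n (σ y) (τ0 y) = ((Real.sqrt ((valF σ y : ℝ) + 1) : ℝ) : ℂ) := by
        simp only [schwB, Matrix.of_apply]
        have : (τ0 y : ℕ) = (σ y : ℕ) + 1 := by simp [hτ0]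
        rw [if_pos this, this]
        push_cast
        rfl
      rw [h2]; push_cast; ring
    · intro τ _ hτ
      rw [oB_apply]
      by_cases hall : ∀ z, z ≠ y → τ z = σ z
      · have hy : (τ y : ℕ) ≠ (σ y : ℕ) + 1 := by
          intro hy
          apply hτ
          ext z
          by_cases hz : z = y
          · subst hz; simp [hτ0, hy]
          · simp [hτ0, hz, hall z hz]
        have : schwB n (σ y) (τ y) = 0 := by
          simp only [schwB, Matrix.of_apply, if_neg hy]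
        rw [this]; simp
      · push Not at hall
        obtain ⟨z, hz, hne⟩ := hall
        rw [prod_one_ne y σ τ z hz (Ne.symm hne)]
        simp
    · intro h'; exact absurd (Finset.mem_univ _) h'
  · have hout : extF f (valF σ + Pi.single y 1) = 0 := by
      apply extF_out
      rw [mem_occBox]
      push Not
      refine ⟨y, ?_⟩
      have := (σ y).2
      simp only [Pi.add_apply, Pi.single_eq_same, valF]
      omega
    rw [hout, mul_zero, Complex.ofReal_zero]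
    refine Finset.sum_eq_zero fun τ _ => ?_
    rw [oB_apply]
    have : schwB n (σ y) (τ y) = 0 := by
      simp only [schwB, Matrix.of_apply]
      rw [if_neg]
      have := (τ y).2
      omega
    rw [this]; simp

lemma oA_mulVec (x : Λ) (g : (Λ → Fin (n + 1)) → ℂ) (σ : Λ → Fin (n + 1)) :
    (oA n x *ᵥ g) σ = ((Real.sqrt ((n : ℝ) - valF σ x) : ℝ) : ℂ) * g σ := by
  rw [Matrix.mulVec, dotProduct, Finset.sum_eq_single σ]
  · rw [oA_apply, prod_one_self, mul_one]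
    simp only [schwA, Matrix.diagonal_apply_eq, valF]
  · intro τ _ hτ
    rw [oA_apply]
    by_cases hx : τ x = σ x
    · obtain ⟨z, hz⟩ := Function.ne_iff.1 hτ
      have hzx : z ≠ x := fun h => hz (h ▸ hx)
      rw [prod_one_ne x σ τ z hzx (Ne.symm hz)]
      simp
    · simp only [schwA]
      rw [Matrix.diagonal_apply_ne _ (Ne.symm hx)]; simp
  · intro h'; exact absurd (Finset.mem_univ _) h'

lemma edge_mulVec {x y : Λ} (hxy : x ≠ y) (f : (Λ → Fin (n + 1)) → ℝ) (σ : Λ → Fin (n + 1)) :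
    ((oA n x * oB n y - oB n x * oA n y) *ᵥ fun τ => (f τ : ℂ)) σ =
      ((edgeT n x y (extF f) (valF σ) : ℝ) : ℂ) := by
  have hc : oB n x * oA n y = oA n y * oB n x := siteOp_comm hxy _ _
  rw [hc, Matrix.sub_mulVec, Pi.sub_apply, ← Matrix.mulVec_mulVec, ← Matrix.mulVec_mulVec,
    oA_mulVec, oA_mulVec, oB_mulVec, oB_mulVec, edgeT]
  push_cast
  ring

/-- The energy form. -/
noncomputable def eForm (n : ℕ) (Λ : Finset Site) (f g : (Λ → ℕ) → ℝ) : ℝ :=
  1 / 4 * ∑ x : Λ, ∑ y : Λ, if IsNN x.1 y.1 then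
    ∑ ζ ∈ occBox Λ n, edgeT n x y f ζ * edgeT n x y g ζ else 0

lemma edge_form {x y : Λ} (hxy : x ≠ y) (f g : (Λ → Fin (n + 1)) → ℝ) :
    (fun σ => (f σ : ℂ)) ⬝ᵥ (((((n : ℂ) / 2) ^ 2) • (1 : Matrix _ _ ℂ) - dotOp n x y) *ᵥ
      fun σ => (g σ : ℂ)) =
    ((1 / 2 * ∑ ζ ∈ occBox Λ n, edgeT n x y (extF f) ζ * edgeT n x y (extF g) ζ : ℝ) : ℂ) := by
  have h1 := H.dot_sos (n := n) hxy
  set T : Matrix (Λ → Fin (n + 1)) (Λ → Fin (n + 1)) ℂ :=
    oA n x * oB n y - oB n x * oA n y with hT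
  have h2 : (((n : ℂ) / 2) ^ 2) • (1 : Matrix (Λ → Fin (n + 1)) (Λ → Fin (n + 1)) ℂ) - dotOp n x y =
      (1 / 2 : ℂ) • (Tᴴ * T) := by
    rw [h1, smul_sub, smul_smul, smul_smul]
    congr 1
    · congr 1; ring
    · norm_num
  rw [h2, Matrix.smul_mulVec, dotProduct_smul, ← Matrix.mulVec_mulVec, Matrix.dotProduct_mulVec]
  have h3 : (fun σ => (f σ : ℂ)) ᵥ* Tᴴ = star (T *ᵥ fun σ => (f σ : ℂ)) := by
    rw [Matrix.star_mulVec]
    congr 1
    ext σ
    simp
  rw [h3, dotProduct, smul_eq_mul, sum_occBox]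
  push_cast
  congr 1
  refine Finset.sum_congr rfl fun σ _ => ?_
  rw [Pi.star_apply, hT, edge_mulVec hxy, edge_mulVec hxy]
  simp

lemma hT_form (f g : (Λ → Fin (n + 1)) → ℝ) :
    (fun σ => (f σ : ℂ)) ⬝ᵥ (hT n Λ *ᵥ fun σ => (g σ : ℂ)) =
      ((eForm n Λ (extF f) (extF g) : ℝ) : ℂ) := by
  rw [hT, Matrix.smul_mulVec, dotProduct_smul, Matrix.sum_mulVec, dotProduct_sum, smul_eq_mul]
  have h1 : ∀ x : Λ, (fun σ => (f σ : ℂ)) ⬝ᵥ ((∑ y : Λ, if IsNN x.1 y.1 then
      (((n : ℂ) / 2) ^ 2) • (1 : Matrix _ _ ℂ) - H.dotOp n x y else 0) *ᵥ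
      fun σ => (g σ : ℂ)) = ((∑ y : Λ, if IsNN x.1 y.1 then
        (1 / 2 * ∑ ζ ∈ occBox Λ n, edgeT n x y (extF f) ζ * edgeT n x y (extF g) ζ : ℝ) else 0 : ℝ)
          : ℂ) := by
    intro x
    rw [Matrix.sum_mulVec, dotProduct_sum]
    push_cast
    refine Finset.sum_congr rfl fun y _ => ?_
    split_ifs with hxy
    · rw [edge_form (isNN_ne hxy)]
    · simp
  simp only [h1]
  unfold eForm
  have h2 : (1 / 4 : ℝ) * ∑ x : Λ, ∑ y : Λ, (if IsNN x.1 y.1 then
      ∑ ζ ∈ occBox Λ n, edgeT n x y (extF f) ζ * edgeT n x y (extF g) ζ else 0) =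
      1 / 2 * ∑ x : Λ, ∑ y : Λ, (if IsNN x.1 y.1 then
      (1 / 2 * ∑ ζ ∈ occBox Λ n, edgeT n x y (extF f) ζ * edgeT n x y (extF g) ζ) else 0) := by
    rw [Finset.mul_sum, Finset.mul_sum]
    refine Finset.sum_congr rfl fun x _ => ?_
    rw [Finset.mul_sum, Finset.mul_sum]
    refine Finset.sum_congr rfl fun y _ => ?_
    split_ifs
    · ring
    · ring
  rw [h2]
  push_cast
  rfl

/-- Real matrix of `hT`. -/
noncomputable def hR (n : ℕ) (Λ : Finset Site) : Matrix (Λ → Fin (n + 1)) (Λ → Fin (n + 1)) ℝ :=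
  Matrix.of fun σ τ => eForm n Λ (extF (Pi.single σ 1)) (extF (Pi.single τ 1))

lemma hT_eq_map : hT n Λ = (hR n Λ).map (fun r : ℝ => (r : ℂ)) := by
  ext σ τ
  rw [Matrix.map_apply, hR, Matrix.of_apply, ← hT_form]
  have e1 : ∀ ρ : Λ → Fin (n + 1), (fun σ' => ((Pi.single ρ (1 : ℝ) : (Λ → Fin (n + 1)) → ℝ) σ' : ℂ)) =
      Pi.single ρ (1 : ℂ) := by
    intro ρ
    ext σ'
    by_cases h : σ' = ρ
    · subst h; simp
    · simp [h]
  rw [e1, e1]
  simp

lemma eForm_symm (f g : (Λ → ℕ) → ℝ) : eForm n Λ f g = eForm n Λ g f := by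
  unfold eForm
  congr 1
  refine Finset.sum_congr rfl fun x _ => Finset.sum_congr rfl fun y _ => ?_
  by_cases hxy : IsNN x.1 y.1
  · rw [if_pos hxy, if_pos hxy]
    exact Finset.sum_congr rfl fun ζ _ => mul_comm _ _
  · rw [if_neg hxy, if_neg hxy]

lemma hR_symm : (hR n Λ)ᵀ = hR n Λ := by
  ext σ τ
  rw [Matrix.transpose_apply]
  exact eForm_symm _ _

lemma hR_form (f g : (Λ → Fin (n + 1)) → ℝ) :
    f ⬝ᵥ (hR n Λ *ᵥ g) = eForm n Λ (extF f) (extF g) := by
  have h := hT_form (n := n) f g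
  rw [hT_eq_map] at h
  have h2 : (fun σ => (f σ : ℂ)) ⬝ᵥ ((hR n Λ).map (fun r : ℝ => (r : ℂ)) *ᵥ fun σ => (g σ : ℂ)) =
      ((f ⬝ᵥ (hR n Λ *ᵥ g) : ℝ) : ℂ) := by
    simp only [dotProduct, Matrix.mulVec, Matrix.map_apply]
    push_cast
    rfl
  rw [h2] at h
  exact_mod_cast h

/-- Number of magnons. -/
def totF {n : ℕ} {Λ : Finset Site} (σ : Λ → Fin (n + 1)) : ℕ := ∑ x, valF σ x

lemma extF_single {σ : Λ → Fin (n + 1)} {ζ : Λ → ℕ}
    (h : extF (Pi.single σ (1 : ℝ)) ζ ≠ 0) : ζ = valF σ := by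
  unfold extF at h
  by_cases h1 : ∀ x, ζ x ≤ n
  · rw [dif_pos h1] at h
    have h2 : (fun x => (⟨ζ x, Nat.lt_succ_of_le (h1 x)⟩ : Fin (n + 1))) = σ := by
      by_contra hne
      apply h
      simp [hne]
    ext x
    rw [← h2]
    rfl
  · rw [dif_neg h1] at h
    exact absurd rfl h

lemma edgeT_single {σ : Λ → Fin (n + 1)} {x y : Λ} {ζ : Λ → ℕ}
    (h : edgeT n x y (extF (Pi.single σ (1 : ℝ))) ζ ≠ 0) : ∑ z, ζ z + 1 = totF σ := by
  have hs : ∀ w : Λ, ∑ z, (ζ + Pi.single w 1 : Λ → ℕ) z = ∑ z, ζ z + 1 := by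
    intro w
    simp only [Pi.add_apply, Finset.sum_add_distrib]
    rw [Finset.sum_pi_single']
    simp
  by_cases h1 : extF (Pi.single σ (1 : ℝ)) (ζ + Pi.single y 1) = 0
  · by_cases h2 : extF (Pi.single σ (1 : ℝ)) (ζ + Pi.single x 1) = 0
    · exfalso; apply h; rw [edgeT, h1, h2]; ring
    · rw [← hs x, extF_single h2]; rfl
  · rw [← hs y, extF_single h1]; rfl

lemma hR_comm (σ τ : Λ → Fin (n + 1)) (h : totF σ ≠ totF τ) : hR n Λ σ τ = 0 := by
  rw [hR, Matrix.of_apply, eForm]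
  refine mul_eq_zero_of_right _ (Finset.sum_eq_zero fun x _ => Finset.sum_eq_zero fun y _ => ?_)
  split_ifs
  · refine Finset.sum_eq_zero fun ζ _ => ?_
    by_contra hne
    have h1 := left_ne_zero_of_mul hne
    have h2 := right_ne_zero_of_mul hne
    exact h ((edgeT_single h1).symm.trans (edgeT_single h2))
  · rfl

lemma numOp_eq : numOp n Λ = (diagonal fun σ : Λ → Fin (n + 1) => (totF σ : ℝ)).map
    (fun r : ℝ => (r : ℂ)) := by
  have h1 : ∀ x : Λ, ((n : ℂ) / 2) • (1 : Matrix (Λ → Fin (n + 1)) (Λ → Fin (n + 1)) ℂ) -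
      H.oZ n x = diagonal fun σ => ((valF σ x : ℕ) : ℂ) := by
    intro x
    rw [← H.siteOp_one x, ← H.siteOp_smul, ← H.siteOp_sub]
    ext σ τ
    rw [siteOp_apply]
    by_cases hστ : σ = τ
    · subst hστ
      rw [prod_one_self, Matrix.diagonal_apply_eq, mul_one, Matrix.sub_apply, Matrix.smul_apply,
        Matrix.one_apply_eq, spinZ, Matrix.diagonal_apply_eq, valF]
      simp
    · rw [Matrix.diagonal_apply_ne _ hστ]
      by_cases hx : σ x = τ x
      · obtain ⟨z, hz⟩ := Function.ne_iff.1 hστ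
        have hzx : z ≠ x := fun h => hz (h ▸ hx)
        rw [prod_one_ne x σ τ z hzx hz, mul_zero]
      · rw [Matrix.sub_apply, Matrix.smul_apply, Matrix.one_apply_ne hx, spinZ,
          Matrix.diagonal_apply_ne _ hx]
        simp
  rw [numOp]
  simp only [h1]
  ext σ τ
  rw [Matrix.sum_apply, Matrix.map_apply]
  by_cases hστ : σ = τ
  · subst hστ
    simp only [Matrix.diagonal_apply_eq, totF]
    push_cast
    rfl
  · simp only [Matrix.diagonal_apply_ne _ hστ]
    simp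

/-- Eigenbasis of `hT` with magnon numbers, and the partition function. -/
theorem exists_eigs (n : ℕ) (Λ : Finset Site) :
    ∃ (E : (Λ → Fin (n + 1)) → ℝ) (Nn : (Λ → Fin (n + 1)) → ℕ)
      (ψ : (Λ → Fin (n + 1)) → (Λ → ℕ) → ℝ),
      (∀ i, IsEig n (fun x y : Λ => IsNN x.1 y.1) (Nn i) (E i) (ψ i)) ∧ (∀ i, 0 ≤ E i) ∧
      (∀ i j, i ≠ j → ∑ ζ ∈ occBox Λ n, ψ i ζ * ψ j ζ = 0) ∧
      ∀ β t : ℝ, Zt n Λ β t = ∑ i, Real.exp (-(β * E i + t * Nn i)) := by
  obtain ⟨U, E, Nn, h1, h2, h3, h4⟩ := joint_diag (hR n Λ) hR_symm totF hR_comm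
  have hinner : ∀ (f g : (Λ → Fin (n + 1)) → ℝ),
      ∑ ζ ∈ occBox Λ n, extF f ζ * extF g ζ = ∑ σ, f σ * g σ := by
    intro f g
    rw [sum_occBox]
    exact Finset.sum_congr rfl fun σ _ => by rw [extF_valF, extF_valF]
  have horth : ∀ i j, ∑ ζ ∈ occBox Λ n, extF (fun σ => U σ i) ζ * extF (fun σ => U σ j) ζ =
      if i = j then 1 else 0 := by
    intro i j
    rw [hinner]
    have := congrFun (congrFun h1 i) j
    rw [Matrix.mul_apply] at this
    simp only [Matrix.transpose_apply, Matrix.one_apply] at this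
    exact this
  have heig : ∀ i, hR n Λ *ᵥ (fun σ => U σ i) = fun σ => E i * U σ i := by
    intro i
    have h5 : hR n Λ * U = U * diagonal E := by
      conv_lhs => rw [h3]
      rw [Matrix.mul_assoc, h1, Matrix.mul_one]
    ext σ
    have h6 := congrFun (congrFun h5 σ) i
    rw [Matrix.mul_diagonal, Matrix.mul_apply] at h6
    rw [Matrix.mulVec, dotProduct, h6]; ring
  have hweak : ∀ i (f : (Λ → Fin (n + 1)) → ℝ), eForm n Λ (extF f) (extF fun σ => U σ i) =
      E i * ∑ ζ ∈ occBox Λ n, extF f ζ * extF (fun σ => U σ i) ζ := by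
    intro i f
    rw [← hR_form, heig, hinner, dotProduct, Finset.mul_sum]
    exact Finset.sum_congr rfl fun σ _ => by ring
  refine ⟨E, Nn, fun i => extF (fun σ => U σ i), ?_, ?_, ?_, ?_⟩
  · intro i
    refine ⟨fun ζ hζ => extF_out _ ζ hζ, ?_, ?_, ?_⟩
    · intro ζ hζ
      by_cases hb : ζ ∈ occBox Λ n
      · rw [mem_occBox] at hb
        change extF (fun σ => U σ i) ζ = 0
        unfold extF
        rw [dif_pos hb]
        exact h4 _ i hζ
      · exact extF_out _ ζ hb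
    · have := horth i i
      rw [if_pos rfl] at this
      rw [← this]
      exact Finset.sum_congr rfl fun ζ _ => by ring
    · intro X
      have hX : ∀ ζ, X ζ * extF (fun σ => U σ i) ζ = extF (fun σ => X (valF σ) * U σ i) ζ := by
        intro ζ
        unfold extF
        split_ifs with hb
        · rfl
        · ring
      have h5 := hweak i (fun σ => X (valF σ) * U σ i)
      have h6 : ∑ ζ ∈ occBox Λ n, X ζ * extF (fun σ => U σ i) ζ ^ 2 =
          ∑ ζ ∈ occBox Λ n, extF (fun σ => X (valF σ) * U σ i) ζ * extF (fun σ => U σ i) ζ :=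
        Finset.sum_congr rfl fun ζ _ => by rw [← hX]; ring
      rw [h6, ← h5, eForm]
      simp only [hX]
  · intro i
    have h5 := hweak i (fun σ => U σ i)
    have h6 := horth i i
    rw [if_pos rfl] at h6
    rw [h6, mul_one] at h5
    rw [← h5, eForm]
    refine mul_nonneg (by norm_num) (Finset.sum_nonneg fun x _ => Finset.sum_nonneg fun y _ => ?_)
    split_ifs
    · exact Finset.sum_nonneg fun ζ _ => mul_self_nonneg _
    · exact le_rfl
  · intro i j hij
    have := horth i j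
    rwa [if_neg hij] at this
  · intro β t
    have hnum : diagonal (fun σ : Λ → Fin (n + 1) => (totF σ : ℝ)) =
        U * diagonal (fun j => (Nn j : ℝ)) * Uᵀ := by
      have h5 : diagonal (fun σ : Λ → Fin (n + 1) => (totF σ : ℝ)) * U =
          U * diagonal (fun j => (Nn j : ℝ)) := by
        ext σ j
        rw [Matrix.diagonal_mul, Matrix.mul_diagonal]
        by_cases hij : totF σ = Nn j
        · rw [hij]; ring
        · rw [h4 σ j hij]; ring
      rw [← h5, Matrix.mul_assoc, h2, Matrix.mul_one]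
    have hmat : -((β : ℂ) • hT n Λ + (t : ℂ) • numOp n Λ) =
        (U * diagonal (fun i => -(β * E i + t * Nn i)) * Uᵀ).map (fun r : ℝ => (r : ℂ)) := by
      have h5 : U * diagonal (fun i => -(β * E i + t * Nn i)) * Uᵀ =
          -(β • hR n Λ + t • diagonal (fun σ : Λ → Fin (n + 1) => (totF σ : ℝ))) := by
        rw [hnum]
        conv_rhs => rw [h3]
        have : (diagonal fun i => -(β * E i + t * (Nn i : ℝ))) =
            -(β • diagonal E + t • diagonal (fun j => (Nn j : ℝ))) := by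
          rw [← Matrix.diagonal_smul, ← Matrix.diagonal_smul, Matrix.diagonal_add,
            ← Matrix.diagonal_neg]
          rfl
        rw [this]
        simp only [Matrix.mul_neg, Matrix.neg_mul, Matrix.mul_add, Matrix.add_mul, Matrix.mul_smul,
          Matrix.smul_mul]
      rw [h5, hT_eq_map, numOp_eq]
      ext σ τ
      simp only [Matrix.map_apply, Matrix.neg_apply, Matrix.add_apply, Matrix.smul_apply,
        smul_eq_mul]
      push_cast
      rfl
    rw [Zt, hmat, trace_exp_real_conj U h1 h2, Complex.ofReal_re]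

end Vale.Agent.P361.B
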