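import Vale.Agent.P361.B.Defs
import Vale.Agent.P361.Mag
import Vale.Agent.P361.H.Fourier

/-!
Part B, steps D1 and D3: subadditivity of `log Zt` and comparison of the pressure with one cube.
-/

namespace Vale.Agent.P361.B

open Matrix Finset Filter Topology
open scoped ComplexOrder Kronecker

set_option linter.unusedSectionVars false

section General

variable {α β γ : Type*} [Fintype α] [DecidableEq α] [Fintype β] [DecidableEq β]
  [Fintype γ] [DecidableEq γ]

/-- `tr exp (X₁ ⊗ 1 + 1 ⊗ X₂) = tr e^{X₁} tr e^{X₂}`. -/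
theorem trace_exp_kron {X₁ : Matrix α α ℂ} {X₂ : Matrix β β ℂ}
    (h₁ : X₁.IsHermitian) (h₂ : X₂.IsHermitian) :
    trace (NormedSpace.exp (X₁ ⊗ₖ (1 : Matrix β β ℂ) + (1 : Matrix α α ℂ) ⊗ₖ X₂)) =
      ((∑ p : α × β, Real.exp (h₁.eigenvalues p.1 + h₂.eigenvalues p.2) : ℝ) : ℂ) := by
  set U₁ := (h₁.eigenvectorUnitary : Matrix α α ℂ) with hU₁
  set U₂ := (h₂.eigenvectorUnitary : Matrix β β ℂ) with hU₂
  have hUU₁ : star U₁ * U₁ = 1 := Unitary.coe_star_mul_self _
  have hUU₂ : star U₂ * U₂ = 1 := Unitary.coe_star_mul_self _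
  set W := U₁ ⊗ₖ U₂ with hW
  have hstarW : star W = star U₁ ⊗ₖ star U₂ := by
    rw [hW, Matrix.star_eq_conjTranspose, Matrix.conjTranspose_kronecker]; rfl
  have hWW : star W * W = 1 := by
    rw [hstarW, hW, ← Matrix.mul_kronecker_mul, hUU₁, hUU₂, Matrix.one_kronecker_one]
  have hWW' : W * star W = 1 := mul_eq_one_comm.1 hWW
  have hinv : star W = W⁻¹ := (Matrix.inv_eq_left_inv hWW).symm
  have hunit : IsUnit W := ⟨⟨W, star W, hWW', hWW⟩, rfl⟩
  have e3 : star W * (X₁ ⊗ₖ (1 : Matrix β β ℂ) + (1 : Matrix α α ℂ) ⊗ₖ X₂) * W =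
      diagonal (fun p : α × β => (h₁.eigenvalues p.1 : ℂ) + (h₂.eigenvalues p.2 : ℂ)) := by
    rw [Matrix.mul_add, Matrix.add_mul, hstarW, hW, ← Matrix.mul_kronecker_mul,
      ← Matrix.mul_kronecker_mul, ← Matrix.mul_kronecker_mul, ← Matrix.mul_kronecker_mul,
      Matrix.mul_one, Matrix.mul_one, hUU₁, hUU₂, diag_conj_eigen h₁, diag_conj_eigen h₂]
    ext p q
    obtain ⟨p1, p2⟩ := p
    obtain ⟨q1, q2⟩ := q
    simp only [Matrix.add_apply, Matrix.kroneckerMap_apply, Matrix.diagonal_apply,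
      Matrix.one_apply, Prod.mk.injEq]
    by_cases h1 : p1 = q1 <;> by_cases h2 : p2 = q2 <;> simp [h1, h2]
  have e4 : X₁ ⊗ₖ (1 : Matrix β β ℂ) + (1 : Matrix α α ℂ) ⊗ₖ X₂ =
      W * diagonal (fun p : α × β => (h₁.eigenvalues p.1 : ℂ) + (h₂.eigenvalues p.2 : ℂ)) *
        W⁻¹ := by
    rw [← e3, ← hinv]
    calc X₁ ⊗ₖ (1 : Matrix β β ℂ) + (1 : Matrix α α ℂ) ⊗ₖ X₂ =
        (W * star W) * (X₁ ⊗ₖ (1 : Matrix β β ℂ) + (1 : Matrix α α ℂ) ⊗ₖ X₂) *
          (W * star W) := by rw [hWW', Matrix.one_mul, Matrix.mul_one]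
      _ = _ := by simp only [Matrix.mul_assoc]
  rw [e4, Matrix.exp_conj _ _ hunit, Matrix.exp_diagonal, Matrix.trace_mul_comm,
    ← Matrix.mul_assoc, ← hinv, hWW, Matrix.one_mul, Matrix.trace_diagonal, Complex.ofReal_sum]
  refine Finset.sum_congr rfl fun p _ => ?_
  rw [Pi.exp_def]
  simp [← Complex.exp_eq_exp_ℂ]

/-- Subadditivity tool: if `Y ≤ X₁ ⊗ 1 + 1 ⊗ X₂` then `tr e^Y ≤ tr e^{X₁} tr e^{X₂}`. -/
theorem trace_exp_prod_ge [Nonempty α] [Nonempty β] (e : α × β ≃ γ) {X₁ : Matrix α α ℂ}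
    {X₂ : Matrix β β ℂ}
    {Y : Matrix γ γ ℂ} (h₁ : X₁.IsHermitian) (h₂ : X₂.IsHermitian) (hY : Y.IsHermitian)
    (hP : ((X₁ ⊗ₖ (1 : Matrix β β ℂ) + (1 : Matrix α α ℂ) ⊗ₖ X₂) - Y.submatrix e e).PosSemidef) :
    (trace (NormedSpace.exp Y)).re ≤
    (trace (NormedSpace.exp X₁)).re * (trace (NormedSpace.exp X₂)).re := by
  have hY' : (Y.submatrix e e).IsHermitian := hY.submatrix e
  have hX : (X₁ ⊗ₖ (1 : Matrix β β ℂ) + (1 : Matrix α α ℂ) ⊗ₖ X₂).IsHermitian := by
    rw [Matrix.IsHermitian, Matrix.conjTranspose_add, Matrix.conjTranspose_kronecker,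
      Matrix.conjTranspose_kronecker, h₁, h₂, Matrix.conjTranspose_one, Matrix.conjTranspose_one]
  have h := trace_exp_mono hY' hX hP
  rw [trace_exp_submatrix, trace_exp_kron h₁ h₂, Complex.ofReal_re] at h
  refine h.trans (le_of_eq ?_)
  rw [trace_exp_re h₁, trace_exp_re h₂, Finset.sum_mul_sum, Fintype.sum_prod_type]
  simp_rw [Real.exp_add]

end General

section

variable {d κ : Type*} [Fintype d] [DecidableEq d] [Fintype κ]
  {V : Type*} [Fintype V] [DecidableEq V]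
  {V₁ : Type*} [Fintype V₁] [DecidableEq V₁] {V₂ : Type*} [Fintype V₂] [DecidableEq V₂]

/-- Splitting identity of the total exponent. -/
theorem totOp_split_eq (b c : ℝ) (S : κ → Matrix d d ℂ)
    (F : Matrix d d ℂ) (adj : V → V → Prop) [DecidableRel adj] (f : V₁ ⊕ V₂ ≃ V) :
    (totOp b c S F adj).submatrix (confEquiv f) (confEquiv f) -
      (totOp b c S F (fun x y : V₁ => adj (f (Sum.inl x)) (f (Sum.inl y))) ⊗ₖ
          (1 : Matrix (V₂ → d) (V₂ → d) ℂ) +
        (1 : Matrix (V₁ → d) (V₁ → d) ℂ) ⊗ₖ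
          totOp b c S F (fun x y : V₂ => adj (f (Sum.inr x)) (f (Sum.inr y)))) =
      (b : ℂ) • ((∑ x : V₁, ∑ y : V₂, if adj (f (Sum.inl x)) (f (Sum.inr y)) then
          (pairOp c S (f (Sum.inl x)) (f (Sum.inr y))).submatrix (confEquiv f) (confEquiv f)
          else 0) +
        (∑ x : V₂, ∑ y : V₁, if adj (f (Sum.inr x)) (f (Sum.inl y)) then
          (pairOp c S (f (Sum.inr x)) (f (Sum.inl y))).submatrix (confEquiv f) (confEquiv f)
          else 0)) := by
  have h2 : ∀ x y : V, (if adj x y then pairOp c S x y else 0).submatrix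
      (confEquiv f) (confEquiv f) = if adj x y then (pairOp c S x y).submatrix
      (confEquiv f) (confEquiv f) else 0 := by
    intro x y
    by_cases h : adj x y
    · rw [if_pos h, if_pos h]
    · rw [if_neg h, if_neg h]
      ext i j; rfl
  have h3 : ∀ x y : V₁, (if adj (f (Sum.inl x)) (f (Sum.inl y)) then pairOp c S x y
      else 0) ⊗ₖ (1 : Matrix (V₂ → d) (V₂ → d) ℂ) =
      if adj (f (Sum.inl x)) (f (Sum.inl y)) then
        pairOp c S x y ⊗ₖ (1 : Matrix (V₂ → d) (V₂ → d) ℂ) else 0 := by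
    intro x y
    by_cases h : adj (f (Sum.inl x)) (f (Sum.inl y))
    · rw [if_pos h, if_pos h]
    · rw [if_neg h, if_neg h]
      exact Matrix.zero_kronecker _
  have h4 : ∀ x y : V₂, (1 : Matrix (V₁ → d) (V₁ → d) ℂ) ⊗ₖ
      (if adj (f (Sum.inr x)) (f (Sum.inr y)) then pairOp c S x y else 0) =
      if adj (f (Sum.inr x)) (f (Sum.inr y)) then
        (1 : Matrix (V₁ → d) (V₁ → d) ℂ) ⊗ₖ pairOp c S x y else 0 := by
    intro x y
    by_cases h : adj (f (Sum.inr x)) (f (Sum.inr y))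
    · rw [if_pos h, if_pos h]
    · rw [if_neg h, if_neg h]
      exact Matrix.kronecker_zero _
  simp only [totOp, Matrix.submatrix_add, Pi.add_apply, Matrix.submatrix_smul, Pi.smul_apply,
    submatrix_sum_eq, h2, Matrix.add_kronecker, Matrix.smul_kronecker, sum_kron,
    Matrix.kronecker_add, Matrix.kronecker_smul, kron_sum, h3, h4]
  simp only [← Equiv.sum_comp f, Fintype.sum_sum_type, pairOp_inl, pairOp_inr, siteOpV_inl,
    siteOpV_inr, Finset.sum_add_distrib, smul_add]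
  abel

/-- Subadditivity of `logZ` when the pair terms are negative. -/
theorem logZ_subadd [Nonempty d] {b c : ℝ} (hb : 0 ≤ b) {S : κ → Matrix d d ℂ}
    (hS : ∀ a, (S a).IsHermitian) {F : Matrix d d ℂ} (hF : F.IsHermitian)
    (adj : V → V → Prop) [DecidableRel adj] (hadj : ∀ x, ¬ adj x x)
    (hneg : ∀ x y : V, x ≠ y → (-pairOp c S x y).PosSemidef) (f : V₁ ⊕ V₂ ≃ V) :
    logZ b c S F adj ≤
    logZ b c S F (fun x y : V₁ => adj (f (Sum.inl x)) (f (Sum.inl y))) +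
      logZ b c S F (fun x y : V₂ => adj (f (Sum.inr x)) (f (Sum.inr y))) := by
  have h1 := totOp_isHermitian b c hS hF (fun x y : V₁ => adj (f (Sum.inl x)) (f (Sum.inl y)))
    (fun x => hadj _)
  have h2 := totOp_isHermitian b c hS hF (fun x y : V₂ => adj (f (Sum.inr x)) (f (Sum.inr y)))
    (fun x => hadj _)
  have h3 := totOp_isHermitian b c hS hF adj hadj
  have key : ((totOp b c S F (fun x y : V₁ => adj (f (Sum.inl x)) (f (Sum.inl y))) ⊗ₖ
          (1 : Matrix (V₂ → d) (V₂ → d) ℂ) +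
        (1 : Matrix (V₁ → d) (V₁ → d) ℂ) ⊗ₖ
          totOp b c S F (fun x y : V₂ => adj (f (Sum.inr x)) (f (Sum.inr y)))) -
      (totOp b c S F adj).submatrix (confEquiv f) (confEquiv f)).PosSemidef := by
    have e := totOp_split_eq b c S F adj f
    rw [← neg_sub, e, ← smul_neg, neg_add, ← Finset.sum_neg_distrib, ← Finset.sum_neg_distrib]
    refine Matrix.PosSemidef.smul ?_ (by simpa using hb)
    refine Matrix.PosSemidef.add ?_ ?_
    · refine Matrix.posSemidef_sum _ fun x _ => ?_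
      rw [← Finset.sum_neg_distrib]
      refine Matrix.posSemidef_sum _ fun y _ => ?_
      split_ifs
      · refine Matrix.PosSemidef.submatrix (hneg _ _ ?_) _
        intro h
        simpa using f.injective h
      · rw [neg_zero]; exact Matrix.PosSemidef.zero
    · refine Matrix.posSemidef_sum _ fun x _ => ?_
      rw [← Finset.sum_neg_distrib]
      refine Matrix.posSemidef_sum _ fun y _ => ?_
      split_ifs
      · refine Matrix.PosSemidef.submatrix (hneg _ _ ?_) _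
        intro h
        simpa using f.injective h
      · rw [neg_zero]; exact Matrix.PosSemidef.zero
  have h := trace_exp_prod_ge (confEquiv f) h1 h2 h3 key
  have p1 := trace_exp_pos h1
  have p2 := trace_exp_pos h2
  have p3 := trace_exp_pos h3
  unfold logZ
  rw [← Real.log_mul p1.ne' p2.ne']
  exact Real.log_le_log p3 h

end

section Lattice

variable {n : ℕ} {Λ : Finset Site}

/-- One-site field term. -/
noncomputable def fld (n : ℕ) (t : ℝ) : Matrix (Fin (n + 1)) (Fin (n + 1)) ℂ :=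
  -((t : ℂ) • (((n : ℂ) / 2) • (1 : Matrix (Fin (n + 1)) (Fin (n + 1)) ℂ) - spin n 2))

theorem fld_isHermitian (n : ℕ) (t : ℝ) : (fld n t).IsHermitian := by
  rw [fld, Matrix.IsHermitian, Matrix.conjTranspose_neg, Matrix.conjTranspose_smul,
    Matrix.conjTranspose_sub, Matrix.conjTranspose_smul, Matrix.conjTranspose_one,
    spin_isHermitian n 2]
  simp

theorem pairOp_eq_dot (x y : Λ) : pairOp (-((n : ℝ) / 2) ^ 2) (spin n) x y =
    -((((n : ℂ) / 2) ^ 2) • (1 : Matrix (Λ → Fin (n + 1)) (Λ → Fin (n + 1)) ℂ) -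
      H.dotOp n x y) := by
  unfold pairOp H.dotOp
  simp only [siteOp_eq_siteOpV]
  push_cast
  module

theorem neg_pairOp_posSemidef {x y : Λ} (hxy : x ≠ y) :
    (-pairOp (-((n : ℝ) / 2) ^ 2) (spin n) x y).PosSemidef := by
  rw [pairOp_eq_dot, neg_neg]
  have h := H.dot_sos (n := n) hxy
  have h2 : (((n : ℂ) / 2) ^ 2) • (1 : Matrix (Λ → Fin (n + 1)) (Λ → Fin (n + 1)) ℂ) -
      H.dotOp n x y = (1 / 2 : ℂ) • ((H.oA n x * H.oB n y - H.oB n x * H.oA n y)ᴴ *
        (H.oA n x * H.oB n y - H.oB n x * H.oA n y)) := by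
    rw [h]
    module
  rw [h2]
  exact Matrix.PosSemidef.smul (Matrix.posSemidef_conjTranspose_mul_self _)
    (by norm_num [Complex.le_def])

theorem totOp_eq_hT (β t : ℝ) : totOp (V := Λ) (β / 2) (-((n : ℝ) / 2) ^ 2) (spin n) (fld n t)
      (fun x y => IsNN x.1 y.1) =
      -((β : ℂ) • hT n Λ + (t : ℂ) • numOp n Λ) := by
  unfold totOp hT numOp fld
  simp only [pairOp_eq_dot]
  have e1 : (∑ x : Λ, ∑ y : Λ, if IsNN x.1 y.1 then
      -((((n : ℂ) / 2) ^ 2) • (1 : Matrix (Λ → Fin (n + 1)) (Λ → Fin (n + 1)) ℂ) -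
      H.dotOp n x y) else 0) = -∑ x : Λ, ∑ y : Λ, if IsNN x.1 y.1 then
      ((((n : ℂ) / 2) ^ 2) • (1 : Matrix (Λ → Fin (n + 1)) (Λ → Fin (n + 1)) ℂ) -
      H.dotOp n x y) else 0 := by
    rw [← Finset.sum_neg_distrib]
    refine Finset.sum_congr rfl fun x _ => ?_
    rw [← Finset.sum_neg_distrib]
    refine Finset.sum_congr rfl fun y _ => ?_
    split_ifs <;> simp
  rw [e1]
  have e2 : ∀ x : Λ, siteOpV x (-((t : ℂ) • (((n : ℂ) / 2) •
      (1 : Matrix (Fin (n + 1)) (Fin (n + 1)) ℂ) - spin n 2))) =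
      -((t : ℂ) • (((n : ℂ) / 2) • (1 : Matrix _ _ ℂ) - H.oZ n x)) := by
    intro x
    rw [siteOpV_neg, siteOpV_smul, siteOpV_sub, siteOpV_smul, siteOpV_one,
      ← siteOp_eq_siteOpV]
    rfl
  simp only [e2, Finset.sum_neg_distrib, ← Finset.smul_sum]
  push_cast
  module

theorem log_Zt_eq (β t : ℝ) : Real.log (Zt n Λ β t) =
    lz (β / 2) (-((n : ℝ) / 2) ^ 2) n (fld n t) Λ := by
  unfold lz logZ Zt
  rw [totOp_eq_hT]

theorem hT_isHermitian : (hT n Λ).IsHermitian := by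
  have h := totOp_isHermitian (V := Λ) ((-2 : ℝ) / 2) (-((n : ℝ) / 2) ^ 2) (spin_isHermitian n)
    (fld_isHermitian n 0) (fun x y => IsNN x.1 y.1) (fun x => isNN_irrefl x.1)
  rw [totOp_eq_hT] at h
  have h2 : hT n Λ = (1 / 2 : ℂ) • (-((((-2 : ℝ) : ℂ)) • hT n Λ + ((0 : ℝ) : ℂ) • numOp n Λ)) := by
    push_cast
    module
  rw [h2, Matrix.IsHermitian, Matrix.conjTranspose_smul, h]
  congr 1
  simp

theorem expo_isHermitian' (β t : ℝ) :
    (-((β : ℂ) • hT n Λ + (t : ℂ) • numOp n Λ)).IsHermitian := by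
  rw [← totOp_eq_hT]
  exact totOp_isHermitian (V := Λ) (β / 2) (-((n : ℝ) / 2) ^ 2) (spin_isHermitian n)
    (fld_isHermitian n t) (fun x y => IsNN x.1 y.1) (fun x => isNN_irrefl x.1)

theorem Zt_pos (β t : ℝ) : 0 < Zt n Λ β t := trace_exp_pos (expo_isHermitian' β t)

theorem hT_posSemidef : (hT n Λ).PosSemidef := by
  unfold hT
  refine Matrix.PosSemidef.smul ?_ (by norm_num [Complex.le_def])
  refine Matrix.posSemidef_sum _ fun x _ => Matrix.posSemidef_sum _ fun y _ => ?_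
  split_ifs with h
  · have h2 := neg_pairOp_posSemidef (n := n) (Λ := Λ) (x := x) (y := y) (by
      rintro rfl; exact isNN_irrefl _ h)
    rwa [pairOp_eq_dot, neg_neg] at h2
  · exact Matrix.PosSemidef.zero

end Lattice

section Ground

variable {n : ℕ} {Λ : Finset Site}

/-- The fully polarized configuration. -/
def e0 (n : ℕ) (Λ : Finset Site) : (Λ → Fin (n + 1)) → ℂ := Pi.single (fun _ => 0) 1

theorem oB_e0 (y : Λ) : H.oB n y *ᵥ e0 n Λ = 0 := by
  ext σ
  rw [e0, Matrix.mulVec_single_one]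
  refine (H.siteOp_apply y (H.schwB n) σ (fun _ => 0)).trans ?_
  simp [H.schwB]

theorem oZ_e0 (y : Λ) : H.oZ n y *ᵥ e0 n Λ = ((n : ℂ) / 2) • e0 n Λ := by
  have h : H.oZ n y = ((n : ℂ) / 2) • (1 : Matrix _ _ ℂ) - (H.oB n y)ᴴ * H.oB n y := by
    rw [siteOp_conjTranspose, H.siteOp_mul, H.schwB_schwB, H.siteOp_sub, H.siteOp_smul,
      H.siteOp_one]
    abel
  rw [h, Matrix.sub_mulVec, ← Matrix.mulVec_mulVec, oB_e0, Matrix.mulVec_zero, sub_zero,
    Matrix.smul_mulVec, Matrix.one_mulVec]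

theorem pair_e0 {x y : Λ} (hxy : x ≠ y) :
    ((((n : ℂ) / 2) ^ 2) • (1 : Matrix (Λ → Fin (n + 1)) (Λ → Fin (n + 1)) ℂ) -
      H.dotOp n x y) *ᵥ e0 n Λ = 0 := by
  have h := H.dot_sos (n := n) hxy
  have h2 : (((n : ℂ) / 2) ^ 2) • (1 : Matrix (Λ → Fin (n + 1)) (Λ → Fin (n + 1)) ℂ) -
      H.dotOp n x y = (1 / 2 : ℂ) • ((H.oA n x * H.oB n y - H.oB n x * H.oA n y)ᴴ *
        (H.oA n x * H.oB n y - H.oB n x * H.oA n y)) := by
    rw [h]
    module
  rw [h2, Matrix.smul_mulVec, ← Matrix.mulVec_mulVec, Matrix.sub_mulVec,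
    H.siteOp_comm hxy (H.schwB n) (H.schwA n), ← Matrix.mulVec_mulVec, ← Matrix.mulVec_mulVec,
    oB_e0, oB_e0]
  simp

theorem hT_e0 : hT n Λ *ᵥ e0 n Λ = 0 := by
  unfold hT
  rw [Matrix.smul_mulVec, Matrix.sum_mulVec]
  rw [Finset.sum_eq_zero, smul_zero]
  intro x _
  rw [Matrix.sum_mulVec]
  refine Finset.sum_eq_zero fun y _ => ?_
  split_ifs with h
  · exact pair_e0 (by rintro rfl; exact isNN_irrefl _ h)
  · exact Matrix.zero_mulVec _

theorem numOp_e0 : numOp n Λ *ᵥ e0 n Λ = 0 := by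
  unfold numOp
  rw [Matrix.sum_mulVec]
  refine Finset.sum_eq_zero fun x _ => ?_
  rw [Matrix.sub_mulVec, oZ_e0, Matrix.smul_mulVec, Matrix.one_mulVec, sub_self]

theorem one_le_Zt (β t : ℝ) : 1 ≤ Zt n Λ β t := by
  have h0 : (-((β : ℂ) • hT n Λ + (t : ℂ) • numOp n Λ)) *ᵥ e0 n Λ = 0 := by
    rw [Matrix.neg_mulVec, Matrix.add_mulVec, Matrix.smul_mulVec, Matrix.smul_mulVec, hT_e0,
      numOp_e0]
    simp
  have hH := expo_isHermitian' (n := n) (Λ := Λ) β t
  unfold Zt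
  generalize -((β : ℂ) • hT n Λ + (t : ℂ) • numOp n Λ) = X at h0 hH ⊢
  have h := peierls hH (V := 1) (by simp)
  refine le_trans ?_ h
  rw [star_one, Matrix.one_mul, Matrix.mul_one]
  have h1 : X (fun _ => 0) (fun _ => 0) = 0 := by
    have := congrFun h0 (fun _ => 0)
    rw [e0, Matrix.mulVec_single_one] at this
    exact this
  have h2 : Real.exp ((X (fun _ => 0) (fun _ => 0)).re) ≤ ∑ i, Real.exp ((X i i).re) :=
    Finset.single_le_sum (f := fun i => Real.exp ((X i i).re))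
      (fun _ _ => (Real.exp_pos _).le) (Finset.mem_univ _)
  refine le_trans ?_ h2
  rw [h1]
  simp

theorem numOp_posSemidef : (numOp n Λ).PosSemidef := by
  unfold numOp
  refine Matrix.posSemidef_sum _ fun x _ => ?_
  have h : ((n : ℂ) / 2) • (1 : Matrix (Λ → Fin (n + 1)) (Λ → Fin (n + 1)) ℂ) - H.oZ n x =
      (H.oB n x)ᴴ * H.oB n x := by
    rw [siteOp_conjTranspose, H.siteOp_mul, H.schwB_schwB, H.siteOp_sub, H.siteOp_smul,
      H.siteOp_one]
  rw [h]
  exact Matrix.posSemidef_conjTranspose_mul_self _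

theorem Zt_le_card {β t : ℝ} (hβ : 0 ≤ β) (ht : 0 ≤ t) :
    Zt n Λ β t ≤ ((n : ℝ) + 1) ^ Λ.card := by
  have h := trace_exp_mono (expo_isHermitian' (n := n) (Λ := Λ) β t)
    (Y := (0 : Matrix (Λ → Fin (n + 1)) (Λ → Fin (n + 1)) ℂ)) Matrix.isHermitian_zero (by
      rw [zero_sub, neg_neg]
      exact (hT_posSemidef.smul (by simpa using hβ)).add
        (numOp_posSemidef.smul (by simpa using ht)))
  refine le_trans h (le_of_eq ?_)
  rw [NormedSpace.exp_zero, Matrix.trace_one, Complex.natCast_re]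
  simp

/-- Monotonicity in both parameters. -/
theorem Zt_anti {β β' t t' : ℝ} (hβ : β ≤ β') (ht : t ≤ t') :
    Zt n Λ β' t' ≤ Zt n Λ β t := by
  refine trace_exp_mono (expo_isHermitian' (n := n) (Λ := Λ) β' t')
    (expo_isHermitian' (n := n) (Λ := Λ) β t) ?_
  have e : -((β : ℂ) • hT n Λ + (t : ℂ) • numOp n Λ) - -((β' : ℂ) • hT n Λ + (t' : ℂ) • numOp n Λ)
      = ((β' - β : ℝ) : ℂ) • hT n Λ + ((t' - t : ℝ) : ℂ) • numOp n Λ := by
    push_cast
    module
  rw [e]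
  exact (hT_posSemidef.smul (by rw [Complex.zero_le_real]; linarith)).add
    (numOp_posSemidef.smul (by rw [Complex.zero_le_real]; linarith))

end Ground

section SetFunction

variable {n : ℕ} {β t : ℝ}

theorem log_Zt_nonneg (Λ : Finset Site) : 0 ≤ Real.log (Zt n Λ β t) :=
  Real.log_nonneg (one_le_Zt β t)

theorem log_Zt_le (hβ : 0 ≤ β) (ht : 0 ≤ t) (Λ : Finset Site) :
    Real.log (Zt n Λ β t) ≤ Real.log ((n : ℝ) + 1) * Λ.card := by
  have h := Real.log_le_log (Zt_pos β t) (Zt_le_card (n := n) (Λ := Λ) hβ ht)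
  rwa [Real.log_pow, mul_comm] at h

theorem log_Zt_subadd (hβ : 0 ≤ β) (Λ₁ Λ₂ : Finset Site) (h : Disjoint Λ₁ Λ₂) :
    Real.log (Zt n (Λ₁ ∪ Λ₂) β t) ≤ Real.log (Zt n Λ₁ β t) + Real.log (Zt n Λ₂ β t) := by
  simp only [log_Zt_eq]
  unfold lz
  exact logZ_subadd (V := (Λ₁ ∪ Λ₂ : Finset Site)) (by positivity) (spin_isHermitian n)
    (fld_isHermitian n t) (fun x y : (Λ₁ ∪ Λ₂ : Finset Site) => IsNN x.1 y.1)
    (fun x => isNN_irrefl x.1) (fun x y hxy => neg_pairOp_posSemidef hxy)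
    (Equiv.Finset.union Λ₁ Λ₂ h)

theorem log_Zt_translate (v : Site) (Λ : Finset Site) :
    Real.log (Zt n (Λ.map (addRightEmbedding v)) β t) = Real.log (Zt n Λ β t) := by
  simp only [log_Zt_eq]
  exact lz_translate v Λ

/-- Superadditive companion of `log Zt`. -/
noncomputable def gset (n : ℕ) (β t : ℝ) (Λ : Finset Site) : ℝ :=
  Real.log ((n : ℝ) + 1) * Λ.card - Real.log (Zt n Λ β t)

theorem gset_superadd (hβ : 0 ≤ β) (Λ₁ Λ₂ : Finset Site) (h : Disjoint Λ₁ Λ₂) :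
    gset n β t Λ₁ + gset n β t Λ₂ ≤ gset n β t (Λ₁ ∪ Λ₂) := by
  unfold gset
  rw [Finset.card_union_of_disjoint h]
  push_cast
  linarith [log_Zt_subadd (n := n) (t := t) hβ Λ₁ Λ₂ h]

theorem gset_translate (v : Site) (Λ : Finset Site) :
    gset n β t (Λ.map (addRightEmbedding v)) = gset n β t Λ := by
  unfold gset
  rw [log_Zt_translate, Finset.card_map]

theorem gset_nonneg (hβ : 0 ≤ β) (ht : 0 ≤ t) (Λ : Finset Site) : 0 ≤ gset n β t Λ := by
  unfold gset
  linarith [log_Zt_le (n := n) hβ ht Λ]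

theorem gset_le (Λ : Finset Site) : gset n β t Λ ≤ Real.log ((n : ℝ) + 1) * Λ.card := by
  unfold gset
  linarith [log_Zt_nonneg (n := n) (β := β) (t := t) Λ]

theorem cube_eq (L : ℕ) : cube L = P361.cube L := rfl

/-- (D3) -/
theorem log_Zt_cube_mul (hβ : 0 ≤ β) (ht : 0 ≤ t) (q L : ℕ) (hL : 0 < L) :
    Real.log (Zt n (cube (q * L)) β t) ≤ (q : ℝ) ^ 3 * Real.log (Zt n (cube L) β t) := by
  have h := G_cube_mul (G := gset n β t) (gset_superadd hβ) gset_translate
    (gset_nonneg hβ ht) L q (q * L) hL le_rfl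
  unfold gset at h
  rw [card_cube, card_cube] at h
  rw [cube_eq, cube_eq]
  push_cast at h
  nlinarith

/-- Existence of the limit along boxes. -/
theorem log_Zt_box_le (hβ : 0 ≤ β) (ht : 0 ≤ t) {a : ℝ} (L : ℕ) (hL : 0 < L)
    (ha : Tendsto (fun N : ℕ => Real.log (Zt n (box N) β t) / ((box N).card : ℝ)) atTop (𝓝 a)) :
    a ≤ Real.log (Zt n (cube L) β t) / (L : ℝ) ^ 3 := by
  have hLR : (0 : ℝ) < L := by exact_mod_cast hL
  -- lower bound for the superadditive function along boxes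
  have h1 : ∀ N : ℕ, ((((2 * N + 1) / L : ℕ) : ℝ) / ((2 * N + 1 : ℕ) : ℝ)) ^ 3 *
      gset n β t (cube L) ≤ gset n β t (box N) / ((box N).card : ℝ) := by
    intro N
    have h := G_cube_mul (G := gset n β t) (gset_superadd hβ) gset_translate
      (gset_nonneg hβ ht) L ((2 * N + 1) / L) (2 * N + 1) hL (Nat.div_mul_le_self _ _)
    rw [box_eq_map, gset_translate, Finset.card_map, card_cube]
    have hpos : (0 : ℝ) < ((2 * N + 1 : ℕ) : ℝ) := by positivity
    rw [Nat.cast_pow, le_div_iff₀ (by positivity), div_pow]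
    rw [cube_eq]
    calc _ = (((2 * N + 1) / L : ℕ) : ℝ) ^ 3 * gset n β t (P361.cube L) := by
          field_simp
      _ ≤ _ := h
  have h2 : Tendsto (fun N : ℕ => ((((2 * N + 1) / L : ℕ) : ℝ) / ((2 * N + 1 : ℕ) : ℝ)) ^ 3 *
      gset n β t (cube L)) atTop (𝓝 ((1 / (L : ℝ)) ^ 3 * gset n β t (cube L))) := by
    refine Tendsto.mul_const _ (Tendsto.pow ?_ 3)
    have h3 := (tendsto_nat_floor_mul_div_atTop (R := ℝ) (a := 1 / (L : ℝ))
      (by positivity)).comp tendsto_natCast_atTop_atTop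
    have h4 : Tendsto (fun N : ℕ => 2 * N + 1) atTop atTop := by
      refine tendsto_atTop_mono (fun n => ?_) tendsto_id
      simp only [id]; omega
    refine (h3.comp h4).congr fun N => ?_
    simp only [Function.comp]
    congr 2
    rw [one_div, inv_mul_eq_div, Nat.floor_div_eq_div]
  have h5 : Tendsto (fun N : ℕ => gset n β t (box N) / ((box N).card : ℝ)) atTop
      (𝓝 (Real.log ((n : ℝ) + 1) - a)) := by
    refine (tendsto_const_nhds.sub ha).congr fun N => ?_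
    have hpos : (0 : ℝ) < (box N).card := by exact_mod_cast (box_nonempty N).card_pos
    unfold gset
    field_simp
  have h6 := le_of_tendsto_of_tendsto' h2 h5 h1
  unfold gset at h6
  rw [cube_eq, card_cube] at h6
  rw [cube_eq]
  push_cast at h6
  have h7 : (1 / (L : ℝ)) ^ 3 * (Real.log ((n : ℝ) + 1) * (L : ℝ) ^ 3 -
      Real.log (Zt n (P361.cube L) β t)) = Real.log ((n : ℝ) + 1) -
      Real.log (Zt n (P361.cube L) β t) / (L : ℝ) ^ 3 := by
    field_simp
  linarith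

end SetFunction

section Pressure

variable {n : ℕ}

theorem nn_count_eq (Λ : Finset Site) (x : Site) :
    (∑ y ∈ Λ, if IsNN x y then (1 : ℝ) else 0) =
      ((Finset.univ.filter fun p : Fin 3 × Bool => x + H.dir p ∈ Λ).card : ℝ) := by
  rw [← Finset.sum_filter, Finset.sum_const, nsmul_eq_mul, mul_one]
  congr 1
  symm
  refine Finset.card_bij (fun p _ => x + H.dir p) ?_ ?_ ?_
  · intro p hp
    rw [Finset.mem_filter] at hp ⊢
    exact ⟨hp.2, (H.isNN_iff _ _).2 ⟨p, rfl⟩⟩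
  · intro p _ q _ h
    exact H.dir_injective (by simpa using h)
  · intro y hy
    rw [Finset.mem_filter] at hy
    obtain ⟨p, rfl⟩ := (H.isNN_iff _ _).1 hy.2
    exact ⟨p, by rw [Finset.mem_filter]; exact ⟨Finset.mem_univ _, hy.1⟩, rfl⟩

theorem edgeCount_le_six (Λ : Finset Site) : edgeCount Λ ≤ 6 * Λ.card := by
  rw [edgeCount_eq]
  calc ∑ x ∈ Λ, ∑ y ∈ Λ, (if IsNN x y then (1 : ℝ) else 0) ≤ ∑ _x ∈ Λ, (6 : ℝ) := by
        refine Finset.sum_le_sum fun x _ => ?_
        rw [nn_count_eq]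
        have : (Finset.univ.filter fun p : Fin 3 × Bool => x + H.dir p ∈ Λ).card ≤ 6 :=
          (Finset.card_filter_le _ _).trans (by simp)
        exact_mod_cast this
    _ = 6 * Λ.card := by
        rw [Finset.sum_const, nsmul_eq_mul]; ring

theorem dir_abs_le : ∀ (p : Fin 3 × Bool) (i : Fin 3), |H.dir p i| ≤ 1 := by decide

theorem edgeCount_box_ge (N : ℕ) : 6 * ((2 * (N : ℝ) + 1) ^ 3) ≤ edgeCount (box (N + 1)) := by
  rw [edgeCount_eq]
  have hsub : box N ⊆ box (N + 1) := by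
    intro x hx
    rw [H.mem_box] at hx ⊢
    intro i
    have := hx i
    push_cast
    constructor <;> linarith
  calc 6 * ((2 * (N : ℝ) + 1) ^ 3) = ∑ _x ∈ box N, (6 : ℝ) := by
        rw [Finset.sum_const, nsmul_eq_mul, card_box]; push_cast; ring
    _ ≤ ∑ x ∈ box N, ∑ y ∈ box (N + 1), (if IsNN x y then (1 : ℝ) else 0) := by
        refine Finset.sum_le_sum fun x hx => ?_
        rw [nn_count_eq, Finset.filter_true_of_mem]
        · simp
        · intro p _
          rw [H.mem_box] at hx ⊢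
          intro i
          have h1 := hx i
          have h2 : |H.dir p i| ≤ 1 := dir_abs_le p i
          have h3 := abs_le.1 h2
          simp only [Pi.add_apply]
          push_cast
          constructor <;> linarith
    _ ≤ ∑ x ∈ box (N + 1), ∑ y ∈ box (N + 1), (if IsNN x y then (1 : ℝ) else 0) := by
        refine Finset.sum_le_sum_of_subset_of_nonneg hsub fun _ _ _ => ?_
        exact Finset.sum_nonneg fun _ _ => by split_ifs <;> norm_num

theorem edge_density : Tendsto (fun N : ℕ => edgeCount (box N) / ((box N).card : ℝ)) atTop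
    (𝓝 6) := by
  rw [← tendsto_add_atTop_iff_nat 1]
  have h1 : Tendsto (fun N : ℕ => 6 * ((2 * (N : ℝ) + 1) / (2 * ((N : ℝ) + 1) + 1)) ^ 3) atTop
      (𝓝 (6 * 1 ^ 3)) := by
    refine Tendsto.const_mul _ (Tendsto.pow ?_ 3)
    have h2 : Tendsto (fun N : ℕ => 1 - 2 / (2 * ((N : ℝ) + 1) + 1)) atTop (𝓝 (1 - 0)) := by
      refine tendsto_const_nhds.sub (Tendsto.div_atTop tendsto_const_nhds ?_)
      refine tendsto_atTop_mono (f := fun N : ℕ => (N : ℝ)) (fun N => ?_)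
        tendsto_natCast_atTop_atTop
      have : (0 : ℝ) ≤ N := Nat.cast_nonneg N
      linarith
    rw [sub_zero] at h2
    refine h2.congr fun N => ?_
    have : (0 : ℝ) ≤ N := Nat.cast_nonneg N
    field_simp
    ring
  rw [one_pow, mul_one] at h1
  refine tendsto_of_tendsto_of_tendsto_of_le_of_le h1 tendsto_const_nhds (fun N => ?_)
    (fun N => ?_)
  · have h3 := edgeCount_box_ge N
    simp only
    rw [card_box, le_div_iff₀ (by positivity), div_pow]
    push_cast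
    refine le_trans (le_of_eq ?_) h3
    have : (0 : ℝ) ≤ N := Nat.cast_nonneg N
    field_simp
  · have h3 := edgeCount_le_six (box (N + 1))
    have hpos : (0 : ℝ) < (box (N + 1)).card := by exact_mod_cast (box_nonempty (N + 1)).card_pos
    simp only
    rw [div_le_iff₀ hpos]
    exact h3

/-- The reduced pressure `β (p_β(h) - 3S² - S h)`. -/
noncomputable def gRed (n : ℕ) (β h : ℝ) : ℝ :=
  β * (pressure n β h - 3 * ((n : ℝ) / 2) ^ 2 - (n : ℝ) / 2 * h)

theorem finPressure_Zt (Λ : Finset Site) (β h : ℝ) :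
    finPressure n Λ β h = (β * Λ.card)⁻¹ * (Real.log (Zt n Λ β (β * h)) +
      (β / 2) * ((n : ℝ) / 2) ^ 2 * edgeCount Λ + β * h * ((n : ℝ) / 2) * Λ.card) := by
  rw [finPressure_eq n Λ β h (-((n : ℝ) / 2) ^ 2) (-(β * h * ((n : ℝ) / 2))), log_Zt_eq]
  have e : (((-(β * h * ((n : ℝ) / 2)) : ℝ) : ℂ) •
      (1 : Matrix (Fin (n + 1)) (Fin (n + 1)) ℂ) + ((β * h : ℝ) : ℂ) • spin n 2) =
      fld n (β * h) := by
    unfold fld
    push_cast
    module
  rw [e]
  ring

/-- `β (p - 3S² - S h)` is the limit of `|Λ|⁻¹ log Zt`. -/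
theorem gRed_tendsto {β : ℝ} (hβ : 0 < β) (h : ℝ) :
    Tendsto (fun N : ℕ => Real.log (Zt n (box N) β (β * h)) / ((box N).card : ℝ)) atTop
      (𝓝 (gRed n β h)) := by
  have h1 := ((pressure_tendsto n hβ h).const_mul β)
  have h2 := (edge_density.const_mul (β / 2 * ((n : ℝ) / 2) ^ 2))
  have h3 := (h1.sub h2).sub_const (β * ((n : ℝ) / 2) * h)
  have e : β * pressure n β h - β / 2 * ((n : ℝ) / 2) ^ 2 * 6 - β * ((n : ℝ) / 2) * h =
      gRed n β h := by
    unfold gRed; ring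
  rw [e] at h3
  refine h3.congr fun N => ?_
  have hpos : (0 : ℝ) < (box N).card := by exact_mod_cast (box_nonempty N).card_pos
  rw [finPressure_Zt]
  field_simp
  ring

/-- (D1) -/
theorem gRed_le {β h : ℝ} (hβ : 0 < β) (hh : 0 ≤ h) {L : ℕ} (hL : 0 < L) :
    gRed n β h ≤ Real.log (Zt n (cube L) β (β * h)) / (L : ℝ) ^ 3 :=
  log_Zt_box_le hβ.le (by positivity) L hL (gRed_tendsto hβ h)

theorem gRed_nonneg {β : ℝ} (hβ : 0 < β) (h : ℝ) : 0 ≤ gRed n β h := by
  refine ge_of_tendsto' (gRed_tendsto (n := n) hβ h) fun N => ?_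
  exact div_nonneg (log_Zt_nonneg _) (by positivity)

end Pressure

end Vale.Agent.P361.B
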