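import Vale.Agent.P361.B.Lower

/-!
Part B, step D8: from bounds on the reduced pressure to the uniform Bloch law in small fields.
-/

namespace Vale.Agent.P361.B

open MeasureTheory Filter Topology

/-- `(4πS)^{-3/2} Li_{3/2}(e^{-t})`. -/
noncomputable def fS (S t : ℝ) : ℝ :=
  (Real.sqrt (4 * Real.pi * S) ^ 3)⁻¹ *
    ∑' r : ℕ, Real.exp (-(((r : ℝ) + 1) * t)) / Real.sqrt ((r : ℝ) + 1) ^ 3

/-- `(4πS)^{-3/2} Li_{5/2}(e^{-t})`. -/
noncomputable def FS (S t : ℝ) : ℝ :=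
  (Real.sqrt (4 * Real.pi * S) ^ 3)⁻¹ *
    ∑' r : ℕ, Real.exp (-(((r : ℝ) + 1) * t)) / (((r : ℝ) + 1) * Real.sqrt ((r : ℝ) + 1) ^ 3)

theorem zsum : Summable (fun r : ℕ => 1 / Real.sqrt ((r : ℝ) + 1) ^ 3) := H.zeta_hasSum.summable

theorem exp_le_one {t : ℝ} (ht : 0 ≤ t) (r : ℕ) : Real.exp (-(((r : ℝ) + 1) * t)) ≤ 1 := by
  rw [Real.exp_le_one_iff]
  have : 0 ≤ ((r : ℝ) + 1) * t := by positivity
  linarith

theorem summable_f {t : ℝ} (ht : 0 ≤ t) :
    Summable (fun r : ℕ => Real.exp (-(((r : ℝ) + 1) * t)) / Real.sqrt ((r : ℝ) + 1) ^ 3) := by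
  refine Summable.of_nonneg_of_le (fun r => by positivity) (fun r => ?_) zsum
  exact div_le_div_of_nonneg_right (exp_le_one ht r) (by positivity)

theorem summable_F {t : ℝ} (ht : 0 ≤ t) :
    Summable (fun r : ℕ => Real.exp (-(((r : ℝ) + 1) * t)) /
      (((r : ℝ) + 1) * Real.sqrt ((r : ℝ) + 1) ^ 3)) := by
  refine Summable.of_nonneg_of_le (fun r => by positivity) (fun r => ?_) (summable_f ht)
  refine div_le_div_of_nonneg_left (Real.exp_pos _).le (by positivity) ?_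
  exact le_mul_of_one_le_left (by positivity) (by linarith [Nat.cast_nonneg (α := ℝ) r])

theorem fR_tendsto (S : ℝ) {t : ℝ} (ht : 0 ≤ t) :
    Tendsto (fun R => fR S R t) atTop (𝓝 (fS S t)) :=
  (summable_f ht).hasSum.tendsto_sum_nat.const_mul _

theorem FR_tendsto (S : ℝ) {t : ℝ} (ht : 0 ≤ t) :
    Tendsto (fun R => FR S R t) atTop (𝓝 (FS S t)) :=
  (summable_F ht).hasSum.tendsto_sum_nat.const_mul _

theorem fS_nonneg (S t : ℝ) : 0 ≤ fS S t :=
  mul_nonneg (by positivity) (tsum_nonneg fun r => by positivity)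

theorem FS_nonneg (S t : ℝ) : 0 ≤ FS S t :=
  mul_nonneg (by positivity) (tsum_nonneg fun r => by positivity)

theorem fS_zero (S : ℝ) : fS S 0 = aS S := by
  unfold fS aS
  rw [← H.zeta_hasSum.tsum_eq]
  simp

theorem fS_le (S : ℝ) {t : ℝ} (ht : 0 ≤ t) : fS S t ≤ aS S :=
  le_of_tendsto' (fR_tendsto S ht) fun R => fR_le S R ht

/-- Convexity estimate for `f`. -/
theorem fS_sub_le (S : ℝ) {t δ : ℝ} (ht : 0 ≤ t) (hδ : 0 ≤ δ) :
    fS S t - fS S (t + δ) ≤ fS S 0 - fS S δ := by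
  unfold fS
  rw [← mul_sub, ← mul_sub, ← (summable_f ht).tsum_sub (summable_f (add_nonneg ht hδ)),
    ← (summable_f le_rfl).tsum_sub (summable_f hδ)]
  refine mul_le_mul_of_nonneg_left ?_ (by positivity)
  refine Summable.tsum_le_tsum (fun r => ?_) ((summable_f ht).sub (summable_f (add_nonneg ht hδ)))
    ((summable_f le_rfl).sub (summable_f hδ))
  rw [← sub_div, ← sub_div]
  refine div_le_div_of_nonneg_right ?_ (by positivity)
  have h1 : Real.exp (-(((r : ℝ) + 1) * (t + δ))) =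
      Real.exp (-(((r : ℝ) + 1) * t)) * Real.exp (-(((r : ℝ) + 1) * δ)) := by
    rw [← Real.exp_add]; congr 1; ring
  have h2 : Real.exp (-(((r : ℝ) + 1) * 0)) = 1 := by simp
  rw [h1, h2]
  have h3 := exp_le_one ht r
  have h4 := exp_le_one hδ r
  nlinarith

/-- `F(t₁) - F(t₁ + δ) ≤ δ f(t₁)`. -/
theorem FS_sub_le (S : ℝ) {t δ : ℝ} (ht : 0 ≤ t) (hδ : 0 ≤ δ) :
    FS S t - FS S (t + δ) ≤ δ * fS S t := by
  unfold FS fS
  rw [← mul_sub, ← (summable_F ht).tsum_sub (summable_F (add_nonneg ht hδ)),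
    mul_left_comm δ]
  refine mul_le_mul_of_nonneg_left ?_ (by positivity)
  rw [← tsum_mul_left]
  refine Summable.tsum_le_tsum (fun r => ?_) ((summable_F ht).sub (summable_F (add_nonneg ht hδ)))
    ((summable_f ht).mul_left δ)
  rw [← sub_div]
  have h1 : Real.exp (-(((r : ℝ) + 1) * (t + δ))) =
      Real.exp (-(((r : ℝ) + 1) * t)) * Real.exp (-(((r : ℝ) + 1) * δ)) := by
    rw [← Real.exp_add]; congr 1; ring
  have h2 : 1 - ((r : ℝ) + 1) * δ ≤ Real.exp (-(((r : ℝ) + 1) * δ)) := by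
    have := Real.add_one_le_exp (-(((r : ℝ) + 1) * δ))
    linarith
  rw [h1, div_le_iff₀ (by positivity)]
  have h3 : δ * (Real.exp (-(((r : ℝ) + 1) * t)) / Real.sqrt ((r : ℝ) + 1) ^ 3) *
      (((r : ℝ) + 1) * Real.sqrt ((r : ℝ) + 1) ^ 3) =
      Real.exp (-(((r : ℝ) + 1) * t)) * (((r : ℝ) + 1) * δ) := by
    have : 0 < Real.sqrt ((r : ℝ) + 1) := Real.sqrt_pos.2 (by positivity)
    field_simp
  rw [h3]
  have := Real.exp_pos (-(((r : ℝ) + 1) * t))
  nlinarith

theorem FS_le (S : ℝ) {t : ℝ} (ht : 0 ≤ t) : FS S t ≤ aS S := by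
  refine le_trans ?_ (fS_le S ht)
  unfold FS fS
  refine mul_le_mul_of_nonneg_left ?_ (by positivity)
  refine Summable.tsum_le_tsum (fun r => ?_) (summable_F ht) (summable_f ht)
  refine div_le_div_of_nonneg_left (Real.exp_pos _).le (by positivity) ?_
  exact le_mul_of_one_le_left (by positivity) (by linarith [Nat.cast_nonneg (α := ℝ) r])

/-- Continuity of `f` at zero from the right. -/
theorem fS_tendsto_zero (S : ℝ) : Tendsto (fS S) (𝓝[≥] 0) (𝓝 (fS S 0)) := by
  unfold fS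
  refine Tendsto.const_mul _ ?_
  refine tendsto_tsum_of_dominated_convergence zsum (fun r => ?_) ?_
  · refine Tendsto.div_const ?_ _
    have : Continuous fun t : ℝ => Real.exp (-(((r : ℝ) + 1) * t)) := by fun_prop
    exact (this.tendsto 0).mono_left nhdsWithin_le_nhds
  · filter_upwards [self_mem_nhdsWithin] with t ht r
    rw [Real.norm_of_nonneg (by positivity)]
    exact div_le_div_of_nonneg_right (exp_le_one ht r) (by positivity)

/-- (D8) Uniform two-sided law from an upper bound on the reduced pressure. -/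
theorem deficit_uniform {n : ℕ} (hn : 1 ≤ n) {κ κ' : ℝ} (hκ : 0 < κ) (hκκ : κ < κ') (hκ1 : κ' ≤ 1)
    (hU : ∃ C β₀ : ℝ, ∀ β : ℝ, β₀ ≤ β → ∀ t : ℝ, β ^ (-κ') ≤ t →
      Real.sqrt β ^ 3 * gRed n β (t / β) ≤ FS ((n : ℝ) / 2) t + C * β ^ (-κ')) :
    ∀ ε : ℝ, 0 < ε → ∀ᶠ β : ℝ in atTop, ∀ t : ℝ, β ^ (-κ) ≤ t →
      |Real.sqrt β ^ 3 * ((n : ℝ) / 2 - H.magAt n β (t / β)) - fS ((n : ℝ) / 2) t| ≤ ε := by
  intro ε hε
  obtain ⟨C, β₀, hU⟩ := hU
  obtain ⟨K, hK1, hK⟩ := mag_lower hn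
  obtain ⟨K', hK1', hK'⟩ := gRed_lower hn
  set S : ℝ := (n : ℝ) / 2 with hS
  have hA := aS_nonneg S
  -- smallness conditions
  have l1 : Tendsto (fun β : ℝ => K / β * aS S) atTop (𝓝 0) := by
    simpa using ((tendsto_const_nhds (x := K)).div_atTop tendsto_id).mul_const (aS S)
  have l2 : Tendsto (fun β : ℝ => fS S 0 - fS S (β ^ (-κ) / 2)) atTop (𝓝 0) := by
    have h1 : Tendsto (fun β : ℝ => β ^ (-κ) / 2) atTop (𝓝[≥] 0) := by
      refine tendsto_nhdsWithin_iff.2 ⟨?_, ?_⟩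
      · simpa using (tendsto_rpow_neg_atTop hκ).div_const 2
      · filter_upwards [eventually_gt_atTop 0] with β hβ
        exact Set.mem_Ici.2 (by positivity)
    have h2 := ((fS_tendsto_zero S).comp h1).const_sub (fS S 0)
    simpa using h2
  have l3 : Tendsto (fun β : ℝ => 2 * (C * β ^ (κ - κ') + K' * aS S * β ^ (κ - 1))) atTop
      (𝓝 0) := by
    have h1 : Tendsto (fun β : ℝ => β ^ (κ - κ')) atTop (𝓝 0) := by
      have := tendsto_rpow_neg_atTop (y := κ' - κ) (by linarith)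
      simpa using this
    have h2 : Tendsto (fun β : ℝ => β ^ (κ - 1)) atTop (𝓝 0) := by
      have := tendsto_rpow_neg_atTop (y := 1 - κ) (by linarith)
      simpa using this
    simpa using ((h1.const_mul C).add (h2.const_mul (K' * aS S))).const_mul 2
  have l4 : Tendsto (fun β : ℝ => β ^ (κ' - κ)) atTop atTop :=
    tendsto_rpow_atTop (by linarith)
  filter_upwards [l1.eventually (ge_mem_nhds hε), l2.eventually (ge_mem_nhds (half_pos hε)),
    l3.eventually (ge_mem_nhds (half_pos hε)), l4.eventually_ge_atTop 2,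
    eventually_ge_atTop β₀, eventually_ge_atTop K, eventually_ge_atTop K',
    eventually_gt_atTop 0] with β e1 e2 e3 e4 hβ0 hβK hβK' hβ t ht
  have hsb : 0 < Real.sqrt β ^ 3 := by positivity
  have hκpos : 0 < β ^ (-κ) := by positivity
  have ht0 : 0 ≤ t := hκpos.le.trans ht
  -- lower bound
  have low : (1 - K / β) * fS S t ≤ Real.sqrt β ^ 3 * (S - H.magAt n β (t / β)) := by
    refine le_of_tendsto' ((fR_tendsto S ht0).const_mul (1 - K / β)) fun R => ?_
    have h := hK β hβK (t / β) (by positivity) R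
    rwa [mul_div_cancel₀ t hβ.ne'] at h
  have low2 : (1 - K' / β) * FS S t ≤ Real.sqrt β ^ 3 * gRed n β (t / β) := by
    refine le_of_tendsto' ((FR_tendsto S ht0).const_mul (1 - K' / β)) fun R => ?_
    have h := hK' β hβK' (t / β) (by positivity) R
    rwa [mul_div_cancel₀ t hβ.ne'] at h
  -- upper bound
  set δ : ℝ := β ^ (-κ) / 2 with hδ
  have hδ0 : 0 < δ := by positivity
  have ht1 : β ^ (-κ') ≤ t - δ := by
    have h1 : β ^ (-κ') * 2 ≤ β ^ (-κ) := by
      calc β ^ (-κ') * 2 ≤ β ^ (-κ') * β ^ (κ' - κ) :=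
            mul_le_mul_of_nonneg_left e4 (by positivity)
        _ = β ^ (-κ) := by rw [← Real.rpow_add hβ]; congr 1; ring
    rw [hδ]
    linarith
  have ht10 : 0 ≤ t - δ := le_trans (by positivity) ht1
  have up := hU β hβ0 (t - δ) ht1
  have sl := mag_le_slope (n := n) hβ (h₁ := (t - δ) / β) (h₀ := t / β)
    (div_lt_div_of_pos_right (by linarith) hβ)
  have e5 : β * (t / β - (t - δ) / β) = δ := by field_simp; ring
  rw [e5, le_div_iff₀ hδ0, ← hS] at sl
  have f1 := FS_sub_le S ht10 hδ0.le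
  have f2 := fS_sub_le S ht10 hδ0.le
  rw [sub_add_cancel] at f1 f2
  have f3 := FS_le S ht0
  have f4 := FS_nonneg S t
  have hi : Real.sqrt β ^ 3 * (S - H.magAt n β (t / β)) ≤ fS S t + ε := by
    have g1 : Real.sqrt β ^ 3 * (S - H.magAt n β (t / β)) * δ ≤
        δ * fS S (t - δ) + (C * β ^ (-κ') + K' / β * aS S) := by
      have g2 := mul_le_mul_of_nonneg_left sl hsb.le
      have g3 : K' / β * FS S t ≤ K' / β * aS S := mul_le_mul_of_nonneg_left f3 (by positivity)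
      have g6 : Real.sqrt β ^ 3 * (S - H.magAt n β (t / β)) * δ =
          Real.sqrt β ^ 3 * ((S - H.magAt n β (t / β)) * δ) := by ring
      rw [g6]
      rw [mul_sub (Real.sqrt β ^ 3) (gRed n β _)] at g2
      linarith
    have g4 : Real.sqrt β ^ 3 * (S - H.magAt n β (t / β)) ≤
        fS S (t - δ) + (C * β ^ (-κ') + K' / β * aS S) / δ := by
      rw [← sub_le_iff_le_add', le_div_iff₀ hδ0]
      linarith
    have g5 : (C * β ^ (-κ') + K' / β * aS S) / δ =
        2 * (C * β ^ (κ - κ') + K' * aS S * β ^ (κ - 1)) := by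
      have h1 : β ^ (κ - κ') = β ^ (-κ') / β ^ (-κ) := by
        rw [← Real.rpow_sub hβ]; congr 1; ring
      have h2 : β ^ (κ - 1) = β⁻¹ / β ^ (-κ) := by
        rw [← Real.rpow_neg_one, ← Real.rpow_sub hβ]; congr 1; ring
      rw [h1, h2, hδ]
      field_simp
    rw [g5] at g4
    linarith
  have hlow : fS S t - ε ≤ Real.sqrt β ^ 3 * (S - H.magAt n β (t / β)) := by
    have g1 : K / β * fS S t ≤ K / β * aS S :=
      mul_le_mul_of_nonneg_left (fS_le S ht0) (by positivity)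
    linarith
  rw [abs_le]
  constructor <;> linarith

end Vale.Agent.P361.B
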